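import Crest.Agent.X212.Nk89.Wt
import Crest.Agent.X212.Ell97.Main
import Crest.Agent.X212.Cht98.Rel

/-! Hardy inequality at infinity, and bijectivity of `L* L` from a lower bound. -/

set_option autoImplicit false
set_option linter.unusedSectionVars false
noncomputable section
open scoped Manifold ContDiff Topology InnerProductSpace
open MeasureTheory Set Function Filter

namespace Crest.Agent.X212.Nk89
open An Sob92 Ell97
open Wz78 (nab)

section abs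
variable {X Y : ℕ → Type*} [∀ k, NormedAddCommGroup (X k)] [∀ k, InnerProductSpace ℝ (X k)]
  [∀ k, NormedAddCommGroup (Y k)] [∀ k, InnerProductSpace ℝ (Y k)]
  [∀ k, CompleteSpace (X k)] [∀ k, CompleteSpace (Y k)]

/-- `‖G₀‖ < 1` from a lower bound -/
theorem G0_lt (P : Half X Y) {C : ℝ} (h : ∀ u, ‖P.i 0 u‖ ≤ C * ‖P.L 0 u‖) :
    ‖P.G0‖ < 1 := by
  have hq : C ^ 2 / (1 + C ^ 2) < 1 := by rw [div_lt_one (by positivity)]; linarith
  refine lt_of_le_of_lt (ContinuousLinearMap.opNorm_le_bound _ (by positivity) fun f => ?_) hq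
  have h1 := P.inner_Q (P.G 0 f) (P.G 0 f)
  rw [P.Q_G, real_inner_self_eq_norm_sq, real_inner_self_eq_norm_sq] at h1
  have h2 := h (P.i 1 (P.G 0 f))
  have h3 := real_inner_le_norm f (P.i 0 (P.i 1 (P.G 0 f)))
  change ‖P.i 0 (P.i 1 (P.G 0 f))‖ ≤ _
  set a := ‖P.i 0 (P.i 1 (P.G 0 f))‖
  set b := ‖P.L 0 (P.i 1 (P.G 0 f))‖
  have ha : 0 ≤ a := norm_nonneg _
  have h4 : a ^ 2 ≤ C ^ 2 * b ^ 2 := by
    rw [← mul_pow]; exact pow_le_pow_left₀ ha h2 2
  rw [div_mul_eq_mul_div, le_div_iff₀ (by positivity)]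
  rcases ha.eq_or_lt with h0 | h0
  · rw [← h0, zero_mul]; positivity
  · refine le_of_mul_le_mul_left ?_ h0
    nlinarith [mul_le_mul_of_nonneg_left (h1 ▸ h3 : a ^ 2 + b ^ 2 ≤ ‖f‖ * a) (sq_nonneg C)]

theorem up_G (P : Half X Y) (k : ℕ) {f : X k} {x : X 0} (hx : x - P.G0 x = dn0 P.i k f) :
    ∀ j, j ≤ k → ∃ y : X j, dn0 P.i j y = x := by
  have dG : ∀ (j : ℕ) (y : X j), dn0 P.i (j + 2) (P.G j y) = P.G0 (dn0 P.i j y) := fun j => by
    induction j with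
    | zero => exact fun y => rfl
    | succ j ih => exact fun y => by rw [dn0_succ (j + 2), ← P.G_i, ih, dn0_succ]
  have dn : ∀ (d j : ℕ) (g : X (j + d)), ∃ y : X j, dn0 P.i j y = dn0 P.i (j + d) g := fun d => by
    induction d with
    | zero => exact fun j g => ⟨g, rfl⟩
    | succ d ih => exact fun j g => ih j (P.i (j + d) g)
  intro j
  induction j with
  | zero => exact fun _ => ⟨x, rfl⟩
  | succ j ih =>
    intro hj
    obtain ⟨y, hy⟩ := ih (by omega)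
    obtain ⟨d, rfl⟩ := Nat.exists_eq_add_of_le hj
    obtain ⟨g, hg⟩ := dn d (j + 1) f
    refine ⟨g + P.i (j + 1) (P.G j y), ?_⟩
    rw [map_add, hg, ← hx, ← dn0_succ, dG, hy, sub_add_cancel]

/-- `L* L` is bijective on all levels if `L` is bounded below in `L²` -/
theorem LL_bij_of_low (P : Half X Y) {C : ℝ} (h : ∀ u, ‖P.i 0 u‖ ≤ C * ‖P.L 0 u‖) (k : ℕ) :
    Bijective (P.LL k) := by
  have dG : ∀ (j : ℕ) (y : X j), dn0 P.i (j + 2) (P.G j y) = P.G0 (dn0 P.i j y) := fun j => by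
    induction j with
    | zero => exact fun y => rfl
    | succ j ih => exact fun y => by rw [dn0_succ (j + 2), ← P.G_i, ih, dn0_succ]
  refine ⟨(injective_iff_map_eq_zero _).2 fun u hu => ?_, fun f => ?_⟩
  · have h1 := h (dn1 P.i (k + 1) u)
    rw [P.L_dn1, P.LL_eq_zero.1 hu, map_zero, norm_zero, mul_zero, i_dn1] at h1
    exact dn0_inj P.i_inj _ ((norm_le_zero_iff.1 h1).trans (map_zero _).symm)
  · obtain ⟨e, he⟩ := isUnit_one_sub_of_norm_lt_one (G0_lt P h)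
    have hx : (e⁻¹ : (X 0 →L[ℝ] X 0)ˣ).1 (dn0 P.i k f) -
        P.G0 ((e⁻¹ : (X 0 →L[ℝ] X 0)ˣ).1 (dn0 P.i k f)) = dn0 P.i k f := by
      have := congrArg (fun T : X 0 →L[ℝ] X 0 => T (dn0 P.i k f)) e.mul_inv
      simpa [he] using this
    obtain ⟨y, hy⟩ := up_G P k hx k le_rfl
    refine ⟨P.G k y, dn0_inj P.i_inj k ?_⟩
    have h2 := P.Q_G k y
    rw [P.Q_apply] at h2
    have h3 : P.LL k (P.G k y) = y - P.i k (P.i (k + 1) (P.G k y)) := by
      rw [eq_sub_iff_add_eq, add_comm]; exact h2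
    rw [h3, map_sub, ← dn0_succ, ← dn0_succ, dG, hy, hx]

end abs

variable {E : Type} [NormedAddCommGroup E] [NormedSpace ℝ E] [FiniteDimensional ℝ E]
  [MeasurableSpace E] [BorelSpace E]
  {HM : Type} [TopologicalSpace HM] {I : ModelWithCorners ℝ E HM} [I.Boundaryless]
  {M : Type} [TopologicalSpace M] [ChartedSpace HM M] [IsManifold I ∞ M]
  [MeasurableSpace M] [T2Space M] [BorelSpace M] [SecondCountableTopology M] {ι : Type} [Fintype ι]
  {V W : Type} [NormedAddCommGroup V] [InnerProductSpace ℝ V]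
  [NormedAddCommGroup W] [InnerProductSpace ℝ W]

/-- a bounded vector field whose divergence is positive where `χ` vanishes -/
structure HdD (F : Fr I M ι) (X : ι → M → ℝ) (χ : M → ℝ) (c B R : ℝ) : Prop where
  sX : ∀ a, Sm I (X a)
  bX : ∀ a x, |X a x| ≤ R
  sχ : Sm I χ
  c0 : 0 < c
  B0 : 0 ≤ B
  le : ∀ x, c ≤ ∑ a, (F.D a (X a) x + F.dv a x * X a x) + B * χ x ^ 2

/-- positive divergence at infinity -/
def Hdy (F : Fr I M ι) : Prop := ∃ X χ c B R, HdD F X χ c B R ∧ HasCompactSupport χ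

/-- the constant -/
def cH (n : ℕ) (c B R : ℝ) : ℝ := 2 / c * (B + R ^ 2 * (2 * (n + 1) / c))

theorem cH_nonneg (n : ℕ) {c B : ℝ} (hc : 0 < c) (hB : 0 ≤ B) (R : ℝ) : 0 ≤ cH n c B R := by
  unfold cH; positivity

variable {F : Fr I M ι} {X : ι → M → ℝ} {χ : M → ℝ} {c B R : ℝ}

theorem hdy_compact [CompactSpace M] (F : Fr I M ι) : Hdy F :=
  ⟨fun _ _ => 0, fun _ => 1, 1, 1, 0, ⟨fun _ => contMDiff_const, by simp, contMDiff_const,
    one_pos, zero_le_one, fun x => by simp [Pre.D_def, dv_const]⟩, .of_compactSpace _⟩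

/-- the Hardy inequality for a skew connection -/
theorem HdD.N2_le (h : HdD F X χ c B R) {A : ι → M → V →L[ℝ] V} (hA : ∀ a, Sm I (A a))
    (hs : ∀ a x, Wz78.Skew (A a x)) {u : M → V} (hu : Sm I u) (hc : HasCompactSupport u) :
    N2 F.toPre 0 u ≤ cH (Fintype.card ι) c B R *
      (∑ a, N2 F.toPre 0 (nab I F.e A a u) + N2 F.toPre 0 fun x => χ x • u x) := by
  have c0 := h.c0
  have B0 := h.B0
  set n : ℝ := (Fintype.card ι : ℝ) with hn
  have n0 : 0 ≤ n := Nat.cast_nonneg _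
  have sn : ∀ a, Sm I (nab I F.e A a u) := fun a => (F.sm_D hu a).add ((hA a).clm_apply hu)
  have cn : ∀ a, HasCompactSupport (nab I F.e A a u) := fun a =>
    (F.hcs_D hc a).add (hc.mono fun x hx h0 => hx (by simp [h0]))
  have s2 : Sm I fun x => ⟪u x, u x⟫_ℝ := sm_inner hu hu
  have c2 : HasCompactSupport fun x => ⟪u x, u x⟫_ℝ := hc.mono fun x hx h0 => hx (by simp [h0])
  have hg : ∀ a, Integrable (fun x => F.D a (fun y => X a y * ⟪u y, u y⟫_ℝ) x +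
        F.dv a x * (X a x * ⟪u x, u x⟫_ℝ)) F.μ ∧
      ∫ x, (F.D a (fun y => X a y * ⟪u y, u y⟫_ℝ) x +
        F.dv a x * (X a x * ⟪u x, u x⟫_ℝ)) ∂F.μ = 0 := fun a => by
    have s3 : Sm I fun y => X a y * ⟪u y, u y⟫_ℝ := (h.sX a).mul s2
    have c3 : HasCompactSupport fun y => X a y * ⟪u y, u y⟫_ℝ := c2.mul_left
    have i1 := (F.sm_D s3 a).continuous.integrable_of_hasCompactSupport (μ := F.μ) (F.hcs_D c3 a)
    have i2 : Integrable (fun x => F.dv a x * (X a x * ⟪u x, u x⟫_ℝ)) F.μ :=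
      ((F.dv_sm a).mul s3).continuous.integrable_of_hasCompactSupport c3.mul_left
    exact ⟨i1.add i2, by rw [integral_add i1 i2, F.ibp a _ s3 c3]; exact neg_add_cancel _⟩
  have iu := int_sq (FL_of_hcs (F := F.toPre) 0 hu hc)
  have iχ : Integrable (fun x => ‖χ x • u x‖ ^ 2) F.μ := int_sq (FL_of_hcs (F := F.toPre) 0
    (h.sχ.smul hu) (hc.mono fun x hx h0 => hx (by simp [h0])))
  have iN := fun a => int_sq (FL_of_hcs (F := F.toPre) 0 (sn a) (cn a))
  have i3 : Integrable (fun x => B * ‖χ x • u x‖ ^ 2 +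
      R ^ 2 * (2 * (n + 1) / c) * ∑ a, ‖nab I F.e A a u x‖ ^ 2) F.μ :=
    (iχ.const_mul _).add ((integrable_finsetSum _ fun a _ => iN a).const_mul _)
  have key : ∫ x, c / 2 * ‖u x‖ ^ 2 ∂F.μ ≤ ∫ x, (∑ a, (F.D a (fun y => X a y * ⟪u y, u y⟫_ℝ) x +
      F.dv a x * (X a x * ⟪u x, u x⟫_ℝ)) + (B * ‖χ x • u x‖ ^ 2 +
        R ^ 2 * (2 * (n + 1) / c) * ∑ a, ‖nab I F.e A a u x‖ ^ 2)) ∂F.μ := by
    refine integral_mono (iu.const_mul _) ((integrable_finsetSum _ fun a _ => (hg a).1).add i3)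
      fun x => ?_
    have e1 : ∀ a, F.D a (fun y => X a y * ⟪u y, u y⟫_ℝ) x + F.dv a x * (X a x * ⟪u x, u x⟫_ℝ) =
        (F.D a (X a) x + F.dv a x * X a x) * ‖u x‖ ^ 2 +
          2 * X a x * ⟪nab I F.e A a u x, u x⟫_ℝ := fun a => by
      have e2 := dv_smul (e := F.e a) (md (h.sX a) x) (md s2 x)
      have e3 := D_inner F.toPre a hu hu x
      have e4 := hs a x (u x) (u x)
      simp only [smul_eq_mul] at e2
      rw [Pre.D_def, e2, ← Pre.D_def, ← Pre.D_def, e3, ← real_inner_self_eq_norm_sq, nab,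
        inner_add_left, ← Pre.D_def, real_inner_comm (F.D a u x)]
      rw [real_inner_comm (A a x (u x))] at e4
      have : ⟪A a x (u x), u x⟫_ℝ = 0 := by linarith
      rw [this]; ring
    have e5 : ∀ a, -(c / (2 * (n + 1)) * ‖u x‖ ^ 2 +
        R ^ 2 * (2 * (n + 1) / c) * ‖nab I F.e A a u x‖ ^ 2) ≤
        2 * X a x * ⟪nab I F.e A a u x, u x⟫_ℝ := fun a => by
      have h1 := abs_real_inner_le_norm (nab I F.e A a u x) (u x)
      have h2 : |X a x * ⟪nab I F.e A a u x, u x⟫_ℝ| ≤ R * (‖nab I F.e A a u x‖ * ‖u x‖) := by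
        rw [abs_mul]
        exact mul_le_mul (h.bX a x) h1 (abs_nonneg _) ((abs_nonneg _).trans (h.bX a x))
      have h3 := (abs_le.1 h2).1
      set ε := c / (2 * (n + 1))
      have ε0 : 0 < ε := by positivity
      have : 2 * (n + 1) / c = ε⁻¹ := by simp [ε]
      rw [this]
      have h4 : 0 ≤ ε⁻¹ * (ε * ‖u x‖ - R * ‖nab I F.e A a u x‖) ^ 2 := by positivity
      have h5 : ε⁻¹ * (ε * ‖u x‖ - R * ‖nab I F.e A a u x‖) ^ 2 = ε * ‖u x‖ ^ 2 +
          R ^ 2 * ε⁻¹ * ‖nab I F.e A a u x‖ ^ 2 - 2 * (R * (‖nab I F.e A a u x‖ * ‖u x‖)) := by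
        field_simp; ring
      linarith
    have e6 := Finset.sum_le_sum fun a (_ : a ∈ Finset.univ) => e5 a
    simp only [Finset.sum_neg_distrib, Finset.sum_add_distrib, Finset.sum_const, nsmul_eq_mul,
      Finset.card_univ, ← Finset.mul_sum, ← hn] at e6
    have e7 := mul_le_mul_of_nonneg_right (h.le x) (sq_nonneg ‖u x‖)
    have e8 : n * (c / (2 * (n + 1)) * ‖u x‖ ^ 2) ≤ c / 2 * ‖u x‖ ^ 2 := by
      rw [← mul_assoc]
      refine mul_le_mul_of_nonneg_right ?_ (sq_nonneg _)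
      rw [mul_div_assoc', div_le_div_iff₀ (by positivity) two_pos]
      nlinarith
    simp only [e1, Finset.sum_add_distrib, ← Finset.sum_mul, norm_smul, mul_pow, Real.norm_eq_abs,
      sq_abs, mul_assoc (2 : ℝ), ← Finset.mul_sum] at e6 e7 ⊢
    nlinarith
  rw [integral_add (integrable_finsetSum _ fun a _ => (hg a).1) i3,
    integral_finsetSum _ fun a _ => (hg a).1, integral_add (iχ.const_mul _)
      ((integrable_finsetSum _ fun a _ => iN a).const_mul _), integral_const_mul,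
    integral_const_mul, integral_const_mul, integral_finsetSum _ fun a _ => iN a] at key
  simp only [fun a => (hg a).2, Finset.sum_const_zero, zero_add] at key
  change c / 2 * N2 F.toPre 0 u ≤ B * N2 F.toPre 0 (fun x => χ x • u x) +
    R ^ 2 * (2 * (n + 1) / c) * ∑ a, N2 F.toPre 0 (nab I F.e A a u) at key
  have p1 : 0 ≤ N2 F.toPre 0 fun x => χ x • u x := n2_nonneg 0 _
  have p2 : 0 ≤ ∑ a, N2 F.toPre 0 (nab I F.e A a u) := Finset.sum_nonneg fun _ _ => n2_nonneg 0 _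
  have p3 : 0 ≤ R ^ 2 * (2 * (n + 1) / c) := by positivity
  rw [cH, mul_assoc, div_mul_eq_mul_div, le_div_iff₀ c0, ← hn]
  nlinarith [mul_nonneg B0 p2, mul_nonneg p3 p1]

/-- the Hardy inequality on Sobolev spaces: `N` dominates the covariant derivative -/
theorem HdD.low (h : HdD F X χ c B R) (hχ : F.Cb χ) {A : ι → M → V →L[ℝ] V} (hA : ∀ a, Sm I (A a))
    (hs : ∀ a x, Wz78.Skew (A a x)) {p : M → V →L[ℝ] V} {j : ℕ} {Z : Type*}
    [NormedAddCommGroup Z] [NormedSpace ℝ Z] (N : F.H j p →L[ℝ] Z) {D : ℝ} (hD : 0 ≤ D)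
    (hN : ∀ u : Sec I p, ∑ a, N2 F.toPre 0 (nab I F.e A a u.1) ≤ (D * ‖N (F.toH j p u)‖) ^ 2)
    (x : F.H j p) : ‖F.incl j 0 p x‖ ≤ √(cH (Fintype.card ι) c B R) *
      (D * ‖N x‖ + ‖smulH F.toPre 0 p χ (F.incl j 0 p x)‖) := by
  refine (F.dense_toH j p).induction_on x (isClosed_le (by fun_prop) (by fun_prop)) fun u => ?_
  obtain ⟨v, hv, e⟩ := rep_smulH (k := 0) (p := p) hχ u
  have k0 := cH_nonneg (Fintype.card ι) h.c0 h.B0 R
  rw [incl_toH (Nat.zero_le _), e, Pre.norm_toH, Pre.norm_toH, hv]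
  refine nrm_le_of_sq (mul_nonneg (Real.sqrt_nonneg _) (add_nonneg (by positivity)
    (nrm_nonneg _ _))) ((h.N2_le hA hs u.2.1 u.2.2.1).trans ?_)
  rw [mul_pow, Real.sq_sqrt k0, ← nrm_sq]
  refine mul_le_mul_of_nonneg_left ?_ k0
  have := nrm_nonneg (F := F.toPre) 0 fun x => χ x • u.1 x
  nlinarith [hN u, mul_nonneg (mul_nonneg hD (norm_nonneg (N (F.toH j p u)))) this]

/-- an estimate modulo a compact operator for an operator that dominates a covariant derivative -/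
theorem Hdy.est [FiniteDimensional ℝ V] (h : Hdy F) :
    ∃ χ : M → ℝ, Sm I χ ∧ HasCompactSupport χ ∧ ∀ {A : ι → M → V →L[ℝ] V}, (∀ a, Sm I (A a)) →
    (∀ a x, Wz78.Skew (A a x)) → ∀ {p : M → V →L[ℝ] V} {j : ℕ} {Z : Type}
    [NormedAddCommGroup Z] [NormedSpace ℝ Z] (N : F.H (j + 1) p →L[ℝ] Z) {D G : ℝ}, 0 ≤ D →
    (∀ u : Sec I p, ∑ a, N2 F.toPre 0 (nab I F.e A a u.1) ≤ (D * ‖N (F.toH (j + 1) p u)‖) ^ 2) →
    Fred93.Est N (F.incl (j + 1) 0 p) G →
    IsCompactOperator ((smulH F.toPre 0 p χ).comp (F.incl (j + 1) 0 p)) ∧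
      ∃ K, Fred93.Est N ((smulH F.toPre 0 p χ).comp (F.incl (j + 1) 0 p)) K := by
  obtain ⟨X, χ, c, B, R, h, hc⟩ := h
  refine ⟨χ, h.sχ, hc, fun hA hs p j Z _ _ N D G hD hN hG =>
    ⟨Cht98.rellich_smul h.sχ hc j.succ_pos, |G| * (1 + √(cH (Fintype.card ι) c B R) * (D + 1)),
      fun x => ?_⟩⟩
  have h1 := h.low (Cb_of_hcs h.sχ hc) hA hs N hD hN x
  have h2 := (hG x).trans (mul_le_mul_of_nonneg_right (le_abs_self G) (by positivity))
  rw [mul_assoc, ContinuousLinearMap.comp_apply]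
  refine h2.trans (mul_le_mul_of_nonneg_left ?_ (abs_nonneg _))
  have := Real.sqrt_nonneg (cH (Fintype.card ι) c B R)
  have a1 := norm_nonneg (N x)
  have a2 := norm_nonneg (smulH F.toPre 0 p χ (F.incl (j + 1) 0 p x))
  nlinarith [mul_nonneg this a1, mul_nonneg (mul_nonneg this hD) a2]

/-- `A* A` is bijective if `A` dominates a covariant derivative and is injective -/
theorem Hdy.LL_bij [FiniteDimensional ℝ V] [FiniteDimensional ℝ W] (h : Hdy F) {C C' : ℕ → ℝ}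
    {A : Op M ι V W} (hF : F.Tame C) (hA : A.Good F C') (hc : A.CliffL F)
    {T : ι → M → V →L[ℝ] V} (hT : ∀ a, Sm I (T a)) (hs : ∀ a x, Wz78.Skew (T a x)) {D : ℝ}
    (hD : 0 ≤ D) (hN : ∀ u : Sec I A.p,
      ∑ a, N2 F.toPre 0 (nab I F.e T a u.1) ≤ D ^ 2 * N2 F.toPre 0 (A.app F u.1))
    {j : ℕ} (hi : Injective (A.H F j)) (k : ℕ) :
    Bijective ((Hs F A k).comp (A.H F (k + 1))) := by
  obtain ⟨χ, -, -, h⟩ := h.est (V := V)
  obtain ⟨G, hG⟩ := gard hF hA hc 0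
  obtain ⟨h1, K, h2⟩ := h hT hs (A.H F 0) hD (fun u => by
    rw [H_toH hA, Pre.norm_toH, mul_pow, nrm_sq]; exact hN u) hG
  have hi0 : Injective (A.H F 0) := (injective_iff_map_eq_zero _).2 fun x hx => by
    obtain ⟨y, hy, h0⟩ := reg_up hF hA hc (Nat.zero_le j) (w := 0) (hx.trans (map_zero _).symm)
    rw [← hy, hi (h0.trans (map_zero _).symm), map_zero]
  obtain ⟨c, -, h3⟩ := h2.bound_of_inj h1 hi0
  exact LL_bij_of_low (hlf hF hA hc) (C := c)
    (fun u => (norm_incl_le (Nat.zero_le _) u).trans (h3 u)) k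

/-- weights whose gradient is bounded below at infinity -/
theorem Wt.hdy {F' : Fr I M ι} {ψ : M → ℝ} (h : Wt F F' ψ) {C : ℕ → ℝ} (hF : F.Tame C)
    (hD : ∀ a, F.Cb (F.D a ψ)) {K : Set M} (hK : IsCompact K) (hc : 0 < c)
    (hle : ∀ x ∉ K, c ≤ ∑ a, (F.D a (F.D a ψ) x + F.dv a x * F.D a ψ x + 2 * F.D a ψ x ^ 2)) :
    Hdy F' := by
  obtain ⟨χ, h1, h2, -, h4⟩ := hF.exh K hK
  obtain ⟨D, hD'⟩ := Prm93.Cb_unif hD
  obtain ⟨G, hG⟩ : F.Cb fun x =>
      ∑ a, (F.D a (F.D a ψ) x + F.dv a x * F.D a ψ x + 2 * F.D a ψ x ^ 2) := by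
    refine Cb_sum _ fun a _ => Cb_add (Cb_add (Cb_D (hD a) a) (Cb_smul ⟨_, hF.dv a⟩ (hD a))) ?_
    simpa only [sq, smul_eq_mul] using Cb_smul (Cb_const (2 : ℝ)) (Cb_smul (hD a) (hD a))
  refine ⟨fun a => F.D a ψ, χ, c, c + |G 0|, D 0, ⟨fun a => (hD' a).1,
    fun a x => CB_bound ((hD' a).2 0) x, h1.1, hc, by positivity, fun x => ?_⟩, h2⟩
  have e : ∑ a, (F'.D a (F.D a ψ) x + F'.dv a x * F.D a ψ x) =
      ∑ a, (F.D a (F.D a ψ) x + F.dv a x * F.D a ψ x + 2 * F.D a ψ x ^ 2) :=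
    Finset.sum_congr rfl fun a _ => by rw [h.toWtP.D, h.dv]; ring
  rw [e]
  by_cases hx : x ∈ K
  · have := (abs_le.1 (CB_bound (CB_abs (hG.2 0)) x)).1
    rw [h4 x hx]; linarith
  · exact (hle x hx).trans (le_add_of_nonneg_right (by positivity))

end Crest.Agent.X212.Nk89
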