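import Crest.Agent.X212.Map77.Ins
import Crest.Agent.X212.Mod61.Hs
import Crest.Agent.X212.Nk89.Hdy
import Crest.Agent.X212.Nd18.Api
import Crest.Agent.X212.M.Band

/-! The index of a configuration, weighted families and families with cylindrical ends. -/

set_option autoImplicit false
set_option linter.unusedSectionVars false
noncomputable section
open scoped Manifold ContDiff Topology InnerProductSpace
open MeasureTheory Set Function Filter

namespace Crest.Agent.X212.Nk89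
open An An.Pre Sob92 Prm93 Fred93 Mod61 Map77 Nd18

variable {E : Type} [NormedAddCommGroup E] [NormedSpace ℝ E] [FiniteDimensional ℝ E]
  [MeasurableSpace E] [BorelSpace E]
  {HM : Type} [TopologicalSpace HM] {I : ModelWithCorners ℝ E HM} [I.Boundaryless]
  {M : Type} [TopologicalSpace M] [ChartedSpace HM M] [IsManifold I ∞ M]
  [MeasurableSpace M] [T2Space M] [BorelSpace M] [SecondCountableTopology M]
  {ι κ : Type} [Fintype ι] [Fintype κ] {lam : Type} [Fintype lam]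
  {T : Type} [NormedAddCommGroup T] [NormedSpace ℝ T]

/-! ### the index -/

section idx
variable {𝔉 : Fam I M ι lam T} (o : Ref 𝔉) {r n m : ℕ} (k : ℕ)

variable (𝔉) in
/-- the frame of `G t` with the measure of `F0` -/
abbrev Fs (t : T) : Fr I M ι := rem (𝔉.G t).F 𝔉.F0.toPre

/-- field directions -/
abbrev CF : Type := 𝔉.F0.H (k + 1) o.P1 × 𝔉.F0.H (k + 1) o.Pp

/-- field equations -/
abbrev YF : Type := 𝔉.F0.H k o.Pm × 𝔉.F0.H k o.P2

variable (r) in
def inF : CF o k →L[ℝ] o.C r k :=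
  (ContinuousLinearMap.fst ℝ _ _).prod ((ContinuousLinearMap.snd ℝ _ _).prod 0)

variable (r) in
def prC : o.C r k →L[ℝ] CF o k :=
  (ContinuousLinearMap.id ℝ _).prodMap (ContinuousLinearMap.fst ℝ _ _)

variable (n m) in
def prF : o.Y n m k →L[ℝ] YF o k :=
  (ContinuousLinearMap.id ℝ _).prodMap (ContinuousLinearMap.fst ℝ _ _)

variable {o}

/-- the fields of a smooth point -/
def fld (y : Pnt o r) : M → Cf ι (Fin o.m.N) := base y.cfg.W y.cfg.Φ

/-- the gauge row at `y`: the adjoint of the infinitesimal action for the measure of `F0` -/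
def row (y : Pnt o r) : CF o k →L[ℝ] 𝔉.F0.H k o.Pg :=
  (bd o).RR 𝔉.F0.toPre (Fs 𝔉 y.t) k (fld y) ∘L SH (k + 1) o (𝔉.S y.t) ∘L
    ((sumH 𝔉.F0.toPre (k + 1) o.P1 o.Pp).symm : CF o k →L[ℝ] 𝔉.F0.H (k + 1) (bd o).pC)

/-- the linearised field equations and the gauge row -/
def lop (f : o.C r k → o.Y n m k) (y : Pnt o r) : CF o k →L[ℝ] YF o k × 𝔉.F0.H k o.Pg :=
  (prF o n m k ∘L fderiv ℝ f (y.pt k) ∘L inF o r k).prod (row k y)

/-- **The index** of the equations `e` at `y` (fields only, group without the circle, the decay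
is that of the measure of `F0`) -/
def Idx (e : T → PtX M ι lam r n m) (y : Pnt o r) (d : ℤ) : Prop :=
  ∃ f : o.C r k → o.Y n m k, RepF e f ∧ Fr (lop k f y) d

variable {k} {e : T → PtX M ι lam r n m} {y : Pnt o r} {d d' : ℤ} {f g : o.C r k → o.Y n m k}

theorem fderiv_rep (h : 𝔉.OK) (hk : 4 ≤ k) (hf : RepF e f) (hg : RepF e g) {v : o.C r k}
    (hv : v ∈ o.U r k) : fderiv ℝ f v = fderiv ℝ g v :=
  EventuallyEq.fderiv_eq (eventually_of_mem ((isOpen_U h).mem_nhds hv)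
    (eqOn_U h (by omega) hf.1.continuousOn hg.1.continuousOn fun y => Y_ext h hk
      ((hf.2 y).D.trans (hg.2 y).D.symm) ((hf.2 y).C.trans (hg.2 y).C.symm)
      (Prod.ext ((hf.2 y).S.trans (hg.2 y).S.symm) ((hf.2 y).R.trans (hg.2 y).R.symm))))

theorem Idx.all (h : 𝔉.OK) (hk : 4 ≤ k) (H : Idx k e y d) (hf : RepF e f) : Fr (lop k f y) d := by
  obtain ⟨g, hg, H⟩ := H
  rwa [lop, fderiv_rep h hk hf hg y.mem_U]

theorem Idx.uniq (h : 𝔉.OK) (hk : 4 ≤ k) (H : Idx k e y d) (H' : Idx k e y d') : d = d' := by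
  obtain ⟨g, hg, H'⟩ := H'
  exact (H.all h hk hg).unique H'

/-- regrouping of the configurations -/
def eC (o : Ref 𝔉) (r k : ℕ) : o.C r k ≃L[ℝ] CF o k × (EuclideanSpace ℂ (Fin r) × T) :=
  (ContinuousLinearEquiv.prodAssoc ℝ _ _ _).symm

/-- regrouping of the equations -/
def eY (o : Ref 𝔉) (n m k : ℕ) (H : Type) [NormedAddCommGroup H] [NormedSpace ℝ H] :
    ((YF o k × H) × ((Fin n → ℂ) × (Fin m → ℝ))) ≃L[ℝ] o.Y n m k × H :=
  ContinuousLinearEquiv.equivOfInverse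
    ((((ContinuousLinearMap.fst ℝ _ _).comp ((ContinuousLinearMap.fst ℝ _ _).comp
      (ContinuousLinearMap.fst ℝ _ _))).prod (((ContinuousLinearMap.snd ℝ _ _).comp
      ((ContinuousLinearMap.fst ℝ _ _).comp (ContinuousLinearMap.fst ℝ _ _))).prod
      (ContinuousLinearMap.snd ℝ _ _))).prod
      ((ContinuousLinearMap.snd ℝ _ _).comp (ContinuousLinearMap.fst ℝ _ _)))
    ((((prF o n m k).comp (ContinuousLinearMap.fst ℝ _ _)).prod (ContinuousLinearMap.snd ℝ _ _)).prod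
      ((ContinuousLinearMap.snd ℝ _ _).comp ((ContinuousLinearMap.snd ℝ _ _).comp
        (ContinuousLinearMap.fst ℝ _ _))))
    (fun _ => rfl) fun _ => rfl

/-- the Fredholm clause of `GrpM.Slc` -/
theorem Idx.slc [FiniteDimensional ℝ T] (h : 𝔉.OK) (hk : 4 ≤ k) (H : Idx k e y d) (hf : RepF e f) :
    Fr ((fderiv ℝ f (y.pt k)).prod (row k y ∘L prC o r k))
      (d + 2 * r + Module.finrank ℝ T - 2 * n - m) := by
  let A := (fderiv ℝ f (y.pt k)).prod (row k y ∘L prC o r k)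
  let L := (eY o n m k (𝔉.F0.H k o.Pg)).symm.toContinuousLinearMap ∘L A ∘L
    (eC o r k).symm.toContinuousLinearMap
  have h1 : Fr L _ := fr_blk (n := d) ((H.all h hk hf).congr fun x => rfl)
  refine ((h1.conj (eC o r k) (eY o n m k _)).congr fun x => by simp [L, A]).cast ?_
  simp only [Module.finrank_prod, Module.finrank_pi_fintype,
    Module.finrank_self, finrank_real_of_complex, finrank_euclideanSpace, Fintype.card_fin,
    Finset.sum_const, Finset.card_univ, smul_eq_mul]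
  push_cast
  ring

end idx

/-! ### weighted and constant families -/

section fam
variable {𝔉 : Fam I M ι lam T} {ψ : M → ℝ}

theorem WtP.sb {F F' : Pre I M ι} (h : WtP F F' ψ) {N : Type} [NormedAddCommGroup N]
    [NormedSpace ℝ N] {O : Set T} {f : T → M → N} (hf : SB F O f) : SB F' O f := by
  classical exact h.mix.SB (fun _ _ => Cb_const _) hf

theorem cb_exp {F : Pre I M ι} (hψ : Sm I ψ) (hD : ∀ a, F.Cb (F.D a ψ)) {c : ℝ}
    (hc : ∀ x, ψ x ≤ c) : F.Cb fun x => Real.exp (ψ x) :=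
  cb_of_ode (L := fun a x => F.D a ψ x • ContinuousLinearMap.id ℝ ℝ)
    ((sm_exp hψ).mdifferentiable (by simp)) (fun a x => by rw [D_exp F hψ]; simp [mul_comm])
    (fun a => Cb_smul (hD a) (Cb_const _)) (C := Real.exp c) fun x => by
      rw [Real.norm_of_nonneg (Real.exp_pos _).le]; exact Real.exp_le_exp.2 (hc x)

variable (𝔉 ψ) in
/-- the family with the weight `e^ψ` -/
def wtF (hψ : Sm I ψ) : Fam I M ι lam T := { 𝔉 with F0 := wt 𝔉.F0 ψ hψ }

theorem ok_wtF (h : 𝔉.OK) (hψ : Sm I ψ) (h0 : ∀ x, 0 ≤ ψ x) (hD : ∀ a, 𝔉.F0.Cb (𝔉.F0.D a ψ)) :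
    (wtF 𝔉 ψ hψ).OK := by
  have w : Wt 𝔉.F0 (wtF 𝔉 ψ hψ).F0 ψ := wt_wt _ hψ
  have w' := w.toWtP
  obtain ⟨D, hD'⟩ := Cb_unif hD
  obtain ⟨ρ, h1, h2⟩ := h.dens
  have hs : Sm I fun x => -2 * ψ x := contMDiff_const.mul hψ
  have he : 𝔉.F0.Cb fun x => Real.exp (-2 * ψ x) := cb_exp hs (fun a => by
    rw [show 𝔉.F0.D a (fun x => -2 * ψ x) = fun x => (-2 : ℝ) • 𝔉.F0.D a ψ x from
      𝔉.F0.toPre.D_smul hψ (-2) a]
    exact Cb_smul (Cb_const _) (hD a)) (c := 0) fun x => by linarith [h0 x]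
  refine ⟨h.B, h.G0, h.G, ⟨_, w.tame h.tame.choose_spec h0 hD'⟩, h.tameG, h.e0, h.P0,
    fun a b c d => w'.Cb.2 (h.co a b c d), w'.Cb.2 h.cl, h.opn, h.Om, h.Om', h.sub, h.mix, h.PS,
    h.SP, h.PSi, h.SiP, h.SSi, h.SiS, fun a b => w'.sb (h.sS a b), fun a b => w'.sb (h.sSi a b),
    fun a b c => w'.sb (h.scf a b c), fun a => w'.sb (h.sla a), fun a b c => w'.sb (h.sc a b c),
    fun a => w'.sb (h.sdv a), fun a => w'.sb (h.sa a),
    ⟨fun t x => Real.exp (-2 * ψ x) • ρ t x, w'.sb ((SB.fixed he).smul h1), fun t ht =>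
      ⟨fun x => mul_pos (Real.exp_pos _) ((h2 t ht).1 x), ?_⟩⟩, h.conn⟩
  have hρ : Continuous (ρ t) := (h1.cb t ht).choose_spec.1.continuous
  refine (h2 t ht).2.trans ?_
  rw [w'.μ, wm, ← withDensity_mul _ (meas_w hψ.continuous) (by
    have := hψ.continuous
    exact (by fun_prop : Continuous fun x => Real.exp (-2 * ψ x) • ρ t x).measurable.ennreal_ofReal)]
  congr 1; funext x
  simp only [Pi.mul_apply, ← ENNReal.ofReal_mul (Real.exp_pos _).le, smul_eq_mul, ← mul_assoc,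
    ← Real.exp_add]
  simp

variable (T) in
/-- the constant family -/
def cst (B : Base M ι lam) (G : Geo I M ι lam) (O O' : Set M) : Fam I M ι lam T :=
  ⟨B, G.F, G, fun _ => G, univ, fun _ x a b => B.P a b x, fun _ x a b => B.P a b x,
    fun _ _ _ _ _ => 0, fun _ _ _ => 0, O, O'⟩

end fam

/-! ### ends -/

/-- a cylindrical end of the reference background; `out` = outgoing (`t → +∞`) -/
structure End (𝔉 : Fam I M (Option κ) lam T) : Type 1 where
  Y : X212.M.Mf 3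
  [cp : CompactSpace Y.M]
  D : YD Y.I Y.M κ lam
  K : Nk D 𝔉.B 𝔉.G0
  out : Bool

attribute [instance] End.cp

namespace End
variable {𝔉 : Fam I M (Option κ) lam T} (P : End 𝔉)

/-- the direction -/
def l : Filter ℝ := bif P.out then atTop else atBot

/-- the sign of the direction -/
def sg : ℝ := bif P.out then 1 else -1

/-- the part of the end at height `> R` -/
def U (R : ℝ) : Set M := {x | x ∈ P.K.ψ.target ∧ R < P.sg * P.K.tm x}

/-- above the height `R` the family is constant and the weight is `δ |t|` -/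
structure OK (ψ : M → ℝ) (δ R : ℝ) : Prop where
  D : P.D.OK
  con : PreconnectedSpace P.Y.M
  inf : ∀ s, R ≤ P.sg * s → s ∈ Dp P.K.p P.K.q 5
  S : ∀ t ∈ 𝔉.Q, ∀ x ∈ P.U R, ∀ a b, 𝔉.S t x a b = 𝔉.B.P a b x ∧ 𝔉.Si t x a b = 𝔉.B.P a b x
  cf : ∀ t ∈ 𝔉.Q, ∀ x ∈ P.U R, 𝔉.cf t x = 0 ∧ 𝔉.la t x = 0
  a : ∀ t ∈ 𝔉.Q, ∀ x ∈ P.U R, ∀ a, (𝔉.G t).a a x = 𝔉.G0.a a x
  μ : ∀ t ∈ 𝔉.Q, (𝔉.G t).F.μ.restrict (P.U R) = 𝔉.G0.F.μ.restrict (P.U R)
  wt : ∀ x ∈ P.U R, ψ x = δ * (P.sg * P.K.tm x)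

end End

/-- a family on a manifold with cylindrical ends, `F0` carries the decay weight `δ` -/
structure Ends (𝔉 : Fam I M (Option κ) lam T) (δ : ℝ) : Type 1 where
  A : Type
  [fin : Fintype A]
  P : A → End 𝔉
  ψ : M → ℝ
  R : ℝ
  ok : 𝔉.OK
  tame : ∃ C, 𝔉.G0.F.Tame C
  wt : Wt 𝔉.G0.F 𝔉.F0 ψ
  ψ0 : ∀ x, 0 ≤ ψ x
  dψ : ∀ a, 𝔉.G0.F.Cb (𝔉.G0.F.D a ψ)
  sml : ∀ x, ∑ a, 𝔉.G0.F.D a ψ x ^ 2 ≤ 1 / 4
  δ0 : 0 < δ
  R0 : 0 < R
  okP : ∀ a, (P a).OK ψ δ R
  dis : Pairwise fun a b => Disjoint ((P a).U R) ((P b).U R)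
  cov : IsCompact (⋃ a, (P a).U R)ᶜ

attribute [instance] Ends.fin

/-! ### the cylinder -/

/-- `|s|` for `|s| ≥ 1` -/
def ab (s : ℝ) : ℝ := s * Real.smoothTransition s + -s * Real.smoothTransition (-s)

theorem sm_ab : ContDiff ℝ ∞ ab := by
  have := Real.smoothTransition.contDiff (n := ⊤)
  unfold ab; fun_prop

section cyl
variable {E3 : Type} [NormedAddCommGroup E3] [NormedSpace ℝ E3] [FiniteDimensional ℝ E3]
  [MeasurableSpace E3] [BorelSpace E3]
  {H3 : Type} [TopologicalSpace H3] {I3 : ModelWithCorners ℝ E3 H3} [I3.Boundaryless]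
  {Y : Type} [TopologicalSpace Y] [ChartedSpace H3 Y] [IsManifold I3 ∞ Y] [T2Space Y]
  [MeasurableSpace Y] [BorelSpace Y] [SecondCountableTopology Y] [CompactSpace Y]

variable (T) in
/-- the cylinder with decay at both ends; `O' = univ` (spinor) or `O' = ∅` (no spinor) -/
def famZ (D : YD I3 Y κ lam) (δ : ℝ) (O' : Set (Y × ℝ)) :
    Fam (Cyf70.IC I3) (Y × ℝ) (Option κ) lam T :=
  wtF (cst T D.B D.G univ O') (fun x => δ * ab x.2) (Cyf70.sm_snd (contDiff_const.mul sm_ab))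

end cyl

end Crest.Agent.X212.Nk89
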