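import Crest.Agent.X212.Nk89.End
import Crest.Agent.X212.Pj41.Nkg

/-! Geometry of cylindrical ends: charts, cut-off functions, Hardy inequality, slices. -/

set_option autoImplicit false
set_option linter.unusedSectionVars false
noncomputable section
open scoped Manifold ContDiff Topology InnerProductSpace ENNReal
open MeasureTheory Set Function Filter

namespace Crest.Agent.X212.Nk89
open An An.Pre Sob92 Prm93 Fred93 Mod61 Map77 Nd18 Cyf70 Eqv71 Tmp64

variable {E : Type} [NormedAddCommGroup E] [NormedSpace ℝ E] [FiniteDimensional ℝ E]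
  [MeasurableSpace E] [BorelSpace E]
  {HM : Type} [TopologicalSpace HM] {I : ModelWithCorners ℝ E HM} [I.Boundaryless]
  {M : Type} [TopologicalSpace M] [ChartedSpace HM M] [IsManifold I ∞ M]
  [MeasurableSpace M] [T2Space M] [BorelSpace M] [SecondCountableTopology M]
  {ι κ : Type} [Fintype ι] [Fintype κ] {lam : Type} [Fintype lam]
  {T : Type} [NormedAddCommGroup T] [NormedSpace ℝ T]

section iso
variable {E' : Type} [NormedAddCommGroup E'] [NormedSpace ℝ E'] [FiniteDimensional ℝ E']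
  [MeasurableSpace E'] [BorelSpace E']
  {HM' : Type} [TopologicalSpace HM'] {I' : ModelWithCorners ℝ E' HM'} [I'.Boundaryless]
  {M' : Type} [TopologicalSpace M'] [ChartedSpace HM' M'] [IsManifold I' ∞ M']
  [MeasurableSpace M'] [T2Space M'] [BorelSpace M'] [SecondCountableTopology M']
  {F G : Pre I M ι} {F' G' : Pre I' M' ι} {φ : OpenPartialHomeomorph M M'}

theorem iso_restr (h : Iso F F' φ) {s : Set M} (hs : IsOpen s) : Iso F F' (φ.restrOpen s hs) := by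
  have ms := φ.open_source.measurableSet
  have mt := (φ.restrOpen s hs).open_target.measurableSet
  refine ⟨h.sm.mono inter_subset_left, h.sm'.mono inter_subset_left, fun a x hx => h.e a x hx.1, ?_⟩
  have am := φ.continuousOn.aemeasurable (μ := F.μ) ms
  have e1 : (φ.restrOpen s hs).target ∩ φ.target = (φ.restrOpen s hs).target :=
    inter_eq_left.2 inter_subset_left
  have e2 : φ ⁻¹' (φ.restrOpen s hs).target ∩ φ.source = (φ.restrOpen s hs).source := by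
    ext x
    exact ⟨fun hx => ⟨hx.2, by simpa [φ.left_inv hx.2] using hx.1.2⟩,
      fun hx => ⟨⟨φ.map_source hx.1, by simpa [φ.left_inv hx.1] using hx.2⟩, hx.1⟩⟩
  rw [← e1, ← Measure.restrict_restrict mt, ← h.μ, Measure.restrict_map_of_aemeasurable am mt,
    Measure.restrict_restrict₀ (am.nullMeasurableSet_preimage mt), e2]
  rfl

theorem iso_wt (h : Iso F F' φ) {g : M → ℝ} {g' : M' → ℝ} (w : WtP F G g) (w' : WtP F' G' g')
    (e : ∀ x ∈ φ.source, g x = g' (φ x)) : Iso G G' φ := by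
  have ms := φ.open_source.measurableSet
  have am := φ.continuousOn.aemeasurable (μ := F.μ) ms
  refine ⟨h.sm, h.sm', fun a x hx => by rw [w.e, w'.e]; exact h.e a x hx, ?_⟩
  rw [w.μ, w'.μ, wm, wm, restrict_withDensity ms, restrict_withDensity φ.open_target.measurableSet,
    ← h.μ]
  refine Measure.ext_of_lintegral _ fun f hf => ?_
  have m := meas_w w.sm.continuous
  have m' := meas_w w'.sm.continuous
  rw [lintegral_map' hf.aemeasurable (am.mono_ac (withDensity_absolutelyContinuous _ _)),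
    lintegral_withDensity_eq_lintegral_mul _ m' hf, lintegral_map' (m'.mul hf).aemeasurable am]
  exact (lintegral_withDensity_eq_lintegral_mul₀ m.aemeasurable (hf.comp_aemeasurable am)).trans
    (setLIntegral_congr_fun ms fun x hx => by simp only [Pi.mul_apply, e x hx, comp_apply])

variable (F F' φ) in
/-- a cut-off function on both sides of a chart -/
structure Ct (θ : M → ℝ) (θ' : M' → ℝ) : Prop where
  iso : Iso F F' φ
  cb : F.Cb θ
  cb' : F'.Cb θ'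
  adm : Adm φ.symm (tsupport θ)
  adm' : Adm φ (tsupport θ')
  eq : ∀ x ∈ φ.source, θ x = θ' (φ x)

theorem Ct.symm {θ : M → ℝ} {θ' : M' → ℝ} (h : Ct F F' φ θ θ') : Ct F' F φ.symm θ' θ :=
  ⟨iso_symm h.iso, h.cb', h.cb, h.adm', h.adm, fun x hx => by
    rw [h.eq _ (φ.map_target hx), φ.right_inv hx]⟩

end iso

/-! ### the weight on the cylinder -/

theorem ab_nonneg (s : ℝ) : 0 ≤ ab s := by
  have h : ∀ s : ℝ, 0 ≤ s * Real.smoothTransition s := fun s => by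
    rcases le_total 0 s with h | h
    · exact mul_nonneg h (Real.smoothTransition.nonneg _)
    · rw [Real.smoothTransition.zero_of_nonpos h, mul_zero]
  exact add_nonneg (h s) (h (-s))

theorem ab_eq {sg s : ℝ} (h : sg = 1 ∨ sg = -1) (hs : 1 ≤ sg * s) : ab s = sg * s := by
  rcases h with rfl | rfl
  · rw [ab, Real.smoothTransition.one_of_one_le (by linarith),
      Real.smoothTransition.zero_of_nonpos (by linarith)]; ring
  · rw [ab, Real.smoothTransition.zero_of_nonpos (by linarith),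
      Real.smoothTransition.one_of_one_le (by linarith)]; ring

theorem bd_dab : ∃ C, BD (deriv ab) C := by
  have h1 : ContDiff ℝ ∞ (deriv ab) := (contDiff_infty_iff_deriv.1 sm_ab).2
  have e : ∀ sg : ℝ, sg = 1 ∨ sg = -1 → ∀ t, 1 < sg * t → deriv ab t = sg := fun sg h t ht => by
    rw [show deriv ab t = deriv (fun s => sg * s) t from EventuallyEq.deriv_eq
      (((continuous_const.mul continuous_id).continuousAt.eventually (lt_mem_nhds ht)).mono
        fun _ h' => ab_eq h h'.le)]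
    simp
  have c : ∀ t ∉ Icc (-1 : ℝ) 1, ∃ sg : ℝ, (sg = 1 ∨ sg = -1) ∧ 1 < sg * t := fun t ht => by
    rcases not_and_or.1 ht with h | h
    exacts [⟨-1, .inr rfl, by linarith [not_le.1 h]⟩, ⟨1, .inl rfl, by linarith [not_le.1 h]⟩]
  have h2 : HasCompactSupport (deriv (deriv ab)) := by
    refine HasCompactSupport.intro (isCompact_Icc (a := -1) (b := 1)) fun t ht => ?_
    obtain ⟨sg, h, ht⟩ := c t ht
    rw [show deriv (deriv ab) t = deriv (fun _ => sg) t from EventuallyEq.deriv_eq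
      (((continuous_const.mul continuous_id).continuousAt.eventually (lt_mem_nhds ht)).mono
        (e sg h)), deriv_const]
  obtain ⟨B, hB⟩ := (isCompact_Icc (a := (-1 : ℝ)) (b := 1)).exists_bound_of_continuousOn
    h1.continuous.continuousOn
  obtain ⟨C, hC⟩ := Cht98.deriv_bounds h1 h2 (B := |B| + 1) fun t => by
    have := abs_nonneg B
    by_cases ht : t ∈ Icc (-1 : ℝ) 1
    · linarith [hB t ht, le_abs_self B]
    · obtain ⟨sg, h, ht⟩ := c t ht
      rw [e sg h t ht]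
      rcases h with rfl | rfl <;> simp
  exact ⟨C, h1, hC⟩

/-- the cut-off above the height `c` -/
def hc (sg c s : ℝ) : ℝ := Real.smoothTransition (sg * s - c)

theorem hc_zero {sg c s : ℝ} (h : sg * s ≤ c) : hc sg c s = 0 :=
  Real.smoothTransition.zero_of_nonpos (by linarith)

theorem hc_one {sg c s : ℝ} (h : c + 1 ≤ sg * s) : hc sg c s = 1 :=
  Real.smoothTransition.one_of_one_le (by linarith)

theorem bd_hc : ∃ C, ∀ sg c : ℝ, sg = 1 ∨ sg = -1 → BD (hc sg c) C := by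
  obtain ⟨C, h⟩ := Nd18.bd_st
  refine ⟨C, fun sg c e => ?_⟩
  rcases e with rfl | rfl
  · convert h.shift (-c) using 2 with s; simp [hc, sub_eq_add_neg]
  · convert h.refl (-c) using 2 with s; simp only [hc]; ring_nf

section cyl
variable {E3 : Type} [NormedAddCommGroup E3] [NormedSpace ℝ E3] [FiniteDimensional ℝ E3]
  [MeasurableSpace E3] [BorelSpace E3]
  {H3 : Type} [TopologicalSpace H3] {I3 : ModelWithCorners ℝ E3 H3} [I3.Boundaryless]
  {Y : Type} [TopologicalSpace Y] [ChartedSpace H3 Y] [IsManifold I3 ∞ Y] [T2Space Y]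
  [MeasurableSpace Y] [BorelSpace Y] [SecondCountableTopology Y] [CompactSpace Y]
  {D : YD I3 Y κ lam} {δ : ℝ} {O' : Set (Y × ℝ)}

theorem sm_wZ (δ : ℝ) : Sm (IC I3) fun x : Y × ℝ => δ * ab x.2 := sm_snd (contDiff_const.mul sm_ab)

theorem D_wZ (D : YD I3 Y κ lam) (δ : ℝ) (a : Option κ) : D.Z.D a (fun x => δ * ab x.2) =
    fun x => a.elim (δ * deriv ab x.2) fun _ => 0 := by
  cases a with
  | none => exact (D_none_snd D.F.toPre (contDiff_const.mul sm_ab)).trans (funext fun x => by simp)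
  | some a => exact D_some_snd D.F.toPre (contDiff_const.mul sm_ab) a

theorem cb_wZ (D : YD I3 Y κ lam) (δ : ℝ) (a : Option κ) :
    D.Z.Cb (D.Z.D a fun x => δ * ab x.2) := by
  obtain ⟨C, hC⟩ := bd_dab
  rw [D_wZ]
  cases a with
  | none => exact ⟨_, ((BD.const δ).mul hC).cyl D.F.toPre⟩
  | some a => exact Cb_const _

theorem wt_famZ : Wt D.Z (famZ T D δ O').F0 fun x => δ * ab x.2 := wt_wt _ (sm_wZ δ)

theorem ok_famZ (hD : D.OK) (hn : Module.finrank ℝ E3 ≤ 3) (h0 : 0 ≤ δ) (hO : IsClopen O') :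
    (famZ T D δ O').OK :=
  ok_wtF (ok_cst hD.B hD.G (Cht98.tame_cyl D.F hn) (fun a b c d => cb_inv _ (hD.B.so a b c d))
    (cb_inv _ hD.B.sl) (fun a => by
      cases a with
      | none => exact Cb_const _
      | some a => exact cb_inv (f := D.a a) _ (hD.G.con.sm (some a))) isClopen_univ hO
    (subset_univ _)) _ (fun x => mul_nonneg h0 (ab_nonneg _)) (cb_wZ D δ)

theorem gRel_tau (D : YD I3 Y κ lam) (s : ℝ) :
    Pj41.GRel D.B D.G D.B D.G (fun x => (x.1, x.2 + s)) univ :=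
  ⟨Pj41.fRel_of_iso (F := D.Z) (F' := D.Z) (Cht98.iso_tau D.F.toPre s),
    fun a b _ _ => by cases a <;> cases b <;> rfl, fun _ _ _ _ _ _ => rfl, fun _ _ => rfl, rfl,
    fun a _ _ => by cases a <;> rfl⟩

/-- a `t`-invariant configuration which is admissible on a half cylinder is admissible -/
theorem adm_of_half {β : YC Y κ lam} {sg c : ℝ} (hs : sg * sg = 1)
    (h : AdmOn (cy β) D.B D.G {z | c < sg * z.2}) : (cy β).Adm D.B D.G := by
  refine admOn_univ.1 (Pj41.admOn_of_local h.ok.Jsq h.ok.Jsk h.z fun x _ => ?_)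
  have ho : IsOpen {z : Y × ℝ | c < sg * (z.2 + (sg * (c + 1) - x.2))} :=
    isOpen_lt continuous_const (by fun_prop)
  refine ⟨_, ?_, ((gRel_tau D (sg * (c + 1) - x.2)).mono ho (subset_univ _)).admOn_iff.2
    (h.mono (image_subset_iff.2 fun _ hz => hz))⟩
  show c < _
  rw [add_sub_cancel, ← mul_assoc, hs]; linarith

end cyl

/-! ### one end -/

namespace End
variable {𝔉 : Fam I M (Option κ) lam T} (P : End 𝔉)

theorem sg_cases : P.sg = 1 ∨ P.sg = -1 := by unfold sg; cases P.out <;> simp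

theorem sg_sq : P.sg * P.sg = 1 := by rcases P.sg_cases with h | h <;> simp [h]

theorem sg_sg (s : ℝ) : P.sg * (P.sg * s) = s := by rw [← mul_assoc, sg_sq, one_mul]

/-- the half cylinder -/
def H (c : ℝ) : Set (P.Y.M × ℝ) := {z | c < P.sg * z.2}

theorem isOpen_H (c : ℝ) : IsOpen (P.H c) := isOpen_lt continuous_const (by fun_prop)

theorem cont_ht : Continuous fun x => P.sg * P.K.tm x := continuous_const.mul P.K.cont

theorem isOpen_U (c : ℝ) : IsOpen (P.U c) :=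
  P.K.ψ.open_target.inter (isOpen_lt continuous_const P.cont_ht)

theorem U_mono {c c' : ℝ} (h : c ≤ c') : P.U c' ⊆ P.U c := fun _ hx => ⟨hx.1, h.trans_lt hx.2⟩

/-- the chart above the height `c` -/
def ch (c : ℝ) : OpenPartialHomeomorph (P.Y.M × ℝ) M := P.K.ψ.restrOpen (P.H c) (P.isOpen_H c)

theorem ch_apply (c : ℝ) (z : P.Y.M × ℝ) : P.ch c z = P.K.ψ z := rfl

/-- the cut-off above the height `c` -/
def θ (c : ℝ) (x : M) : ℝ := hc P.sg c (P.K.tm x)

/-- the cut-off on the cylinder -/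
def θZ (c : ℝ) (z : P.Y.M × ℝ) : ℝ := hc P.sg c z.2

theorem pt_eq (z : P.Y.M × ℝ) : P.pt (P.sg * z.2) z.1 = P.K.ψ z := by rw [pt, sg_sg]

variable {P} {ψ : M → ℝ} {δ R c : ℝ}

namespace OK
variable (h : P.OK ψ δ R) {z : P.Y.M × ℝ} {x : M}
include h

theorem J {s : ℝ} (hs : R ≤ P.sg * s) : s ∈ P.K.J := Dp_sub (by norm_num) (h.inf s hs)

theorem src (hz : R ≤ P.sg * z.2) : z ∈ P.K.ψ.source := P.K.mem_src.2 (h.J hz)

theorem tm (hz : R ≤ P.sg * z.2) : P.K.tm (P.K.ψ z) = z.2 := P.K.tm_ψ _ (h.src hz)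

theorem tgt (hx : R ≤ P.sg * P.K.tm x) : x ∈ P.K.ψ.target := P.K.tgt ▸ h.J hx

theorem mem_U (hc : R ≤ c) : x ∈ P.U c ↔ c < P.sg * P.K.tm x :=
  ⟨fun hx => hx.2, fun hx => ⟨h.tgt (hc.trans hx.le), hx⟩⟩

theorem ψ_mem (hc : R ≤ c) (hz : z ∈ P.H c) : P.K.ψ z ∈ P.U c :=
  (h.mem_U hc).2 (by rw [h.tm (hc.trans hz.le)]; exact hz)

theorem exists_ψ (hx : x ∈ P.U c) : ∃ z ∈ P.H c, P.K.ψ z = x :=
  ⟨P.K.ψ.symm x, by show c < _; rw [P.K.snd_symm hx.1]; exact hx.2, P.K.ψ.right_inv hx.1⟩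

theorem img (hc : R ≤ c) : P.K.ψ '' P.H c = P.U c :=
  (image_subset_iff.2 fun _ => h.ψ_mem hc).antisymm fun _ => h.exists_ψ

theorem ch_src (hc : R ≤ c) : (P.ch c).source = P.H c :=
  inter_eq_right.2 fun _ hz => h.src (hc.trans hz.le)

theorem ch_tgt (hc : R ≤ c) : (P.ch c).target = P.U c := by
  rw [← (P.ch c).image_source_eq_target, h.ch_src hc, ← h.img hc]; rfl

theorem isPreconnected_U (hc : R ≤ c) : IsPreconnected (P.U c) := by
  have := h.con
  have e : P.H c = univ ×ˢ {s | c < P.sg * s} := by ext; simp [H]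
  have k : Convex ℝ {s : ℝ | c < P.sg * s} :=
    convex_halfSpace_gt (f := fun s : ℝ => P.sg * s) (IsLinearMap.isLinearMap_smul P.sg) c
  rw [← h.img hc]
  refine IsPreconnected.image (e ▸ isPreconnected_univ.prod k.isPreconnected) _
    (P.K.ψ.continuousOn.mono fun _ hz => h.src (hc.trans hz.le))

/-- an end lies in a clopen set or in its complement -/
theorem dich {O : Set M} (hO : IsClopen O) (hc : R ≤ c) : P.U c ⊆ O ∨ P.U c ⊆ Oᶜ :=
  (h.isPreconnected_U hc).subset_or_subset hO.isOpen hO.compl.isOpen disjoint_compl_right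
    (by simp)

theorem isCompact_slab (c : ℝ) : IsCompact {x | P.sg * P.K.tm x ∈ Icc R c} := by
  have e : {s : ℝ | P.sg * s ∈ Icc R c} = (fun s => P.sg * s) '' Icc R c := by
    ext s
    exact ⟨fun hs => ⟨_, hs, P.sg_sg s⟩, by rintro ⟨t, ht, rfl⟩; simpa [P.sg_sg] using ht⟩
  exact (Cht98.nck P.K).isCompact (S := {s | P.sg * s ∈ Icc R c})
    (e ▸ isCompact_Icc.image (by fun_prop)) fun s hs => h.J hs.1

theorem θ_ψ (hz : R ≤ P.sg * z.2) : P.θ c (P.K.ψ z) = P.θZ c z := by rw [θ, h.tm hz, θZ]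

theorem cb_θ (hc : R ≤ c) : 𝔉.G0.F.Cb (P.θ c) := by
  obtain ⟨C, hC⟩ := bd_hc
  exact ⟨_, (Cht98.nck P.K).CBs_tm (S := {s | c ≤ P.sg * s}) (g := Nk89.hc P.sg c)
    (isClosed_le continuous_const (by fun_prop)) (fun s hs => h.J (hc.trans hs))
    (fun s hs => hc_zero (not_le.1 hs).le) ((hC _ c P.sg_cases).cyl P.D.F.toPre)⟩

omit h in
theorem _root_.Crest.Agent.X212.Nk89.End.supp_θ : tsupport (P.θ c) ⊆ {x | c ≤ P.sg * P.K.tm x} :=
  closure_minimal (fun _ hx => by_contra fun e => hx (hc_zero (not_le.1 e).le))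
    (isClosed_le continuous_const P.cont_ht)

omit h in
theorem _root_.Crest.Agent.X212.Nk89.End.supp_θZ : tsupport (P.θZ c) ⊆ {z | c ≤ P.sg * z.2} :=
  closure_minimal (fun _ hx => by_contra fun e => hx (hc_zero (not_le.1 e).le))
    (isClosed_le continuous_const (by fun_prop))

theorem adm_Z {b : ℝ} (hb : R ≤ b) (hc : b < c) : Adm (P.ch b).symm {z | c ≤ P.sg * z.2} := by
  refine ⟨fun z hz => (h.ch_src hb).ge (hc.trans_le hz), ?_⟩
  convert isClosed_le (continuous_const (y := c)) P.cont_ht using 1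
  ext x
  refine ⟨fun hx => ?_, fun hx => ?_⟩
  · exact (P.K.snd_symm hx.1.1 ▸ hx.2 : c ≤ P.sg * P.K.tm x)
  · have e := (h.ch_tgt hb).ge ((h.mem_U hb).2 (hc.trans_le hx))
    exact ⟨e, show c ≤ P.sg * (P.K.ψ.symm x).2 by rw [P.K.snd_symm e.1]; exact hx⟩

theorem adm_M {b : ℝ} (hb : R ≤ b) (hc : b < c) : Adm (P.ch b) {x | c ≤ P.sg * P.K.tm x} := by
  refine ⟨fun x hx => (h.ch_tgt hb).ge ((h.mem_U hb).2 (hc.trans_le hx)), ?_⟩
  convert isClosed_le (continuous_const (y := c))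
    (by fun_prop : Continuous fun z : P.Y.M × ℝ => P.sg * z.2) using 1
  ext z
  refine ⟨fun hz => ?_, fun hz => ?_⟩
  · exact (P.K.tm_ψ _ hz.1.1 ▸ hz.2 : c ≤ P.sg * z.2)
  · have e := (h.ch_src hb).ge (hc.trans_le hz)
    exact ⟨e, show c ≤ P.sg * P.K.tm (P.K.ψ z) by rw [P.K.tm_ψ _ e.1]; exact hz⟩

theorem G_e (k : 𝔉.OK) {t : T} (ht : t ∈ 𝔉.Q) (hx : x ∈ P.U R) (a : Option κ) :
    (𝔉.G t).F.e a x = 𝔉.G0.F.e a x := by
  rw [k.mix t ht a x, k.e0, ← 𝔉.F0.P_e a x, k.P0]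
  exact Finset.sum_congr rfl fun b _ => congrArg (· • _) (h.S t ht x hx a b).1

theorem gRel (k : 𝔉.OK) {t : T} (ht : t ∈ 𝔉.Q) :
    Pj41.GRel P.D.B P.D.G 𝔉.B (𝔉.G t) P.K.ψ (P.H R) :=
  have g := (Pj41.nk_gRel P.K).mono (P.isOpen_H R) fun _ hz => h.src hz.le
  ⟨⟨g.fr.op, g.fr.ld, fun a z hz => (g.fr.e a z hz).trans (h.G_e k ht (h.ψ_mem le_rfl hz) a).symm⟩,
    g.P, g.o, g.l, g.il, fun a z hz => (g.a a z hz).trans (h.a t ht _ (h.ψ_mem le_rfl hz) a).symm⟩

end OK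

variable {o : Ref 𝔉} {t : T}

theorem Lit.at (h : P.Lit o c) (ht : t ∈ 𝔉.Q) {z : P.Y.M × ℝ} (hz : z ∈ P.H c) :
    o.m.p (P.K.ψ z) = (P.sl o (c + 1) t).m.p z.1 ∧
    (∀ a, o.m.ρ a (P.K.ψ z) = (P.sl o (c + 1) t).m.ρ a z.1) ∧
    o.m.j (P.K.ψ z) = (P.sl o (c + 1) t).m.j z.1 ∧
    (∀ a, o.W t 0 a (P.K.ψ z) = (P.sl o (c + 1) t).W a z.1) ∧
    o.Φ0 (P.K.ψ z) = (P.sl o (c + 1) t).Φ z.1 := by
  have e := h.eq t ht _ hz
  simp only [Cfg.mk.injEq, Md.mk.injEq, heq_eq_eq, true_and, and_true] at e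
  rw [← P.pt_eq]
  exact ⟨congrFun e.1.1 _, fun a => congrFun (congrFun e.1.2.1 a) _, congrFun e.1.2.2 _,
    fun a => congrFun (congrFun e.2.1 a) _, congrFun e.2.2 _⟩

/-- the slice of a literal reference is admissible -/
theorem Lit.adm (h : P.Lit o c) (k : 𝔉.OK) (hP : P.OK ψ δ R) (hc : R ≤ c) (ht : t ∈ 𝔉.Q) :
    P.D.Adm (P.sl o (c + 1) t) := by
  have a := (pt0 o 0 ht).ad0 k
  have g := (hP.gRel k ht).mono (P.isOpen_H c) fun _ hz => hc.trans_lt hz
  refine ⟨adm_of_half P.sg_sq (Pj41.admOn_same (P.isOpen_H c) (fun z hz => (h.at ht hz).1.symm)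
    (fun b z hz => ((h.at ht hz).2.1 b).symm) (fun z hz => (h.at ht hz).2.2.1.symm)
    (g.admOn_iff.2 ((admOn_univ.2 ⟨a.ok, a.conn, a.sm, a.pos, .inl rfl⟩).mono (subset_univ _)))
    (fun b z hz => ((h.at ht hz).2.2.2.1 b).symm) (fun z hz => ?_) (.inl rfl)), h.tmp t ht⟩
  exact (h.at ht hz).2.2.2.2.symm.trans (add_zero _).symm

theorem isClopen_O' : IsClopen (P.O' c) := by
  by_cases h : P.U c ⊆ 𝔉.Om'
  · exact (eq_univ_of_forall fun _ => h : P.O' c = univ) ▸ isClopen_univ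
  · exact (eq_empty_of_forall_notMem fun _ => h : P.O' c = ∅) ▸ isClopen_empty

theorem OK.mem_O' (hP : P.OK ψ δ R) (k : 𝔉.OK) (hc : R ≤ c) {z : P.Y.M × ℝ} (hz : z ∈ P.H c)
    (z' : P.Y.M × ℝ) : z' ∈ P.O' c ↔ P.K.ψ z ∈ 𝔉.Om' :=
  ⟨fun h => h (hP.ψ_mem hc hz), fun h => (hP.dich k.Om' hc).resolve_right fun e =>
    e (hP.ψ_mem hc hz) h⟩

theorem off (k : 𝔉.OK) (hP : P.OK ψ δ R) (hc : R ≤ c) (x : P.Y.M × ℝ) (hx : x ∉ P.O' c) :
    (P.sl o (c + 1) t).Φ x.1 = 0 :=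
  ind_off (o.pos _) (mt (hP.mem_O' k hc (z := (x.1, P.sg * (c + 1)))
    (show c < _ by rw [P.sg_sg]; linarith) x).2 hx)

end End

/-! ### all ends -/

namespace Ends
variable {𝔉 : Fam I M (Option κ) lam T} {δ : ℝ} (X : Ends 𝔉 δ) {b c : ℝ}

theorem cov' (c : ℝ) : IsCompact (⋃ a, (X.P a).U c)ᶜ := by
  refine (X.cov.union (isCompact_iUnion fun a => (X.okP a).isCompact_slab c)).of_isClosed_subset
    (isOpen_iUnion fun a => (X.P a).isOpen_U c).isClosed_compl fun x hx => ?_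
  by_cases h : x ∈ ⋃ a, (X.P a).U X.R
  · obtain ⟨a, ha⟩ := mem_iUnion.1 h
    exact .inr (mem_iUnion.2 ⟨a, ha.2.le, not_lt.1 fun e => hx (mem_iUnion.2 ⟨a, ha.1, e⟩)⟩)
  · exact .inl h

theorem okZ (a : X.A) (c : ℝ) : (famZ T0 (X.P a).D δ ((X.P a).O' c)).OK :=
  ok_famZ (X.okP a).D (X.P a).Y.dim.le X.δ0.le End.isClopen_O'

include X in
theorem hdy : Hdy 𝔉.F0 := by
  refine Wt.hdy X.wt X.tame.choose_spec X.dψ X.cov (c := 2 * δ ^ 2) (by have := X.δ0; positivity)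
    fun x hx => ?_
  obtain ⟨a, ha⟩ := mem_iUnion.1 (not_not.1 hx)
  have h := X.okP a
  obtain ⟨z, hz, rfl⟩ := h.exists_ψ ha
  have s := h.src hz.le
  have e : ∀ᶠ y in 𝓝 z, δ * (X.P a).sg * y.2 = X.ψ ((X.P a).K.ψ y) := by
    filter_upwards [((X.P a).isOpen_H X.R).mem_nhds hz] with y hy
    rw [h.wt _ (h.ψ_mem le_rfl hy), h.tm hy.le, mul_assoc]
  have sm : ContDiff ℝ ∞ fun s : ℝ => δ * (X.P a).sg * s := by fun_prop
  have d : ∀ i, (X.P a).D.Z.D i (fun y => δ * (X.P a).sg * y.2) =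
      fun _ => i.elim (δ * (X.P a).sg) fun _ => 0 := fun i => by
    cases i with
    | none => exact (D_none_snd _ sm).trans (funext fun x => by simp)
    | some i => exact D_some_snd _ sm i
  have d1 := fun i => (X.P a).K.rel.D s i e
  have d2 := fun i => (X.P a).K.rel.D s i ((X.P a).K.rel.D_ev s i e)
  have d3 := Met55.iso_dv (F := (X.P a).D.Z) (X.P a).K.iso s none
  simp only [d] at d1 d2
  simp only [← d2]
  simp only [← d1, Fintype.sum_option, ← d3]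
  simp [show (X.P a).D.Z.dv none z = 0 from rfl, mul_pow, sq (X.P a).sg, End.sg_sq, D_def]

theorem cb_θ (a : X.A) (hc : X.R ≤ c) : 𝔉.F0.Cb ((X.P a).θ c) :=
  X.wt.toWtP.Cb.2 ((X.okP a).cb_θ hc)

theorem iso (a : X.A) (hb : X.R ≤ b) (h1 : 1 ≤ b) (O' : Set ((X.P a).Y.M × ℝ)) :
    Iso (famZ T0 (X.P a).D δ O').F0.toPre 𝔉.F0.toPre ((X.P a).ch b) :=
  iso_wt (iso_restr (X.P a).K.iso _) wt_famZ.toWtP X.wt.toWtP fun z hz => by
    have h := X.okP a
    rw [End.ch_apply, h.wt _ (h.ψ_mem le_rfl (hb.trans_lt hz.2)), h.tm (hb.trans hz.2.le),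
      ab_eq (X.P a).sg_cases (h1.trans hz.2.le)]

theorem isoS (a : X.A) (hb : X.R ≤ b) (h1 : 1 ≤ b) (O' : Set ((X.P a).Y.M × ℝ)) {t : T}
    (ht : t ∈ 𝔉.Q) : Iso (Fs (famZ T0 (X.P a).D δ O') 0).toPre (Fs 𝔉 t).toPre ((X.P a).ch b) :=
  have h := X.iso a hb h1 O'
  ⟨h.sm, h.sm', fun i z hz => ((X.okP a).gRel X.ok ht).fr.e i z (hb.trans_lt hz.2), h.μ⟩

theorem ct (a : X.A) (hb : X.R ≤ b) (h1 : 1 ≤ b) (hc : b < c) (O' : Set ((X.P a).Y.M × ℝ)) :
    Ct (famZ T0 (X.P a).D δ O').F0.toPre 𝔉.F0.toPre ((X.P a).ch b) ((X.P a).θZ c) ((X.P a).θ c) := by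
  obtain ⟨C, hC⟩ := bd_hc
  exact ⟨X.iso a hb h1 O', wt_famZ.toWtP.Cb.2 ⟨_, (hC _ c (X.P a).sg_cases).cyl _⟩,
    X.cb_θ a (hb.trans hc.le), ((X.okP a).adm_Z hb hc).mono (isClosed_tsupport _) End.supp_θZ,
    ((X.okP a).adm_M hb hc).mono (isClosed_tsupport _) End.supp_θ,
    fun z hz => ((X.okP a).θ_ψ (hb.trans hz.2.le)).symm⟩

theorem θ_off {a a' : X.A} (h : a ≠ a') (hc : X.R ≤ c) {x : M} (hx : x ∈ (X.P a).U X.R) :
    (X.P a').θ c x = 0 :=
  hc_zero (not_lt.1 fun e => disjoint_left.1 (X.dis h) hx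
    (((X.okP a').mem_U le_rfl).2 (hc.trans_lt e)))

/-- functions which vanish high up on all ends have compact support -/
theorem hcs {N : Type} [Zero N] {f : M → N} (c : ℝ) (h : ∀ a, ∀ x ∈ (X.P a).U c, f x = 0) :
    HasCompactSupport f :=
  HasCompactSupport.intro (X.cov' c) fun x hx => by
    obtain ⟨a, ha⟩ := mem_iUnion.1 (not_not.1 hx)
    exact h a x ha

theorem exists_ht {K : Set M} (hK : IsCompact K) : ∃ c, ∀ a, ∀ x ∈ (X.P a).U c, x ∉ K := by
  choose c hc using fun a => (hK.image (X.P a).cont_ht).bddAbove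
  obtain ⟨c', h⟩ := Finite.bddAbove_range c
  exact ⟨c', fun a x hx e => not_le.2 hx.2 ((hc a ⟨x, e, rfl⟩).trans (h ⟨a, rfl⟩))⟩

end Ends

/-! ### the cylinder as a manifold with two ends -/

section endsZ
variable (T) (Y : X212.M.Mf 3) [CompactSpace Y.M] (D : YD Y.I Y.M κ lam) (δ : ℝ)
  (O' : Set (Y.M × ℝ))

/-- the two ends of the cylinder -/
@[reducible] def endZ (b : Bool) : End (famZ T D δ O') := ⟨Y, D, D.nk, b⟩

variable {Y D δ O'}

/-- the cylinder -/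
@[reducible] def endsZ (hD : D.OK) [hY : PreconnectedSpace Y.M] (h0 : 0 < δ) (hO : IsClopen O')
    (hs : ∀ s, (δ * deriv ab s) ^ 2 ≤ 1 / 4) : Ends (famZ T D δ O') δ where
  A := Bool
  P := endZ T Y D δ O'
  ψ x := δ * ab x.2
  R := 1
  ok := ok_famZ hD Y.dim.le h0.le hO
  tame := Cht98.tame_cyl D.F Y.dim.le
  wt := wt_famZ
  ψ0 x := mul_nonneg h0.le (ab_nonneg _)
  dψ := cb_wZ D δ
  sml x := by
    refine le_trans (le_of_eq ?_) (hs x.2)
    change ∑ a, D.Z.D a _ x ^ 2 = _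
    simp [D_wZ]
  δ0 := h0
  R0 := one_pos
  okP b := ⟨hD, hY, fun s _ => by simp [Dp, YD.nk], fun _ _ _ _ _ _ => ⟨rfl, rfl⟩,
    fun _ _ _ _ => ⟨rfl, rfl⟩, fun _ _ _ _ _ => rfl, fun _ _ => rfl,
    fun x hx => congrArg (δ * ·) (ab_eq (End.sg_cases _) hx.2.le)⟩
  dis a b h := disjoint_left.2 fun x h1 h2 => by
    have e1 : (1 : ℝ) < (bif a then 1 else -1) * x.2 := h1.2
    have e2 : (1 : ℝ) < (bif b then 1 else -1) * x.2 := h2.2
    cases a <;> cases b <;> simp at h e1 e2 <;> linarith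
  cov := (isCompact_univ.prod (isCompact_Icc (a := (-1 : ℝ)) (b := 1))).of_isClosed_subset
    (isOpen_iUnion fun b => End.isOpen_U _ _).isClosed_compl fun x hx => ⟨trivial,
      not_lt.1 fun e => hx (mem_iUnion.2 ⟨false, trivial, show (1 : ℝ) < -1 * x.2 by linarith⟩),
      not_lt.1 fun e => hx (mem_iUnion.2 ⟨true, trivial, show (1 : ℝ) < 1 * x.2 by linarith⟩)⟩

theorem exists_sml : ∃ δ₀ > 0, ∀ δ : ℝ, |δ| ≤ δ₀ → ∀ s, (δ * deriv ab s) ^ 2 ≤ 1 / 4 := by
  obtain ⟨C, hC⟩ := bd_dab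
  have h0 := hC.nonneg 0
  refine ⟨(2 * (C 0 + 1))⁻¹, by positivity, fun δ h s => ?_⟩
  have h1 : |deriv ab s| ≤ C 0 + 1 := (hC.2 0 0 le_rfl s).trans (by linarith)
  have h2 : |δ * deriv ab s| ≤ 1 / 2 := by
    rw [abs_mul]
    refine (mul_le_mul h h1 (abs_nonneg _) (by positivity)).trans (le_of_eq (by field_simp))
  rw [← sq_abs]
  nlinarith [abs_nonneg (δ * deriv ab s)]

end endsZ

end Crest.Agent.X212.Nk89
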