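import Crest.Agent.X212.Nk89.End
import Crest.Agent.X212.An.Job

/-! The leaves of the theory on manifolds with cylindrical ends. -/

set_option autoImplicit false
set_option linter.unusedSectionVars false
noncomputable section
open scoped Manifold ContDiff Topology InnerProductSpace
open MeasureTheory Set Function Filter

namespace Crest.Agent.X212.Nk89
open An An.Pre Sob92 Prm93 Fred93 Mod61 Map77 Nd18 Cyf70 Eqv71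
open Grp76 (Nice gmE)
open Wz78 (nab)

variable {E : Type} [NormedAddCommGroup E] [NormedSpace ℝ E] [FiniteDimensional ℝ E]
  [MeasurableSpace E] [BorelSpace E]
  {HM : Type} [TopologicalSpace HM] {I : ModelWithCorners ℝ E HM} [I.Boundaryless]
  {M : Type} [TopologicalSpace M] [ChartedSpace HM M] [IsManifold I ∞ M]
  [MeasurableSpace M] [T2Space M] [BorelSpace M] [SecondCountableTopology M]
  {ι κ : Type} [Fintype ι] [Fintype κ] {lam : Type} [Fintype lam]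
  {T : Type} [NormedAddCommGroup T] [NormedSpace ℝ T]

section gen
variable {𝔉 : Fam I M ι lam T} (o : Ref 𝔉) {r : ℕ}

/-- the connection of `c` transported by `u`, minus the base connection (frame of `G t`) -/
def gA (t : T) (c : Cfg M ι lam r) (u : M → CL c.m.V o.m.V) : M → Fm ι o.m.A :=
  𝔉.Om.indicator fun x => WithLp.toLp 2 fun a =>
    hsL (-((𝔉.G t).F.D a u x + o.W t 0 a x ∘L u x - u x ∘L c.W a x) ∘L trn (u x))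

/-- the transported spinor minus the base spinor -/
def gP (c : Cfg M ι lam r) (u : M → CL c.m.V o.m.V) (ζ : Circle) : M → o.m.V :=
  fun x => 𝔉.Om'.indicator (fun x => cs o.m.J ζ (u x (c.Φ x))) x - o.Φ0 x

/-- LEAF PT: a configuration with a gauge in which it decays is a point -/
def PtStmt : Prop := 𝔉.OK → ∀ (r : ℕ) (t : T) (c : Cfg M ι lam r) (u : M → CL c.m.V o.m.V)
  (ζ : Circle), t ∈ 𝔉.Q → Adm0 c 𝔉.B (𝔉.G t) → (∀ x ∈ 𝔉.Om \ 𝔉.Om', c.Φ x = 0) →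
  MEq I c.m o.m 𝔉.Om id (fun x b a => 𝔉.B.P b a x) 𝔉.B.l u →
  Nice 𝔉.F0.toPre (gA o t c u) → Nice 𝔉.F0.toPre (gP o c u ζ) →
  ∃ y : Pnt o r, y.t = t ∧ EqOn 𝔉.B (𝔉.G t).F 𝔉.Om c y.cfg u ζ ∧
    (∀ x, y.α x = idx (𝔉.Si t x) (.id ℝ _) (gA o t c u x)) ∧ y.φ = gP o c u ζ

variable {o}

/-- an infinitesimal symmetry: a bounded gauge parameter `ξ` and a rotation `c` whose action on
`y` decays -/
structure Inf (y : Pnt o r) (ξ : M → o.m.A) (c : ℝ) : Prop where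
  cb : 𝔉.F0.Cb ξ
  mem : ∀ x, o.Pg x (ξ x) = ξ x
  A : ∀ a, Nice 𝔉.F0.toPre (nab I (𝔉.G y.t).F.e (o.m.adW (o.W y.t y.α)) a ξ)
  Φ : Nice 𝔉.F0.toPre fun x => opL (ξ x) (o.Φ0 x + y.φ x) + c • o.m.J (o.Φ0 x + y.φ x)

/-- `v` is the action of `(ξ, c)` on `y` -/
structure IsInf (k : ℕ) (y : Pnt o r) (ξ : M → o.m.A) (c : ℝ) (v : o.C r k) : Prop where
  A : ∀ x a, ∑ b, 𝔉.S y.t x a b • 𝔉.F0.val _ _ v.1 x b =
    -nab I (𝔉.G y.t).F.e (o.m.adW (o.W y.t y.α)) a ξ x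
  Φ : ∀ x, 𝔉.F0.val _ _ v.2.1 x = opL (ξ x) (o.Φ0 x + y.φ x) + c • o.m.J (o.Φ0 x + y.φ x)
  z : v.2.2 = ((2 * c * Complex.I : ℂ) • y.z, 0)

/-- a space `K` of symmetries which is independent modulo the gauge group -/
structure Sy (y : Pnt o r) {K : Type} [AddCommGroup K] [Module ℝ K] (ξ : K →ₗ[ℝ] M → o.m.A)
    (c : K →ₗ[ℝ] ℝ) : Prop where
  inf : ∀ s, Inf y (ξ s) (c s)
  ind : ∀ s, ∀ η ∈ Hs 𝔉.F0.toPre o.Pg,
    (∀ a x, nab I (𝔉.G y.t).F.e (o.m.adW (o.W y.t y.α)) a (ξ s - η) x = 0) →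
    (∀ x, opL (ξ s x - η x) (o.Φ0 x + y.φ x) + c s • o.m.J (o.Φ0 x + y.φ x) = 0) →
    (c s : ℂ) • y.z = 0 → s = 0

variable (o)

/-- LEAF KER + ORB: symmetries bound the index of a regular solution; if they exhaust it, the
solution is isolated modulo all equivalences -/
def KerStmt : Prop := ∀ [o.B0] (h : 𝔉.OK) (hy : Hdy 𝔉.F0) [CompleteSpace T] (r n m k : ℕ) (hk : 7 ≤ k)
  (W : Type) (e : T → PtX M ι lam r n m) (τ : W → T → PtX M ι lam r n m) (P : Pnt o r → Prop)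
  (d : ℤ) (Adm : (W →₀ ℝ) → Prop) (H : (thE (gmE o h hk r hy) e τ P d).OK Adm),
  𝔉.Nat e → (∀ w, 𝔉.Nat (τ w)) → ∀ (q : W →₀ ℝ) (y : Pnt o r), Adm q → H.Q.Sol q ⟨(), y⟩ →
  H.Q.Reg q ⟨(), y⟩ → ∀ (K : Type) [NormedAddCommGroup K] [NormedSpace ℝ K]
  [FiniteDimensional ℝ K] (ξ : K →ₗ[ℝ] M → o.m.A) (c : K →ₗ[ℝ] ℝ), Sy y ξ c →
  (Module.finrank ℝ K : ℤ) ≤ d ∧ ((Module.finrank ℝ K : ℤ) = d →
    (∀ᶠ x in H.Q.Near ⟨(), y⟩, H.Q.Sol q x → x.2.t = y.t ∧ ∃ w ζ, y.Eq x.2 w ζ) ∧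
    ∀ v : o.C r k, fderiv ℝ ((thE (gmE o h hk r hy) e τ P d).F () q) (y.pt k) v = 0 → ∃ s, ∃ η ∈ Hs 𝔉.F0.toPre o.Pg,
      IsInf k y (ξ s + η) (c s) v)

end gen

namespace Ends
variable {𝔉 : Fam I M (Option κ) lam T} {δ : ℝ} (X : Ends 𝔉 δ)

/-- LEAF FREE: the based group acts freely -/
def FreeStmt : Prop := ∀ (o : Ref 𝔉) (r : ℕ) (y : Pnt o r),
  (∀ x ∈ 𝔉.Om, (∃ a, ((X.P a).U X.R ∩ connectedComponent x).Nonempty) ∨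
    (∃ x' ∈ connectedComponent x, y.cfg.Φ x' ≠ 0) ∨
    x ∉ 𝔉.Om' ∧ ¬Red (𝔉.G y.t).F y.cfg (connectedComponent x)) → y.Free (AlE o)

/-- LEAF PNT: exponentially converging configurations are represented in a literal reference -/
def PntStmt : Prop := ∀ (r : ℕ) (t : T) (c : Cfg M (Option κ) lam r)
  (β : ∀ a, YC (X.P a).Y.M κ lam) (ζ : X.A → Circle) (d : ℝ), t ∈ 𝔉.Q → δ < d →
  Adm0 c 𝔉.B (𝔉.G t) → (∀ x ∉ 𝔉.Om', c.Φ x = 0) → (∀ a, (X.P a).D.Adm (β a)) →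
  (∀ a, (X.P a).K.ELim d c (β a) (ζ a) (X.P a).l) →
  ∃ (o : Ref 𝔉) (R : ℝ) (y : Pnt o r), X.Lit o R ∧ y.t = t ∧ Rep c y ∧
    (∀ t' α, o.W t' α = o.m.addC (𝔉.W0 o.m o.A0 t') fun x => idx (𝔉.S t' x) (.id ℝ _) (α x)) ∧
    ∀ a, ∀ t' ∈ 𝔉.Q, (X.P a).D.Eqv (β a) ((X.P a).sl o (R + 1) t')

/-- LEAF NEAR: local convergence and uniform decay give convergence in the chart -/
def NearStmt : Prop := ∀ (o : Ref 𝔉) (R R' d : ℝ) (r : ℕ) (y₀ : Pnt o r) (α : Type)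
  (𝒰 : Ultrafilter α) (c : α → Cfg M (Option κ) lam r) (t : α → T) (ζ' : α → Circle)
  (v : ∀ i a, (X.P a).Y.M × ℝ → CL (c i).m.V o.m.V), X.Lit o R → R + 1 ≤ R' → δ < d →
  Tendsto t 𝒰 (𝓝 y₀.t) →
  (∀ᶠ i in (𝒰 : Filter α), Adm0 (c i) 𝔉.B (𝔉.G (t i)) ∧ ∀ x ∈ 𝔉.Om \ 𝔉.Om', (c i).Φ x = 0) →
  (∃ u ζ, ULim I 𝔉.B 𝒰 𝔉.Om (fun i => (𝔉.G (t i)).F.e) c y₀.cfg u ζ) →
  (∀ a, X.Act a → (∀ᶠ i in (𝒰 : Filter α), ∀ j, ∃ C,
      (X.P a).EB (c i) ((X.P a).sl o (R + 1) (t i)) (v i a) (ζ' i) d R' j C) ∧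
    ∀ j, ∃ C, ∀ᶠ i in (𝒰 : Filter α),
      (X.P a).EB (c i) ((X.P a).sl o (R + 1) (t i)) (v i a) (ζ' i) d R' j C) →
  (∀ a, X.Act a → ∀ (s : (X.P a).Y.M × ℝ → CL o.m.V o.m.V) (ζ : Circle),
    EqOn (X.P a).D.B (X.P a).D.Z univ (cy ((X.P a).sl o (R + 1) y₀.t))
      (cy ((X.P a).sl o (R + 1) y₀.t)) s ζ → ∀ t' ∈ 𝔉.Q,
    EqOn (X.P a).D.B (X.P a).D.Z univ (cy ((X.P a).sl o (R + 1) t'))
      (cy ((X.P a).sl o (R + 1) t')) s ζ) →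
  ∀ k, 7 ≤ k → ∃ (y : α → Pnt o r) (y₁ : Pnt o r) (w : M → CL o.m.V o.m.V), y₁.t = y₀.t ∧
    AlE o w 1 ∧ y₀.Eq y₁ w 1 ∧ Tendsto (fun i => (y i).pt k) 𝒰 (𝓝 (y₁.pt k)) ∧
    ∀ᶠ i in (𝒰 : Filter α), (y i).t = t i ∧ Rep (c i) (y i)

/-- FRED (89) -/
def FredStmt : Prop := ∀ (o : Ref 𝔉) (R : ℝ) (r n m k : ℕ) (e : T → PtX M (Option κ) lam r n m),
  7 ≤ k → X.Lit o R → Aff o (Fs 𝔉) r n m e → ∀ y : Pnt o r, X.Fred o R k e y.t →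
  (∃ d, Idx k e y d) ∧ ∀ (y' : Pnt o r) d, y'.t = y.t → Idx k e y d → Idx k e y' d

/-- SLC (89) -/
def SlcStmt : Prop := ∀ [FiniteDimensional ℝ T] (o : Ref 𝔉) [o.B0] (hy : Hdy 𝔉.F0) (r n m k : ℕ)
  (hk : 7 ≤ k) (e : T → PtX M (Option κ) lam r n m) (y : Pnt o r) (d : ℤ),
  Aff o (Fs 𝔉) r n m e → Idx k e y d →
  (gmE o X.ok hk r hy).Slc e (d + 2 * r + Module.finrank ℝ T - 2 * n - m) y

end Ends

end Crest.Agent.X212.Nk89
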