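import Crest.Agent.X212.Nk89.Asy
import Crest.Agent.X212.Nk89.Lv

/-! The bridge to the cylinders and the Fredholm property on manifolds with ends. -/

set_option autoImplicit false
set_option linter.unusedSectionVars false
noncomputable section
open scoped Manifold ContDiff Topology InnerProductSpace ENNReal
open MeasureTheory Set Function Filter

namespace Crest.Agent.X212.Nk89
open An An.Pre Sob92 Prm93 Fred93 Mod61 Map77 Nd18 Cyf70 Ell97

variable {E : Type} [NormedAddCommGroup E] [NormedSpace ℝ E] [FiniteDimensional ℝ E]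
  [MeasurableSpace E] [BorelSpace E]
  {HM : Type} [TopologicalSpace HM] {I : ModelWithCorners ℝ E HM} [I.Boundaryless]
  {M : Type} [TopologicalSpace M] [ChartedSpace HM M] [IsManifold I ∞ M]
  [MeasurableSpace M] [T2Space M] [BorelSpace M] [SecondCountableTopology M]
  {ι κ : Type} [Fintype ι] [Fintype κ] {lam : Type} [Fintype lam]
  {T : Type} [NormedAddCommGroup T] [NormedSpace ℝ T]

section tt
variable {𝔉 : Fam I M ι lam T} {o : Ref 𝔉} {r n m k : ℕ} {f : o.C r k → o.Y n m k}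
  {e : T → PtX M ι lam r n m} (h : 𝔉.OK) (hk : 7 ≤ k) (he : Aff o (Fs 𝔉) r n m e) (hf : RepF e f)
include h hk he hf

/-- **the interior bridge** -/
theorem bridge_0 (y : Pnt o r) {χ : M → ℝ} (h1 : Sm I χ) (h2 : HasCompactSupport χ) :
    Cq (smulH _ k _ χ ∘L TT k f y)
      (smulH _ k _ χ ∘L (bd o).FF 𝔉.F0.toPre (Fs 𝔉 y.t) k (u0 o y.t)) := by
  obtain ⟨K, eK⟩ := TG_eq h hk he hf y
  refine ((cq_TT h (by omega) y).left _).trans ?_
  rw [eK, ContinuousLinearMap.comp_add]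
  exact .of_cpt (lc_incl K χ h1 h2).cpt fun _ => rfl

end tt

namespace Ends
variable {𝔉 : Fam I M (Option κ) lam T} {δ : ℝ} {X : Ends 𝔉 δ} {R b : ℝ} {k : ℕ} {a : X.A}
  {o : Ref 𝔉} {r n m : ℕ} {e : T → PtX M (Option κ) lam r n m} {f : o.C r k → o.Y n m k}

theorem off_U (ha : ¬X.Act a) (hb : X.R ≤ b) {x : M} (hx : x ∈ (X.P a).U b) : x ∉ 𝔉.Om :=
  ((X.okP a).dich X.ok.Om le_rfl).resolve_left ha ((X.P a).U_mono hb hx)

section one
variable {t : T} {h : (X.P a).D.Adm ((X.P a).sl o (R + 1) t)}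
  {h0 : ∀ x ∉ (X.P a).O' R, ((X.P a).sl o (R + 1) t).Φ x.1 = 0}
  {eZ : PtX ((X.P a).Y.M × ℝ) (Option κ) lam 0 0 0}
  {fZ : (refZ T0 δ h h0).C 0 k → (refZ T0 δ h h0).Y 0 0 k}
  (hl : X.Lit o R) (ha : X.Act a) (hb : R ≤ b) (h1 : 1 ≤ b)

variable (b k h h0) in
/-- restriction of fields -/
abbrev rC := X.rs a ((X.P a).O' R) b (k + 1) (bd o).pC (bd (refZ T0 δ h h0)).pC

variable (b k h h0) in
/-- restriction of equations -/
abbrev rF := X.rs a ((X.P a).O' R) b k (ps o.Pg (bd o).pE)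
  (ps (refZ T0 δ h h0).Pg (bd (refZ T0 δ h h0)).pE)

variable (b k h h0) in
/-- extension of fields -/
abbrev xC := X.ex a ((X.P a).O' R) b (k + 1) (bd o).pC (bd (refZ T0 δ h h0)).pC

variable (b k h h0) in
/-- extension of equations -/
abbrev xF := X.ex a ((X.P a).O' R) b k (ps o.Pg (bd o).pE)
  (ps (refZ T0 δ h h0).Pg (bd (refZ T0 δ h h0)).pE)

include hl ha hb h1

theorem mbC (ht : t ∈ 𝔉.Q) : X.Mb a b (bd o).pC (bd (refZ T0 δ h h0)).pC :=
  ⟨hl.le.trans hb, h1, fun z hz => (End.brel h h0 X.ok (X.okP a) hl.le (hl.lit a) ht hb ha).pC z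
    (((X.okP a).ch_src (hl.le.trans hb)).ge hz)⟩

theorem mbF (ht : t ∈ 𝔉.Q) :
    X.Mb a b (ps o.Pg (bd o).pE) (ps (refZ T0 δ h h0).Pg (bd (refZ T0 δ h h0)).pE) :=
  ⟨hl.le.trans hb, h1, fun z hz => (End.brel h h0 X.ok (X.okP a) hl.le (hl.lit a) ht hb ha).pF z
    (((X.okP a).ch_src (hl.le.trans hb)).ge hz)⟩

variable (hk : 7 ≤ k) (he : Aff o (Fs 𝔉) r n m e) (hf : RepF e f)
  (hZ : Aff (refZ T0 δ h h0) (Fs (famZ T0 (X.P a).D δ ((X.P a).O' R))) 0 0 0 fun _ => eZ)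
  (hfZ : RepF (fun _ => eZ) fZ)
include hk he hf hZ hfZ

set_option maxHeartbeats 2000000 in
theorem lc_both (y : Pnt o r) (hy : y.t = t) :
    LC (rF b k h h0 ∘L TG k f (y.pt k) t (u0 o t) - TZ fZ ∘L rC b k h h0) ∧
    LC (xF b k h h0 ∘L TZ fZ - TG k f (y.pt k) t (u0 o t) ∘L xC b k h h0) := by
  subst hy
  have kZ := X.okZ a R
  have H := (adj_rem X.ok).hy o y.ht
  have H' := (adj_rem kZ).hy (refZ T0 δ h h0) (yZ δ h h0).ht
  have c := (mbC (h := h) (h0 := h0) hl ha hb h1 y.ht).ct ((X.P a).O' R)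
  have n := H.nc_full ((sb_u0 o X.ok).cb _ y.ht)
  have n' := H'.nc_full ((sb_u0 _ kZ).cb _ (yZ δ h h0).ht)
  have O := (End.brel h h0 X.ok (X.okP a) hl.le (hl.lit a) y.ht hb ha).full
    (u := u0 _ (yZ δ h h0).t) (u' := u0 o y.t) (X.isoS a (hl.le.trans hb) h1 ((X.P a).O' R) y.ht)
  have e1 := TG_eq X.ok hk he hf y
  have e2 := TG_eq kZ hk hZ hfZ (yZ δ h h0)
  exact ⟨lc_tp c H'.toTw H.toTw n' n O e2 e1, lc_tp c.symm H.toTw H'.toTw n n' O.symm e1 e2⟩

variable (hL : (X.P a).Loc o k δ R e t h h0 eZ)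
include hL

set_option maxHeartbeats 2000000 in
/-- **the bridge, restriction** -/
theorem bridge_rs (hN : LocZ (δ := δ) h h0 k eZ (-(X.P a).sg)) (y : Pnt o r) (hy : y.t = t) :
    Cq (rF b k h h0 ∘L TT k f y) (TT k fZ (yZ δ h h0) ∘L rC b k h h0) := by
  subst hy
  have kZ := X.okZ a R
  have k4 : 4 ≤ k := by omega
  have nz : NlZ (-(X.P a).sg) (TZ fZ) := nlZ_of ((X.P a).sg_cases.symm.imp
    (by simp +contextual) (by simp +contextual)) kZ hk ((adj_rem kZ).rp hZ) hfZ _ hN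
  refine ((cq_TT X.ok k4 y).left _).trans (Cq.trans ?_ ((cq_TT kZ k4 _).right _).symm)
  refine cq_of_cpt X.ok (by omega) hf y _ _ (.id ℝ _) _ fun y' e1 e2 e3 => ?_
  generalize y.t = t at *
  subst e1
  exact (lc_both hl ha hb h1 hk he hf hZ hfZ y' rfl).1.cq
    ((asy hk hl ha hb h1 ((adj_rem X.ok).rp he) hf ((adj_rem kZ).rp hZ) hfZ hL e2 e3).sml_rs k4
      (mbF hl ha hb h1 y'.ht) (mbC hl ha hb h1 y'.ht) nz)

set_option maxHeartbeats 2000000 in
/-- **the bridge, extension** -/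
theorem bridge_ex (hF : X.Fred o R k e t) (y : Pnt o r) (hy : y.t = t) :
    Cq (TT k f y ∘L xC b k h h0) (xF b k h h0 ∘L TT k fZ (yZ δ h h0)) := by
  subst hy
  have kZ := X.okZ a R
  have k4 : 4 ≤ k := by omega
  have re := (adj_rem X.ok).rp he
  refine ((cq_TT X.ok k4 y).right _).trans (Cq.trans ?_ ((cq_TT kZ k4 _).left _).symm)
  refine cq_of_cpt X.ok (by omega) hf y _ (.id ℝ _) _ _ fun y' e1 e2 e3 => ?_
  generalize y.t = t at *
  subst e1
  refine ((lc_both hl ha hb h1 hk he hf hZ hfZ y' rfl).2.cq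
    ((asy hk hl ha hb h1 re hf ((adj_rem kZ).rp hZ) hfZ hL e2 e3).sml_ex k4
      (mbF hl ha hb h1 y'.ht) (mbC hl ha hb h1 y'.ht) fun a' _ => ?_)).symm
  by_cases ha' : X.Act a'
  · obtain ⟨eZ', c1, c2⟩ := hF a' ha' ((hl.lit a').adm X.ok (X.okP a') hl.le y'.ht)
      (End.off X.ok (X.okP a') hl.le)
    have rZ := (adj_rem (X.okZ a' R)).rp c1.aff
    exact (asy hk hl ha' hb h1 re hf rZ (rZ k hk).choose_spec c2 e2 e3).nl k4
      (mbF hl ha' hb h1 y'.ht)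
  · exact nl_off k4 le_rfl (fun x hx => off_pF X.ok.sub (off_U ha' le_rfl hx)) _

end one

/-- **two equations with the same limits** -/
theorem cq_two {r' n' m' : ℕ} {e' : T → PtX M (Option κ) lam r' n' m'}
    {f' : o.C r' k → o.Y n' m' k} (hk : 7 ≤ k) (hl : X.Lit o R) (he : Aff o (Fs 𝔉) r n m e)
    (he' : Aff o (Fs 𝔉) r' n' m' e') (hf : RepF e f) (hf' : RepF e' f') {y : Pnt o r}
    {y' : Pnt o r'} (hy : y'.t = y.t) (H : ∀ a, X.Act a → ∀ h h0, ∃ eZ,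
      CylOK (δ := δ) h h0 k eZ ∧ (X.P a).Loc o k δ R e y.t h h0 eZ ∧
        (X.P a).Loc o k δ R e' y.t h h0 eZ) : Cq (TT k f y) (TT k f' y') := by
  classical
  have hb := le_max_left R 1
  have h1 := le_max_right R 1
  have hb' := hl.le.trans hb
  let h (a : {a // X.Act a}) := (hl.lit a).adm X.ok (X.okP a) hl.le y.ht
  let h0 (a : {a // X.Act a}) := End.off (o := o) (t := y.t) X.ok (X.okP a) hl.le
  refine cq_patch (r' := fun a => rF (max R 1) k (h a) (h0 a))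
    (e' := fun a => xF (max R 1) k (h a) (h0 a)) (s' := smulH _ k _ (X.θ0 (max R 1)))
    (fun a => ?_) ((bridge_0 X.ok hk he hf y (sm_θ0 hb') (hcs_θ0 hb')).trans
      (hy ▸ bridge_0 X.ok hk he' hf' y' (sm_θ0 hb') (hcs_θ0 hb')).symm)
    (part (by omega) hb' (fun a => mbF hl a.2 hb h1 y.ht)
      fun a ha x hx => off_pF X.ok.sub (off_U ha hb' hx))
  obtain ⟨eZ, c1, c2, c3⟩ := H a a.2 (h a) (h0 a)
  have rZ := ((adj_rem (X.okZ a R)).rp c1.aff k hk).choose_spec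
  have l := c1.loc (-(X.P a).sg)
    ((X.P a).sg_cases.symm.imp (by simp +contextual) (by simp +contextual))
  exact (bridge_rs hl a.2 hb h1 hk he hf c1.aff rZ c2 l y rfl).trans
    (bridge_rs hl a.2 hb h1 hk he' hf' c1.aff rZ c3 l y' hy).symm

theorem fr_TT (hk : 7 ≤ k) (hl : X.Lit o R) (he : Aff o (Fs 𝔉) r n m e) (hf : RepF e f)
    (y : Pnt o r) (hF : X.Fred o R k e y.t) : (TT k f y).IsFredholm := by
  classical
  obtain ⟨j, rfl⟩ : ∃ j, k = j + 1 := ⟨k - 1, by omega⟩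
  have hb := le_max_left R 1
  have h1 := le_max_right R 1
  have hb' := hl.le.trans hb
  let h (a : {a // X.Act a}) := (hl.lit a).adm X.ok (X.okP a) hl.le y.ht
  let h0 (a : {a // X.Act a}) := End.off (o := o) (t := y.t) X.ok (X.okP a) hl.le
  choose eZ c1 c2 using fun a : {a // X.Act a} => hF a a.2 (h a) (h0 a)
  choose fZ rZ using fun a : {a // X.Act a} => (adj_rem (X.okZ a R)).rp (c1 a).aff _ hk
  have H := (adj_rem X.ok).hy o y.ht
  exact fr_ends (B := (bd o).full (Fs 𝔉 y.t) (u0 o y.t)) (by omega) hb' H.toTw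
    (H.nc_full ((sb_u0 o X.ok).cb _ y.ht)) (H.toOK.cliff_full H.P _)
    (fun a => mbC (h := h a) (h0 := h0 a) hl a.2 hb h1 y.ht) (fun a => mbF hl a.2 hb h1 y.ht)
    (fun a ha x hx => off_pC X.ok.sub (off_U ha hb' hx))
    (fun a ha x hx => off_pF X.ok.sub (off_U ha hb' hx))
    (fun a => ((idx_iff (X.okZ a R) (by omega) (rZ a) _).1 (c1 a).inv.choose_spec).1)
    (fun a => bridge_rs hl a.2 hb h1 hk he hf (c1 a).aff (rZ a) (c2 a) ((c1 a).loc _
      ((X.P a).sg_cases.symm.imp (by simp +contextual) (by simp +contextual))) y rfl)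
    (fun a => bridge_ex hl a.2 hb h1 hk he hf (c1 a).aff (rZ a) (c2 a) hF y rfl)
    (bridge_0 X.ok hk he hf y (sm_θ0 hb') (hcs_θ0 hb'))

variable (X) in
/-- **LEAF FRED** -/
theorem fred : X.FredStmt := fun _ _ _ _ _ k _ hk hl he y hF => by
  obtain ⟨f, hf⟩ := (adj_rem X.ok).rp he k hk
  have i := fun d => idx_iff X.ok (d := d) (by omega) hf
  exact ⟨⟨_, (i _ y).2 (.of (fr_TT hk hl he hf y hF))⟩, fun y' d hy H => (i d y').2
    ((cq_two hk hl he he hf hf hy fun a ha h h0 =>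
      let ⟨eZ, c1, c2⟩ := hF a ha h h0; ⟨eZ, c1, c2, c2⟩).symm.fr ((i d y).1 H))⟩

end Ends

end Crest.Agent.X212.Nk89
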