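import Crest.Agent.X212.Nk89.Gws

/-!
# Row 212, GL-WALL (helper89): the leaves CMP and ISO-Y0 of the wall `Y₀`
-/

set_option autoImplicit false
set_option linter.unusedSectionVars false
noncomputable section
open scoped Manifold ContDiff Topology
open Set Function Filter

namespace Crest.Agent.X212.Nk89
open An An.Job M Nd18 Gj67 Rf65 Pte3

variable {Wi : Type} {X : Mf 4} {A κ lam : Type} [Fintype A] [Fintype κ] [Fintype lam]
  [DecidableEq lam] {M : Mark X A κ} {W : World M} {L : ML M lam} {Λ : Lns W L}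
  {A' h : Type} [Fintype A'] [DecidableEq A'] [Fintype h] {r n : ℕ} {J : Job Wi Λ A' h r n}

/-- the drift: the gauge row of the side is the Coulomb row of the chart -/
def dSY {c : M.Cl} (b : Bp J c) (p : Prt A A' h) (V : Type) [Fintype V] (δ : ℝ) (t : Tq p V)
    (i : Option κ) (z : (W.Z c).M) : ℝ :=
  (Fs (b.F p V δ) t).dv i z - (J.G c (b.θ p V t)).F.dv i z

variable (J)

/-- **LEAF CMP** (all cylindrical walls): weights of a side and of a chart; the drift -/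
def CmpY : Prop := ∀ σ a (U Up R : FD) (d : Dat J σ a U.V Up.V R.V) q₀ δ (p : Prt A A' h) (V : Type)
  [Fintype V] (b : Bp J (J.cf a)) (t : Tq p V), d.OK q₀ δ → 6 ≤ d.R0 → PG J (J.cf a) σ p →
  J.Ov σ (J.cf a) b.s → t ∈ (b.F p V δ).Q → b.θ p V t = d.y.s →
  Prm93.Cmp (d.S.Fw δ).toPre (b.F p V δ).F0.toPre ∧
    ∀ i, d.FS.F0.Cb (dSY b p V δ t i) ∧ d.Lit (dSY b p V δ t i) (drZ κ d.Y (-2 * δ) i)

/-- **LEAF ISO-Y0** -/
def IsoY : Prop := ∀ σ a (d : Dat J σ a (Fin 0 → ℝ) ℝ (Fin 0 → ℝ)) q₀ δ y (p : Prt A A' h)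
  (b : Bp J (J.cf a)) (E : EC b p Empty δ) x ψ, d.OK q₀ δ → d.Oke q₀ → d.LipS q₀ δ 8 →
  Job.Iso d.y y → Sol σ q₀ y → E.o.B0 → RgC σ q₀ y 0 E x ψ → b.θ p Empty x.t = d.y.s →
  Prm93.Cmp (d.S.Fw δ).toPre (b.F p Empty δ).F0.toPre → d.bS = 0 → d.dS = dSY b p Empty δ x.t →
  d.IsoS q₀ δ 8

/-- **LEAF ASM-Y0** -/
def AsmY : Prop := Nrm J → IzStmt κ (lam ⊕ lam) 8 → Kof81.GenL J → Nk0 J → DgL J → CmpY J →
  IsoY J → WallY J

end Crest.Agent.X212.Nk89
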