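import Crest.Agent.X212.Nk89.Gwd
import Crest.Agent.X212.Nk89.Gwp
import Crest.Agent.X212.Pte3.Th
import Crest.Agent.X212.End14.Free

/-!
# Row 212, GL-WALL (helper89): the lower bound in a regular chart of index zero
-/

set_option autoImplicit false
set_option linter.unusedSectionVars false
noncomputable section
open scoped Manifold ContDiff Topology InnerProductSpace ENNReal NNReal
open MeasureTheory Set Function Filter

namespace Crest.Agent.X212.Nk89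
open An M Nd18 Mod61 Cht98 Rf65 Eqv71 Wrd81 Pte3 Prm93
open An.Job (SolOn Sol unc_of)
open Gl67 (Sid Cm Eqn g0 q2)

section fmt
variable {E : Type} [NormedAddCommGroup E] [NormedSpace ℝ E] [FiniteDimensional ℝ E]
  [MeasurableSpace E] [BorelSpace E]
  {HM : Type} [TopologicalSpace HM] {I : ModelWithCorners ℝ E HM}
  {M : Type} [TopologicalSpace M] [ChartedSpace HM M] [IsManifold I ∞ M]
  [MeasurableSpace M] {ι : Type} [Fintype ι] {lam : Type} [Fintype lam]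
  [I.Boundaryless] [T2Space M] [BorelSpace M] [SecondCountableTopology M]
  {T T' U Up R h : Type} [NormedAddCommGroup T] [NormedSpace ℝ T] [NormedAddCommGroup T']
  [NormedSpace ℝ T'] [NormedAddCommGroup U] [NormedSpace ℝ U] [NormedAddCommGroup Up]
  [NormedSpace ℝ Up] [NormedAddCommGroup R] [NormedSpace ℝ R] [Fintype h] {N r n m : ℕ}

/-- natural families form a submodule -/
def natF (𝔉 : Fam I M ι lam T) (r n m : ℕ) : Submodule ℝ (T → PtX M ι lam r n m) where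
  carrier := {τ | 𝔉.Nat τ}
  add_mem' := fun {τ σ} a b t ht c c' u ζ h1 h2 h3 h4 e => by
    obtain ⟨a1, a2, a3, a4⟩ := a t ht c c' u ζ h1 h2 h3 h4 e
    obtain ⟨b1, b2, b3, b4⟩ := b t ht c c' u ζ h1 h2 h3 h4 e
    exact ⟨fun x hx => (congrArg₂ (· + ·) (a1 x hx) (b1 x hx)).trans (cs_add' _ _ _ _ _),
      fun x hx s => (congrArg₂ (· + ·) (a2 x hx s) (b2 x hx s)).trans (map_add _ _ _).symm,
      fun i => (congrArg₂ (· + ·) (a3 i) (b3 i)).trans (mul_add _ _ _).symm,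
      congrArg₂ (· + ·) a4 b4⟩
  zero_mem' := fun _ _ c c' u ζ _ _ _ _ _ => ⟨fun x _ => by
      have := cs_smul' c'.m.J ζ (u x) 0 0
      rw [zero_smul, zero_smul] at this
      exact this, fun x _ s => (map_zero (cj (u x))).symm, fun i => (mul_zero _).symm, rfl⟩
  smul_mem' := fun s τ a t ht c c' u ζ h1 h2 h3 h4 e => by
    obtain ⟨a1, a2, a3, a4⟩ := a t ht c c' u ζ h1 h2 h3 h4 e
    exact ⟨fun x hx => (congrArg (s • ·) (a1 x hx)).trans (cs_smul' _ _ _ _ _),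
      fun x hx i => (congrArg (s • ·) (a2 x hx i)).trans (map_smul _ _ _).symm,
      fun i => (congrArg (s • ·) (a3 i)).trans (mul_smul_comm _ _ _).symm, congrArg (s • ·) a4⟩

variable {Jc : En (Fin N)} {B : Base M ι lam} {F0 : An.Fr I M ι} {G0 G1 : Geo I M ι lam}
  {H : T' → Geo I M ι lam} {H1 : T → Geo I M ι lam} {Q' : Set T'} {θ : T →L[ℝ] T'} {Q : Set T}
  {δ : ℝ} {Om Om' : Set M}

/-- **the estimate of a side** from the lower bound in a chart -/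
theorem iso_fmt [FiniteDimensional ℝ T'] [Subsingleton U] (hO : Om = univ) (hO' : Om' = univ)
    {o : Ref (Met55.fam B F0 G0 H Q' Om Om')} (ob : o.B0) {x : Pnt o r} (e1 : G1 = H x.t)
    (e2 : H1 = fun t => H (x.t + θ t)) {s : Sid (Met55.fam B G1.F G1 H1 Q univ univ) N Jc U Up R}
    (ok : s.OK) (fc : (Met55.fam B F0 G0 H Q' Om Om').OK) (cmp : Cmp (s.Fw δ).toPre F0.toPre)
    (b0 : s.b = 0) (hδ : 0 ≤ δ) {k : ℕ} (hk : 7 ≤ k) {c : Cm N r h R} {ct : h → Cut M lam}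
    {ε : Eqn (Met55.fam B G1.F G1 H1 Q univ univ) r n m ct} {hh : Type} [Fintype hh] {j : hh → h}
    (hj : Surjective j) {e : T' → PtX M ι lam r n m} {σ' : ∀ i, T' → Pc r B (ct (j i))}
    (hψ : ∀ i, c.ψ0 i ∈ Hd Jc (s.md.pp B (ct i).x0)) {ψ : ∀ i, HH o (ct (j i))}
    (L : LowP (𝔉 := Met55.fam B F0 G0 H Q' Om Om') (κ := fun i => ct (j i)) k e σ' x ψ)
    (ne : (Met55.fam B F0 G0 H Q' Om Om').Nat e)
    (nσ : ∀ (o' : Ref (Met55.fam B F0 G0 H Q' Om Om')) i,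
      NatC (c := ct (j i)) o' o (fun _ _ => True) (σ' i))
    {u : M → CL s.md.V o.m.V} {ζ : Circle}
    (a : EqOn B (H x.t).F Om ⟨s.md, s.A0, s.Φ0, c.z0⟩ x.cfg u ζ)
    (a' : ∀ i, (ct (j i)).Eqv (ct (j i)) B B (m := s.md) u ⟨c.ψ0 (j i), hψ (j i)⟩ (ψ i))
    (hθ : ∀ t, ‖θ t‖ = ‖t‖)
    (hD : ∀ t y, (e (x.t + θ t)).D y = (ε.e t).D y) (hC : ∀ t y, (e (x.t + θ t)).C y = (ε.e t).C y)
    (hS : ∀ t y, ‖(e (x.t + θ t)).S y‖ = ‖(ε.e t).S y‖)
    (hR : ∀ t y, (e (x.t + θ t)).R y = (ε.e t).R y)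
    (hσ : ∀ t i y, σ' i (x.t + θ t) y = ((ct (j i)).T (Met55.fam B G1.F G1 H1 Q univ univ).B
      (H1 t).F y.m y.W - ε.σ t (j i) y :))
    (hd : s.dr = fun a z => (Fs (Met55.fam B F0 G0 H Q' Om Om') x.t).dv a z - (H x.t).F.dv a z)
    (oke : ∃ ρ > 0, (s.sd c ε).Ok ρ) (lip : ∃ ρ C : ℝ≥0, 0 < ρ ∧ (s.sd c ε).Lip δ k ρ ρ C) :
    ∃ K ρ : ℝ≥0, 0 < ρ ∧ ∀ w ∈ Sec I s.bd.pC, ∀ p, ‖p‖ ≤ ρ →
      (s.sd c ε).Q (g0 δ) univ (k + 1) w ≤ ρ → (s.sd c ε).Q (g0 δ) univ (k + 1) w + q2 p ≤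
        K * ((s.sd c ε).Q (g0 δ) univ k ((s.sd c ε).E w p) + q2 ((s.sd c ε).e w p)) := by
  subst hO hO' e1 e2
  have K : Ch F0 G0 Q' δ s := ⟨ok, fc, x.ht, cmp, b0⟩
  have a1 : (K.pt 0 c.z0 K.t0).Eq x u ζ := by
    have : ∀ {W W' : s.md.Cn} {Φ Φ' : M → s.md.V}, W = W' → Φ = Φ' →
        EqOn B (H x.t).F univ ⟨s.md, W', Φ', c.z0⟩ x.cfg u ζ →
        EqOn B (H x.t).F univ ⟨s.md, W, Φ, c.z0⟩ x.cfg u ζ := fun a b e => a ▸ b ▸ e
    exact this K.W_zero K.Φ_zero a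
  exact K.iso hδ hk hj hψ (LowP.tr (𝔉 := fC B F0 G0 H Q') (κ := fun i => ct (j i)) (σ := σ')
    (x' := K.pt 0 c.z0 K.t0) (ψ' := fun i => ⟨c.ψ0 (j i), hψ (j i)⟩) (ψ := ψ) (w := u) fc
    (fun _ => subset_univ _) hk ne rfl a1 (fun i => a' i) (fun i => nσ K.o i) L) (Cθ := 1)
    (fun t => ((one_mul _).trans (hθ t)).ge) (fun t => (hθ t).le) le_rfl hD hC hS hR hσ hd oke lip

end fmt

variable {Wi : Type} {X : Mf 4} {A κ lam : Type} [Fintype A] [Fintype κ] [Fintype lam]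
  [DecidableEq lam] {M : Mark X A κ} {W : World M} {N : ML M lam} {Λ : Lns W N}
  {A' h : Type} [Fintype A'] [DecidableEq A'] [Fintype h] {r n : ℕ}
  {J : Job Wi Λ A' h r n} {c : M.Cl} {σ : Cel A'} {p : Prt A A' h} {U : Type} [Fintype U] {δ : ℝ}
  {b : Bp J c} {E : EC b p U δ} {q : Wi →₀ ℝ}

variable (b p U δ) in
/-- the rows of the cuts -/
def rwC (q : Wi →₀ ℝ) (i : p.H) : Tq p U → Pc r (b.F p U δ).B (J.cut c i) := fun t x =>
  tpC (b.F p U δ) r (J.cut c i) t x - (cu p U δ b).tot q i t x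

section cs
variable (H : CS σ E) {y : J.Obc c} {x : Pnt E.o r} {ψ : E.K}
include H

theorem nat_tot : (b.F p U δ).Nat (EC.tot b p U δ q) :=
  (natF _ r n _).add_mem (H.nat_e H.hb) ((natF _ r n _).sum_mem fun w _ =>
    (natF _ r n _).smul_mem _ (H.nat_τ H.hb w))

set_option maxRecDepth 4000 in
theorem natC' (o o' : Ref (b.F p U δ)) (i : p.H) (w : Wi) (Al) :
    NatC o o' Al ((cu p U δ b).σ i w) := fun y y' _ _ ht _ e η a => by
  have := H.ok.tc_nat H.mem (H.ov H.hb y.ht) H.cl (Job.unc_of H.pok.pc (H.pok.nb i i.2))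
    (H.cut_sub i) w ⟨y.ad0 H.F, ht ▸ y'.ad0 H.F, fun z hz => y.off H.F z fun k => hz (H.F.sub k),
      fun z hz => y'.off H.F z fun k => hz (H.F.sub k), e⟩ η a
  rw [ev_tm, ev_tm, ht]
  exact this

theorem nat_rwC (o o' : Ref (b.F p U δ)) (i : p.H) :
    NatC o o' (fun _ _ => True) (rwC p U δ b q i) := fun y y' w ζ t _ e η v =>
  (congrArg₂ (· - ·) (natC_tp H.F (H.cut_sub i) (fun _ ht => H.cut_ok H.hb ht i) (fun _ _ => True)
    y y' w ζ t trivial e η v) (by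
      simp only [CTh.ev_tot, _root_.sum_apply, _root_.smul_apply, map_sum, map_smul,
        natC' H o o' i _ (fun _ _ => True) y y' w ζ t trivial e η v] :
          evC ((cu p U δ b).tot q i) y' _ = Cnt93.Rh _ _ _ _ w η (evC ((cu p U δ b).tot q i) y v))).trans
    (map_sub _ _ _).symm

theorem zxC (S : SolOn p σ q y) (R : E.RepC y x ψ) :
    Sym93.ZX (EC.tot b p U δ q) (rwC p U δ b q) x ψ := by
  obtain ⟨u, ζ, e, e'⟩ := R.e
  have g := H.pok.kt2 H.ok H.mem S.ov (H.ovx x) (θ_eq R.s)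
  have t := H.pok.t_rel H.ok H.mem S.ov (H.ovx x) (θ_eq R.s) q
  have k : CR0 (J.B c) (J.G c y.s) (J.B c) (J.G c (b.θ p U x.t)) (W.un c p.P) (W.un c p.P) id
      (fun z a i => (J.B c).P a i z) (J.B c).l y.x x.cfg u ζ :=
    ⟨ad0 S.adm, x.ad0 H.F, fun z hz => S.off z fun k => hz (un_sub H.pok k),
      fun z hz => x.off H.F z fun k => hz (H.F.sub k), ceq_on e fun z hz a =>
        (H.pok.fr_eq H.ok H.mem S.ov (H.ovx x) (θ_eq R.s) z hz a).1.symm⟩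
  obtain ⟨h1, h2, h3, h4⟩ := tot_ev (b := b) (U := U) (δ := δ) (t := x.t) (q := q) x.cfg
  refine ⟨⟨fun z hz => (h1 z).trans ((t.eD g.toLG k (un_sub H.pok hz)).trans ?_),
    fun z hz => (h2 z).trans ((t.eC g.toLG k hz).trans ?_),
    funext fun i => (h3 i).trans (neg_eq_zero.2 ((t.S k i).trans ?_)), h4.trans (funext fun i => ?_)⟩,
    fun i => ?_⟩
  · rw [S.D z hz, map_zero, ← csL_apply, map_zero]
  · rw [S.C z hz, map_zero]
  · rw [S.S, mul_zero]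
  · rcases S.adm.z with k | k
    · exact (show Fin (min r 1) → False from k ▸ Fin.elim0) i |>.elim
    · exact (congrArg (fun v => v ^ 2 - 1) ((ceq_norm_z e).trans k)).trans (by simp)
  · have := (PcRel0.sol (H.pok.sc_rel H.ok H.mem S.ov (H.ovx x) (θ_eq R.s) i.2 q) g.toLG
      (H.ok.ct σ H.mem _ S.ov.1 c S.inf i (unc_of H.pok.pc (H.pok.nb i i.2))) (H.cut_ok H.hb x.ht i)
      (Cnt93.rel_refl g.hB (H.cut_sub i)) k (e' i)).2 (S.cut i i.2)
    rw [← tot_cu (b := b) (U := U) (δ := δ)] at this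
    exact ⟨this.1, sub_eq_zero.2 this.2⟩

theorem freeC (ov : J.Ov σ c y.s) (ad : Ad0 y.x (J.B c) (J.G c y.s)) (R : E.RepC y x ψ)
    (hP : W.un c p.P' = univ) (f : Fre p y) : x.Free (AlE E.o) := by
  obtain ⟨u, ζ, e, -⟩ := R.e
  refine End14.free H.ee E.o r x fun z hz => ?_
  obtain ⟨π, h1, h2⟩ := mem_un.1 hz
  have hπ := H.pok.pc π h1
  have k := (H.lk H.eo.d0 H.eo.d1 H.hb).same ⟨ad, H.ok.memO H.mem ov⟩
    (H.pok.fr_eq H.ok H.mem ov (H.ovx x) (θ_eq R.s)) e h1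
  rw [((Cyl58.isClopen_pc _ hπ).connectedComponent_subset h2).antisymm
    ((Cyl58.isConnected_pc _ hπ).subset_connectedComponent h2)]
  rcases f π h1 with ⟨a, ha, h3⟩ | h3 | h3
  · obtain ⟨d, h4⟩ := Option.ne_none_iff_exists'.1 h3
    obtain ⟨w, hw⟩ := H.U_ne (U := U) (b := b) H.eo.d0 H.eo.d1 (⟨a, ha⟩, d) le_rfl
    have := H.ok.end_sub (t := J.Θ b.s) ⟨ha.2, b.br, b.O, ha.1⟩ (P := {π}) (fun _ e => e ▸ hπ)
      ⟨π, rfl, h4⟩ hw.1
    rw [un_one] at this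
    exact .inl ⟨_, w, hw, this⟩
  · exact .inr (.inl (k.sp.1 h3))
  · obtain ⟨π', h4, h5⟩ := mem_un.1 (hP.ge (mem_univ z))
    exact (h3.1 (Cyl58.pc_unique _ (H.pok.pc _ (H.pok.sub h4)) hπ h5 h2 ▸ h4)).elim

/-- **the lower bound in a regular chart of index zero** -/
theorem lowC (z : Sym93.ZX (EC.tot b p U δ q) (rwC p U δ b q) x ψ) (fre : x.Free (AlE E.o))
    (rg : E.Reg q x ψ) {d : ℤ} (hI : Idx 8 (EC.tot b p U δ q) x d)
    (hd : d + 2 * r + Module.finrank ℝ (Tq p U) - 2 * n - (min r 1 : ℕ) = 2 * Fintype.card p.H) :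
    LowP 8 (EC.tot b p U δ q) (rwC p U δ b q) x ψ := by
  have g := H.th_ok (Adm := fun _ => True) (K := fun _ => False) (d := 0)
    (fun _ _ _ _ _ _ => id) (fun _ => False.elim) fun _ _ _ => False.elim
  have C := H.cu_ok (fun _ => False) (0 + 2 * r + Module.finrank ℝ (Tq p U) - 2 * n - (min r 1 : ℕ))
  have a := C.ax g
  exact low_fmt (σ := rwC p U δ b q) H.F H.cut_sub (by norm_num) (nat_tot H) H.ee.hdy (g.repF () q)
    (A := fun i => (C.ext g).T () i q) (fun i => ⟨a.smT () i q, C.T_pt g q () i⟩)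
    (nat_rwC H _ _) z fre hI hd (fun i => by
      have := C.fred g q () i x
      rwa [C.T_pt] at this) (by
      have := (H.reg_iff g x ψ).2 rg
      unfold Prob.Reg at this
      rwa [funext ((C.ext g).F_eq () q)] at this)

end cs

theorem hd_inj (hJ : J.OK) {a a' : A'} {x : A} (e : J.hd a = some x) (e' : J.hd a' = some x) :
    a = a' := by_contra fun k => by
  obtain ⟨s₀, h1, h2⟩ := hJ.lin
  have a1 := (h2 a x e (update (fun _ => 2) a 1) (by simpa using h1.le)).1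
  have a2 := (h2 a' x e' (update (fun _ => 2) a 1) (by
    rw [update_of_ne (Ne.symm k)]; linarith)).1
  rw [a1, update_self, update_of_ne (Ne.symm k)] at a2
  norm_num at a2

/-- the free coordinates as parameters of a chart -/
def θL {a : A'} (hV : ∀ a' ∈ p.V, σ a' = none ∧ a' ≠ a) : Gj67.Tc σ a →L[ℝ] Tq p Empty :=
  (ContinuousLinearMap.pi fun v : p.V => .proj ⟨v.1, hV _ v.2⟩).prod 0

open Gj67 in
/-- **ISO-Y0** -/
theorem isoY : IsoY J := fun σ a d q₀ δ y p b E x ψ ok oke lip iso sol b0 R hθ cmp hb hd => by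
  have H : CS σ E := ⟨R.pg, R.ok, R.ov, R.sm⟩
  have o := H.ovx x
  have hV : ∀ a' ∈ p.V, σ a' = none ∧ a' ≠ a := fun a' k =>
    ⟨(H.pok.fr a' k).1, fun e => (H.pok.fr a' k).2 d.x (e ▸ ok.hd) ok.hd⟩
  have hV' : ∀ a', σ a' = none → a' ≠ a → a' ∈ p.V := fun a' k k' =>
    R.V a' k fun z e e' => k' (hd_inj ok.ok e e')
  have s1 : d.y.s a = 1 := by
    obtain ⟨a', e, e'⟩ := ok.ok.inf σ ok.mem _ o.1 d.x (o.2.ge ok.hd)
    exact (congrArg _ (hd_inj ok.ok ok.hd e)).trans ((congrFun hθ a').symm.trans e')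
  have eθ : ∀ t, b.θ p Empty (x.t + θL hV t) = d.s 1 t := fun t => funext fun a' => by
    by_cases k : a' ∈ p.V
    · rw [θ_V k, Dat.s, ee, dif_pos (hV a' k), ← hθ, θ_V k]; rfl
    · rw [θ_off k, Dat.s, ee, dif_neg fun e => k (hV' a' e.1 e.2), ← θ_off (t := x.t) k, hθ]
      split_ifs with e
      exacts [e ▸ s1, rfl]
  have hH : d.y.H = univ := by
    have := ok.sol.drop
    rw [ok.tight.1, ok.unc, Nat.le_zero, ncard_eq_zero, diff_eq_empty] at this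
    exact univ_subset_iff.1 this
  have S : SolOn p σ q₀ d.y := ⟨ok.sol.cell, ok.sol.inf, ok.sol.sol.toAdm,
    fun z hz => (hz (R.P'.ge (mem_univ z))).elim, fun z _ => ok.sol.sol.D z,
    fun z _ => ok.sol.sol.C z, ok.sol.sol.S, fun i _ => ok.sol.cut i (hH.ge (mem_univ i)),
    fun a b ha _ => ok.sol.lim a b ha, fun a ha b _ => ok.sol.crit a ha b, ok.sol.int.integrableOn⟩
  have ad := ad0 sol.sol.toAdm
  obtain ⟨u₂, ζ₂, e₂, f₂⟩ := R.rep.e
  obtain ⟨es, u₁, ζ₁, e₁, f₁⟩ := iso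
  have ad' : Ad0 y.x (J.B _) (J.G _ (b.θ p Empty x.t)) := by rw [hθ, es]; exact ad
  have e := ceq_trans_id H.F.B (H.F.G _ x.ht) H.cl.2 (by rw [hθ]; exact ad0 S.adm :
    Ad0 d.y.x (J.B _) (J.G _ (b.θ p Empty x.t))) ad' (x.ad0 H.F) (by rw [hθ, R.P]; exact e₁ :
      EqOn (J.B _) (J.G _ (b.θ p Empty x.t)).F (W.un _ p.P) d.y.x y.x u₁ ζ₁) e₂
  have f : ∀ i : p.H, (J.cut _ i).Eqv (J.cut _ i) (J.B _) (J.B _) (fun z => u₂ z ∘L u₁ z)
      (d.y.ψ i) (ψ i) := fun i => Cnt93.eqv_trans (φ := id) rfl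
    (e₂.m.J _ (R.P.ge (mem_univ _))) E.o.ok.Jsq (f₁ ⟨i, ok.unc.ge (mem_univ _)⟩) (f₂ i)
  obtain ⟨d', hI, hd'⟩ := R.idx
  have L := lowC H (zxC H S ⟨fun v => (R.rep.s v).trans (congrFun es v).symm, _, _, e, f⟩)
    (freeC H (es ▸ S.ov) ad R.rep R.P' R.fre) R.reg hI (by
      rw [Module.finrank_prod, Module.finrank_fintype_fun_eq_card,
        Module.finrank_fintype_fun_eq_card, ← Nat.card_eq_fintype_card (α := p.V),
        ← Nat.card_eq_fintype_card (α := p.H), Nat.card_coe_set_eq, Nat.card_coe_set_eq, R.H,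
        ncard_univ, Nat.card_eq_fintype_card]
      push_cast at hd' ⊢
      linarith)
  have ev := fun t z => eθ t ▸ tot_ev (b := b) (δ := δ) (t := x.t + θL hV t) (q := q₀) z
  obtain ⟨ρ, ρ0, oke, -⟩ := oke
  exact iso_fmt (B := J.B _) (F0 := (b.F p Empty δ).F0) (G0 := J.G _ b.s)
    (H := fun t => J.G _ (b.θ p Empty t)) (Q' := (b.F p Empty δ).Q) (θ := θL hV) R.P R.P'
    (o := E.o) b0 (x := x) (congrArg _ hθ.symm) (funext fun t => congrArg _ (eθ t).symm) (s := d.S)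
    ok.okS H.F cmp hb ok.δ0.le (k := 8) (by norm_num) (c := d.cm) (ε := d.εS q₀)
    (j := fun i : p.H => i.1) (fun i => ⟨⟨i, R.H.ge (mem_univ i)⟩, rfl⟩)
    (σ' := rwC p Empty δ b q₀) (fun i => (d.y.ψ i).2) L (nat_tot H) (fun o' => nat_rwC H o' _) e f
    (fun t => by
      refine le_antisymm (max_le ((pi_norm_le_iff_of_nonneg (norm_nonneg t)).2 fun v =>
        norm_le_pi_norm t _) (norm_zero.trans_le (norm_nonneg t)))
        ((pi_norm_le_iff_of_nonneg (norm_nonneg _)).2 fun v => ?_)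
      exact (norm_le_pi_norm (θL hV t).1 ⟨v.1, hV' _ v.2.1 v.2.2⟩).trans (norm_fst_le _))
    (fun t z => funext (ev t z).1) (fun t z => funext (ev t z).2.1)
    (fun t z => (congrArg _ (funext (ev t z).2.2.1)).trans (norm_neg _)) (fun t z => (ev t z).2.2.2)
    (fun t i z => by
      rw [rwC, tot_cu, tpC]
      exact congrArg (fun s => (J.cut _ i).T (J.B _) (J.G _ s).F z.m z.W - J.σc _ q₀ s i z) (eθ t))
    hd ⟨ρ, ρ0, oke⟩ lip

end Crest.Agent.X212.Nk89
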