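import Crest.Agent.X212.Nk89.Gwr
import Crest.Agent.X212.Dg64.Defs

/-!
# Row 212, GL-WALL (helper89): the inputs and the statement at the wall `Y₀`
-/

set_option autoImplicit false
set_option linter.unusedSectionVars false
noncomputable section
open scoped Manifold ContDiff Topology
open Set Function Filter

namespace Crest.Agent.X212.Nk89
open An An.Job M Nd18 Gj67

variable {Wi : Type} {X : Mf 4} {A κ lam : Type} [Fintype A] [Fintype κ] [Fintype lam]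
  [DecidableEq lam] {M : Mark X A κ} {W : World M} {L : ML M lam} {Λ : Lns W L}
  {A' h : Type} [Fintype A'] [DecidableEq A'] [Fintype h] {r n : ℕ} (J : Job Wi Λ A' h r n)

/-- **LEAF NKD0 + STAB0** (row 6728) -/
def Nk0 : Prop := J.OK → ∀ x, Nonempty ((J.xs x).N.CD (J.xs x).D) → ∃ δ₀ > 0,
  Sml fun Adm => ∀ q₀, Adm q₀ → ∀ δ ∈ Ioc 0 δ₀, ∀ σ a
    (d : Dat J σ a (Fin 0 → ℝ) ℝ (Fin 0 → ℝ)), d.x = x → d.OK q₀ δ → 6 ≤ d.R0 →
    (J.xs d.x).N.Nondeg d.D (d.β 0) → ¬d.D.Fx (d.β 0) → d.NkD q₀ δ ∧ d.Stab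

/-- **LEAF DG** (row 6711) -/
def DgL : Prop := Kof81.AllD J fun _ _ _ _ _ d q₀ δ =>
  d.Gen q₀ δ 8 → d.NkD q₀ δ → d.Stab → d.DG q₀ δ 8

/-- **WALL-Y0** (row 6712) -/
def WallY : Prop := J.OK → W.Nrm → Λ.Nrm → ∀ a x, J.hd a = some x →
  Nonempty ((J.xs x).N.CD (J.xs x).D) → ∃ δ₁ > 0, ∀ n₀, ∀ σ ∈ J.𝒦, a ∈ J.wa σ →
    Kof81.WallL J n₀ (FRY J δ₁) σ a

end Crest.Agent.X212.Nk89
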