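import Crest.Agent.X212.Gl67.Leaf
import Crest.Agent.X212.Nd18.Props

/-!
# Row 212, GL-WALL (helper89): the sub-leaves NRM (normal form of a face object) and IZ (the
estimate on the cylinder at a nondegenerate free critical point)
-/

set_option autoImplicit false
set_option linter.unusedSectionVars false
noncomputable section
open scoped Manifold ContDiff Topology InnerProductSpace ENNReal NNReal
open MeasureTheory Set Function Filter

namespace Crest.Agent.X212.Nk89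
open An An.Job M Nd18 Mod61 Gj67
open Gl67 (Sid Cm PP ka g0 q2 cd_ka)
open Map77 (Cf)
open Cyf70 (IC)

/-! ### the cylinder -/

section iz
variable {E3 : Type} [NormedAddCommGroup E3] [NormedSpace ℝ E3] [FiniteDimensional ℝ E3]
  [MeasurableSpace E3] [BorelSpace E3]
  {H3 : Type} [TopologicalSpace H3] {I3 : ModelWithCorners ℝ E3 H3} [I3.Boundaryless]
  {Y : Type} [TopologicalSpace Y] [ChartedSpace H3 Y] [IsManifold I3 ∞ Y] [T2Space Y]
  [MeasurableSpace Y] [BorelSpace Y] [SecondCountableTopology Y] [CompactSpace Y]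
  {κ : Type} [Fintype κ] {lam : Type} [Fintype lam] (N : ND Y lam) (D : YD I3 Y κ lam)
  (T U R : Type) [NormedAddCommGroup T] [NormedSpace ℝ T] [NormedAddCommGroup U]
  [NormedSpace ℝ U] [NormedAddCommGroup R] [NormedSpace ℝ R]

/-- the drift of the gauge row on the cylinder -/
def drZ (κ Y : Type) (c₀ : ℝ) (i : Option κ) (z : Y × ℝ) : ℝ :=
  c₀ * i.elim (deriv rho z.2) fun _ => 0

/-- the side on the cylinder at `β` with the tent of height `L` -/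
def zS (β : YC Y κ lam) (c₀ L : ℝ) (bp : Y × ℝ → ℝ)
    (mo : Y × ℝ → CL (Cf (Option κ) (Fin β.m.N)) ℝ) :
    Sid (cst T D.B D.G univ univ) β.m.N β.m.J U ℝ R :=
  ⟨fun z => β.m.p z.1, fun i z => β.m.ρ i z.1, fun z => β.m.j z.1, fun i z => β.W i z.1,
    fun z => β.Φ z.1, 0, drZ κ Y c₀, bp, mo, 0, fun z => ka (L - rho z.2),
    (cd_ka.comp (contDiff_const.sub cd_rho)).contMDiff.comp contMDiff_snd⟩

/-- the equations on the cylinder (`= Dat.eZ`) -/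
def zE (r n m : ℕ) (q : YW I3 Y →₀ ℝ) (_ : T) : PtX (Y × ℝ) (Option κ) lam r n m where
  D x := x.eD D.G (N.pt D.nk q : Pt _ _ _ r n)
  C x := x.eC D.B D.G (N.pt D.nk q : Pt _ _ _ r n)
  S _ := 0
  R _ := 0

/-- the estimate with the rows `bp`, `mo`, uniformly in the height and in bounded perturbations -/
def IzAt (k : ℕ) (β : YC Y κ lam) (δ c₀ : ℝ) (bp : Y × ℝ → ℝ)
    (mo : Y × ℝ → CL (Cf (Option κ) (Fin β.m.N)) ℝ) : Prop :=
  ∀ (T U R h : Type) [NormedAddCommGroup T] [NormedSpace ℝ T] [NormedAddCommGroup U]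
    [NormedSpace ℝ U] [NormedAddCommGroup R] [NormedSpace ℝ R] [Fintype h] (r n m : ℕ)
    (c : Cm β.m.N r h R) (S : Finset (YW I3 Y)) (Q : ℝ), ∃ (K ρ : ℝ≥0) (b : ℝ), 0 < ρ ∧
    ∀ q : YW I3 Y →₀ ℝ, q.support ⊆ S → (∀ w, |q w| ≤ Q) → ∀ L : ℝ,
    ∀ w ∈ Sec (IC I3) (zS D T U R β c₀ L bp mo).bd.pC,
      tsupport w ⊆ (fun z : Y × ℝ => ka (L - rho z.2)) ⁻¹' Ici b → ∀ p : PP T U r h β.m.N,
      ((zS D T U R β c₀ L bp mo).sd0 c (zE N D T r n m q)).Q (g0 δ) univ (k + 1) w ≤ ρ →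
      ((zS D T U R β c₀ L bp mo).sd0 c (zE N D T r n m q)).Q (g0 δ) univ (k + 1) w ≤
        K * ((zS D T U R β c₀ L bp mo).sd0 c (zE N D T r n m q)).Q (g0 δ) univ k
          (((zS D T U R β c₀ L bp mo).sd0 c (zE N D T r n m q)).E w p)

/-- **LEAF IZ** at a cross-section: ONE bound `δ₀` for the class of `β₀` -/
def Iz (k : ℕ) : Prop := D.OK → N.OK D → Module.finrank ℝ E3 = 3 → PreconnectedSpace Y →
  ∀ β₀, N.Crit D β₀ → N.Nondeg D β₀ → ¬D.Fx β₀ → ∃ δ₀ > 0, ∀ δ ∈ Ioc 0 δ₀, ∀ c₀, |c₀| ≤ 2 * δ →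
    ∀ β, D.Adm β → D.Eqv β₀ β → ∃ bp mo, (Sm (IC I3) bp ∧ HasCompactSupport bp) ∧
      (Sm (IC I3) mo ∧ HasCompactSupport mo) ∧ (∀ z : Y × ℝ, 1 ≤ |z.2| → bp z = 0 ∧ mo z = 0) ∧
      IzAt N D k β δ c₀ bp mo

end iz

/-- **LEAF IZ** -/
def IzStmt (κ lam : Type) [Fintype κ] [Fintype lam] (k : ℕ) : Prop :=
  ∀ (Y : Mf 3) [CompactSpace Y.M] (N : ND Y.M lam) (D : YD Y.I Y.M κ lam), Iz N D k

/-! ### normal form -/

variable {Wi : Type} {X : Mf 4} {A κ lam : Type} [Fintype A] [Fintype κ] [Fintype lam]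
  [DecidableEq lam] {M : Mark X A κ} {W : World M} {L : ML M lam} {Λ : Lns W L}
  {A' h : Type} [Fintype A'] [DecidableEq A'] [Fintype h] {r n : ℕ}
  {J : Job Wi Λ A' h r n} {σ : Cel A'} {a : A'}

/-- no rows, no drift, no moving limit -/
structure Nul {U Up R : Type} [NormedAddCommGroup U] [NormedSpace ℝ U] [NormedAddCommGroup Up]
    [NormedSpace ℝ Up] [NormedAddCommGroup R] [NormedSpace ℝ R] (d : Dat J σ a U Up R) : Prop where
  bS : d.bS = 0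
  dS : d.dS = 0
  lo : d.lo = 0
  lz : d.lz = 0
  bZ : d.bZ = 0
  dZ : d.dZ = 0
  bp : d.bp = 0
  mo : d.mo = 0

/-- a tight face object at a cylindrical wall `x` which decays faster than `2 δ` -/
structure Fob (σ : Cel A') (a : A') (x : A) (q₀ : Wi →₀ ℝ) (δ : ℝ) (y : J.Obc (J.cf a)) : Prop where
  ok : J.OK
  nW : W.Nrm
  nΛ : Λ.Nrm
  mem : σ ∈ J.𝒦
  fr : σ a = none
  hd : J.hd a = some x
  pin : ¬M.pin x
  unc : J.unc (J.cf a) = univ
  sol : Sol σ q₀ y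
  tight : y.Tight
  top : ∃ z, y.x.Φ z ≠ 0
  int : ∀ a', σ a' = none → a' ≠ a → y.s a' ∈ Ioo (0 : ℝ) 1
  δ0 : 0 < δ
  δ1 : 4 * δ ≤ Cht98.dl0 ∧ ∀ x, 4 * δ < (J.xs x).N.δ
  dec : ∀ b (ha : Act J.m (J.cf a) x (some b) (J.Θ y.s)), ∃ d > 2 * δ,
    (J.K _ x _ _ ha).ELim d y.x (y.β x b) (y.ζ x b) (bif b then atBot else atTop)
  δ2 : δ ≤ 1 / 32

variable (J) in
/-- **LEAF NRM** (all types of cylindrical walls) -/
def Nrm : Prop := ∀ (σ : Cel A') (a : A') (x : A) q₀ δ (y : J.Obc (J.cf a)), Fob σ a x q₀ δ y →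
  ∀ U Up R : FD, ∃ d : Dat J σ a U.V Up.V R.V, Job.Iso d.y y ∧ Nul d ∧ d.OK q₀ δ ∧ 6 ≤ d.R0 ∧
    d.x = x ∧ (J.xs d.x).D.Eqv (y.β d.x false) (d.β 0)

end Crest.Agent.X212.Nk89
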