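import Crest.Agent.X212.Sob92.Ops
import Crest.Agent.X212.Prm93.Chg

/-! Weighted Sobolev spaces: the same frame with the measure `e^{2ψ} μ`. -/

set_option autoImplicit false
set_option linter.unusedSectionVars false
noncomputable section
open scoped Manifold ContDiff Topology InnerProductSpace NNReal
open MeasureTheory Set Function Filter Real

namespace Crest.Agent.X212.Nk89
open An Sob92

variable {E : Type} [NormedAddCommGroup E] [NormedSpace ℝ E] [FiniteDimensional ℝ E]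
  [MeasurableSpace E] [BorelSpace E]
  {HM : Type} [TopologicalSpace HM] {I : ModelWithCorners ℝ E HM} [I.Boundaryless]
  {M : Type} [TopologicalSpace M] [ChartedSpace HM M] [IsManifold I ∞ M]
  [MeasurableSpace M] [BorelSpace M] [T2Space M] {ι : Type} [Fintype ι]
  {N : Type} [NormedAddCommGroup N] [NormedSpace ℝ N]
  {V W : Type} [NormedAddCommGroup V] [InnerProductSpace ℝ V]
  [NormedAddCommGroup W] [InnerProductSpace ℝ W]

/-- the measure `e^{2ψ} μ` -/
def wm (μ : Measure M) (ψ : M → ℝ) : Measure M :=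
  μ.withDensity fun x => ENNReal.ofReal (exp (2 * ψ x))

section meas
variable {μ : Measure M} {ψ χ : M → ℝ}

theorem meas_w (hψ : Continuous ψ) : Measurable fun x => ENNReal.ofReal (exp (2 * ψ x)) :=
  (by fun_prop : Continuous fun x => exp (2 * ψ x)).measurable.ennreal_ofReal

theorem integral_wm (hψ : Continuous ψ) (f : M → N) :
    ∫ x, f x ∂wm μ ψ = ∫ x, exp (2 * ψ x) • f x ∂μ := by
  rw [wm, integral_withDensity_eq_integral_toReal_smul (meas_w hψ)
    (Eventually.of_forall fun _ => ENNReal.ofReal_lt_top)]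
  simp only [ENNReal.toReal_ofReal (exp_pos _).le]

theorem wm_wm (hψ : Continuous ψ) (hχ : Continuous χ) : wm (wm μ ψ) χ = wm μ (ψ + χ) := by
  rw [wm, wm, wm, ← withDensity_mul _ (meas_w hψ) (meas_w hχ)]
  congr 1; funext x
  rw [Pi.mul_apply, ← ENNReal.ofReal_mul (exp_pos _).le, ← exp_add, Pi.add_apply, mul_add]

theorem wm_zero : wm μ 0 = μ := by simp [wm]

theorem wm_neg (hψ : Continuous ψ) : wm (wm μ ψ) (-ψ) = μ := by
  rw [wm_wm hψ hψ.neg, add_neg_cancel, wm_zero]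

theorem wm_le {c : ℝ} (h : ∀ x, ψ x ≤ c) : wm μ ψ ≤ (exp (2 * c)).toNNReal • μ := by
  have : wm μ ψ ≤ μ.withDensity fun _ => ENNReal.ofReal (exp (2 * c)) :=
    withDensity_mono (Eventually.of_forall fun x =>
      ENNReal.ofReal_le_ofReal (exp_le_exp.2 (by linarith [h x])))
  rwa [withDensity_const] at this

theorem le_wm (h : ∀ x, 0 ≤ ψ x) : μ ≤ wm μ ψ := by
  have : (μ.withDensity fun _ => 1) ≤ wm μ ψ :=
    withDensity_mono (Eventually.of_forall fun x =>
      ENNReal.one_le_ofReal.2 (one_le_exp (by linarith [h x])))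
  simpa using this

theorem fin_wm [IsFiniteMeasureOnCompacts μ] (hψ : Continuous ψ) :
    IsFiniteMeasureOnCompacts (wm μ ψ) := ⟨fun K hK => by
  obtain ⟨c, hc⟩ := (hK.image hψ).bddAbove
  rw [wm, withDensity_apply _ hK.measurableSet]
  refine lt_of_le_of_lt (setLIntegral_mono' hK.measurableSet
    (g := fun _ => ENNReal.ofReal (exp (2 * c))) fun x hx =>
      ENNReal.ofReal_le_ofReal (exp_le_exp.2 (by linarith [hc ⟨x, hx, rfl⟩]))) ?_
  rw [setLIntegral_const]
  exact ENNReal.mul_lt_top ENNReal.ofReal_lt_top hK.measure_lt_top⟩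

theorem dens_wm (hψ : Continuous ψ) {x₀ : M} {O : Set M} {ρ : E → ℝ} (h : HasDens I μ x₀ O ρ)
    (hρ : ContinuousOn ρ (extChartAt I x₀ '' O)) (h0 : ∀ y ∈ extChartAt I x₀ '' O, 0 ≤ ρ y) :
    HasDens I (wm μ ψ) x₀ O fun y => ρ y * exp (2 * ψ ((extChartAt I x₀).symm y)) := by
  refine ⟨h.1, h.2.1, h.2.2.1, ?_⟩
  have hO := h.1.measurableSet
  have hT : MeasurableSet (extChartAt I x₀ '' O) := by
    simpa using Prm93.meas_img (I := I) h.1 h.2.2.1 MeasurableSet.univ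
  have hs : ContinuousOn (extChartAt I x₀).symm (extChartAt I x₀ '' O) :=
    (continuousOn_extChartAt_symm x₀).mono (by
      rintro _ ⟨x, hx, rfl⟩; exact (extChartAt I x₀).map_source (h.2.2.1 hx))
  have hg : ContinuousOn (fun y => exp (2 * ψ ((extChartAt I x₀).symm y))) (extChartAt I x₀ '' O) :=
    ((hψ.comp_continuousOn hs).const_smul (2 : ℝ)).rexp
  have ha := Met55.dens_aem h
  have hg' := (hg.aemeasurable (μ := leb E) hT).ennreal_ofReal
  have hρ' := (hρ.aemeasurable (μ := leb E) hT).ennreal_ofReal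
  have e1 : (wm μ ψ).restrict O = (μ.restrict O).withDensity
      fun x => ENNReal.ofReal (exp (2 * ψ x)) := restrict_withDensity hO _
  refine Measure.ext_of_lintegral _ fun f hf => ?_
  have hac : ((leb E).restrict (extChartAt I x₀ '' O)).withDensity (fun y => ENNReal.ofReal (ρ y)) ≪
      (leb E).restrict (extChartAt I x₀ '' O) := withDensity_absolutelyContinuous _ _
  rw [e1, lintegral_map' hf.aemeasurable (ha.mono_ac (withDensity_absolutelyContinuous _ _)),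
    lintegral_withDensity_eq_lintegral_mul₀ (g := fun x => f (extChartAt I x₀ x))
      (meas_w hψ).aemeasurable (hf.comp_aemeasurable ha)]
  have e2 : ∫⁻ x, ((fun x => ENNReal.ofReal (exp (2 * ψ x))) * fun x => f (extChartAt I x₀ x)) x
      ∂μ.restrict O = ∫⁻ y, ENNReal.ofReal (exp (2 * ψ ((extChartAt I x₀).symm y))) * f y
        ∂(μ.restrict O).map (extChartAt I x₀) := by
    rw [lintegral_map' (by rw [h.2.2.2]; exact (hg'.mul hf.aemeasurable).mono_ac hac) ha]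
    refine setLIntegral_congr_fun hO fun x hx => ?_
    simp only [Pi.mul_apply, (extChartAt I x₀).left_inv (h.2.2.1 hx)]
  rw [e2, h.2.2.2, lintegral_withDensity_eq_lintegral_mul₀ (g := fun y =>
      ENNReal.ofReal (exp (2 * ψ ((extChartAt I x₀).symm y))) * f y) hρ' (hg'.mul hf.aemeasurable),
    lintegral_withDensity_eq_lintegral_mul₀ (f := fun y => ENNReal.ofReal
      ((fun y => ρ y * exp (2 * ψ ((extChartAt I x₀).symm y))) y))
      ((hρ.mul hg).aemeasurable hT).ennreal_ofReal hf.aemeasurable]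
  refine setLIntegral_congr_fun hT fun y hy => ?_
  simp only [Pi.mul_apply, ENNReal.ofReal_mul (h0 y hy), mul_assoc]

end meas

theorem sm_exp {ψ : M → ℝ} (hψ : Sm I ψ) : Sm I fun x => exp (ψ x) :=
  contDiff_exp.contMDiff.comp hψ

theorem D_exp (F : Pre I M ι) {ψ : M → ℝ} (hψ : Sm I ψ) (a : ι) (x : M) :
    F.D a (fun x => exp (ψ x)) x = exp (ψ x) * F.D a ψ x := by
  have := dv_comp (e := F.e a) (hψ.mdifferentiableAt (x := x) (by simp))
    (Real.hasDerivAt_exp (ψ x)).hasFDerivAt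
  simpa [mul_comm, Pre.D_def] using this

theorem D_exp_smul (F : Pre I M ι) {ψ : M → ℝ} (hψ : Sm I ψ) {u : M → N} (hu : Sm I u) (a : ι) :
    F.D a (fun x => exp (ψ x) • u x) = fun x => exp (ψ x) • (F.D a u x + F.D a ψ x • u x) := by
  funext x
  have := dv_smul (e := F.e a) ((sm_exp hψ).mdifferentiableAt (x := x) (by simp))
    (hu.mdifferentiableAt (by simp))
  rw [Pre.D_def, this, ← Pre.D_def, ← Pre.D_def, D_exp F hψ, smul_add, mul_smul, add_comm]

/-- the weighted frame -/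
def wtP (F : Pre I M ι) (ψ : M → ℝ) (hψ : Sm I ψ) : Pre I M ι where
  e := F.e
  μ := wm F.μ ψ
  sm := F.sm
  span := F.span
  fin := fin_wm hψ.continuous
  dens x₀ := by
    obtain ⟨O, ρ, h1, h2, h3⟩ := F.dens x₀
    have hs : ContDiffOn ℝ ∞ (fun y => ψ ((extChartAt I x₀).symm y)) (extChartAt I x₀ '' O) :=
      (hψ.comp_contMDiffOn ((contMDiffOn_extChartAt_symm x₀).mono (by
        rintro _ ⟨x, hx, rfl⟩; exact (extChartAt I x₀).map_source (h1.2.2.1 hx)))).contDiffOn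
    exact ⟨O, _, dens_wm hψ.continuous h1 h2.continuousOn fun y hy => (h3 y hy).le,
      h2.mul (contDiffOn_const.mul hs).exp, fun y hy => mul_pos (h3 y hy) (exp_pos _)⟩

/-- the weighted frame -/
def wt (F : Fr I M ι) (ψ : M → ℝ) (hψ : Sm I ψ) : Fr I M ι where
  toPre := wtP F.toPre ψ hψ
  P := F.P
  c := F.c
  dv a x := F.dv a x + 2 * F.D a ψ x
  P_sm := F.P_sm
  c_sm := F.c_sm
  dv_sm a := (F.dv_sm a).add (contMDiff_const.mul (F.sm_D hψ a))
  P_symm := F.P_symm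
  P_e := F.P_e
  P_ker := F.P_ker
  c_P := F.c_P
  br := F.br
  ibp a f hf hc := by
    have h2 : Sm I fun x => 2 * ψ x := contMDiff_const.mul hψ
    have hc' : HasCompactSupport fun x => exp (2 * ψ x) • f x :=
      hcs_bil_right (ContinuousLinearMap.lsmul ℝ ℝ) _ hc
    have := F.ibp a (fun x => exp (2 * ψ x) • f x) ((sm_exp h2).smul hf) hc'
    have e2 : ∀ x, F.D a (fun x => 2 * ψ x) x = 2 * F.D a ψ x := fun x =>
      congrFun (F.D_smul hψ 2 a) x
    rw [D_exp_smul F.toPre h2 hf] at this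
    have i1 : Integrable (fun x => exp (2 * ψ x) • F.D a f x) F.μ :=
      ((sm_exp h2).smul (F.sm_D hf a)).continuous.integrable_of_hasCompactSupport
        (hcs_bil_right (ContinuousLinearMap.lsmul ℝ ℝ) _ (F.hcs_D hc a))
    have i2 : ∀ g : M → ℝ, Sm I g → Integrable (fun x => g x * (exp (2 * ψ x) • f x)) F.μ :=
      fun g hg => (hg.mul ((sm_exp h2).smul hf)).continuous.integrable_of_hasCompactSupport
        (hcs_bil_right (ContinuousLinearMap.mul ℝ ℝ) _ hc')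
    show ∫ x, F.D a f x ∂wm F.μ ψ = -∫ x, (F.dv a x + 2 * F.D a ψ x) * f x ∂wm F.μ ψ
    rw [integral_wm hψ.continuous, integral_wm hψ.continuous]
    have e3 : ∀ x, exp (2 * ψ x) • (F.D a f x + F.D a (fun x => 2 * ψ x) x • f x) =
        exp (2 * ψ x) • F.D a f x + 2 * F.D a ψ x * (exp (2 * ψ x) • f x) := fun x => by
      rw [e2]; simp only [smul_eq_mul]; ring
    have e4 : ∀ x, exp (2 * ψ x) • ((F.dv a x + 2 * F.D a ψ x) * f x) =
        F.dv a x * (exp (2 * ψ x) • f x) + 2 * F.D a ψ x * (exp (2 * ψ x) • f x) := fun x => by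
      simp only [smul_eq_mul]; ring
    have s2 : Sm I fun x => 2 * F.D a ψ x := contMDiff_const.mul (F.sm_D hψ a)
    simp only [e3, integral_add i1 (i2 _ s2)] at this
    simp only [e4, integral_add (i2 _ (F.dv_sm a)) (i2 _ s2)]
    linarith

/-- `F'` is the frame `F` with the weight `e^ψ` -/
structure WtP (F F' : Pre I M ι) (ψ : M → ℝ) : Prop where
  sm : Sm I ψ
  e : F'.e = F.e
  μ : F'.μ = wm F.μ ψ

/-- the same with the structure functions -/
structure Wt (F F' : Fr I M ι) (ψ : M → ℝ) : Prop extends WtP F.toPre F'.toPre ψ where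
  P : F'.P = F.P
  c : F'.c = F.c
  dv : ∀ a x, F'.dv a x = F.dv a x + 2 * F.D a ψ x

theorem wtP_wtP (F : Pre I M ι) {ψ : M → ℝ} (hψ : Sm I ψ) : WtP F (wtP F ψ hψ) ψ := ⟨hψ, rfl, rfl⟩

theorem wt_wt (F : Fr I M ι) {ψ : M → ℝ} (hψ : Sm I ψ) : Wt F (wt F ψ hψ) ψ :=
  ⟨⟨hψ, rfl, rfl⟩, rfl, rfl, fun _ _ => rfl⟩

theorem WtP.refl (F : Pre I M ι) : WtP F F 0 := ⟨contMDiff_const, rfl, wm_zero.symm⟩

theorem Wt.refl (F : Fr I M ι) : Wt F F 0 :=
  ⟨WtP.refl _, rfl, rfl, fun a x => by rw [Pre.D_def, dv_zero]; simp⟩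

namespace WtP
variable {F F' F'' : Pre I M ι} {ψ χ : M → ℝ} (h : WtP F F' ψ)
include h

theorem D (a : ι) (u : M → N) : F'.D a u = F.D a u := by rw [Pre.D_def, Pre.D_def, h.e]

theorem Dw (w : List ι) : ∀ u : M → N, F'.Dw w u = F.Dw w u := by
  induction w with
  | nil => exact fun _ => rfl
  | cons a w ih => exact fun u => by rw [Pre.Dw, Pre.Dw, h.D, ih]

theorem CB {k : ℕ} {f : M → N} {C : ℝ} : F'.CB k f C ↔ F.CB k f C := by
  simp only [Pre.CB, h.Dw]

theorem CBs {f : M → N} {C : ℕ → ℝ} : F'.CBs f C ↔ F.CBs f C := by simp only [Pre.CBs, h.CB]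

theorem Cb {f : M → N} : F'.Cb f ↔ F.Cb f := by simp only [Pre.Cb, h.CBs]

theorem op (σ : ι → M → V →L[ℝ] W) (B : M → V →L[ℝ] W) : F'.op σ B = F.op σ B := by
  funext u x; simp only [Pre.op, h.D]

theorem symm : WtP F' F (-ψ) :=
  ⟨h.sm.neg, h.e.symm, by rw [h.μ, wm_neg h.sm.continuous]⟩

theorem trans (h' : WtP F' F'' χ) : WtP F F'' (ψ + χ) :=
  ⟨h.sm.add h'.sm, h'.e.trans h.e, by rw [h'.μ, h.μ, wm_wm h.sm.continuous h'.sm.continuous]⟩

theorem integral (f : M → N) : ∫ x, f x ∂F'.μ = ∫ x, exp (2 * ψ x) • f x ∂F.μ := by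
  rw [h.μ, integral_wm h.sm.continuous]

theorem ip_zero (u v : M → V) :
    F'.ip 0 u v = F.ip 0 (fun x => exp (ψ x) • u x) fun x => exp (ψ x) • v x := by
  simp only [Pre.ip, h.integral, real_inner_smul_left, real_inner_smul_right, smul_eq_mul]
  congr 1; funext x; rw [← mul_assoc, ← exp_add, two_mul]

theorem nrm_zero (u : M → V) : F'.nrm 0 u = F.nrm 0 fun x => exp (ψ x) • u x := by
  rw [Pre.nrm, Pre.nrm, h.ip_zero]

open Classical in
theorem mix : Prm93.Mix F F' fun a b _ => if a = b then 1 else 0 := fun a x => by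
  simp [h.e]

theorem N2_le (h0 : ∀ x, 0 ≤ ψ x) (k : ℕ) : ∀ {u : M → N}, Sm I u → HasCompactSupport u →
    N2 F k u ≤ N2 F' k u := by
  have key : ∀ {u : M → N}, Sm I u → HasCompactSupport u →
      ∫ x, ‖u x‖ ^ 2 ∂F.μ ≤ ∫ x, ‖u x‖ ^ 2 ∂F'.μ := fun hu hc =>
    integral_mono_measure (by rw [h.μ]; exact le_wm h0)
      (Eventually.of_forall fun _ => by positivity) (int_sq (FL_of_hcs (F := F') 0 hu hc))
  induction k with
  | zero => exact key
  | succ k ih =>
    intro u hu hc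
    refine add_le_add (key hu hc) (Finset.sum_le_sum fun a _ => ?_)
    have := ih (F.sm_D hu a) (F.hcs_D hc a)
    show N2 F k (F.D a u) ≤ N2 F' k (F'.D a u)
    rwa [h.D]

theorem nrm_le (h0 : ∀ x, 0 ≤ ψ x) (k : ℕ) {u : M → V} (hu : Sm I u) (hc : HasCompactSupport u) :
    F.nrm k u ≤ F'.nrm k u := by
  simp only [nrm_eq]; exact Real.sqrt_le_sqrt (h.N2_le h0 k hu hc)

theorem sup {S : ℝ} (h0 : ∀ x, 0 ≤ ψ x) (hS : Sup F S) : Sup F' |S| := fun f hf hc x =>
  (hS f hf hc x).trans ((mul_le_mul_of_nonneg_right (le_abs_self S) (F.ip_nonneg 4 f)).trans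
    (mul_le_mul_of_nonneg_left (by rw [ip_eq, ip_eq]; exact h.N2_le h0 4 hf hc) (abs_nonneg S)))

end WtP

/-- the constant of the conjugation by the weight -/
def cW (ι : Type) [Fintype ι] (D : ℕ → ℝ) : ℕ → ℝ
  | 0 => 1
  | k + 1 => 1 + Fintype.card ι * (cW ι D k * (1 + cK ι k * |D k|))

theorem cW_one_le (D : ℕ → ℝ) : ∀ k, 1 ≤ cW ι D k
  | 0 => le_rfl
  | k + 1 => by
    have := cW_one_le D k
    have := cK_nonneg (ι := ι) k
    exact le_add_of_nonneg_right (by positivity)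

theorem cW_nonneg (D : ℕ → ℝ) (k : ℕ) : 0 ≤ cW ι D k := zero_le_one.trans (cW_one_le D k)

namespace WtP
variable [SecondCountableTopology M] {F F' : Pre I M ι} {ψ : M → ℝ} {D : ℕ → ℝ}

theorem nrm_exp_le (h : WtP F F' ψ) (hD : ∀ a, F.CBs (F.D a ψ) D) (k : ℕ) :
    ∀ {u : M → V}, Sm I u → HasCompactSupport u →
      F.nrm k (fun x => exp (ψ x) • u x) ≤ cW ι D k * F'.nrm k u := by
  induction k with
  | zero => intro u _ _; rw [h.nrm_zero, cW, one_mul]
  | succ k ih =>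
    intro u hu hc
    refine (Prm93.nrm_succ_le k _).trans ?_
    rw [← h.nrm_zero, cW, add_mul, one_mul]
    refine add_le_add (nrm_mono (Nat.zero_le _) u) ?_
    have hs : ∀ a, Sm I fun x => F.D a ψ x • u x := fun a => (hD a).1.smul hu
    have hc' : ∀ a, HasCompactSupport fun x => F.D a ψ x • u x := fun a =>
      hcs_bil_right (ContinuousLinearMap.lsmul ℝ ℝ) _ hc
    refine (Finset.sum_le_card_nsmul _ _ (cW ι D k * (1 + cK ι k * |D k|) * F'.nrm (k + 1) u)
      fun a _ => ?_).trans (by simp [mul_assoc])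
    rw [D_exp_smul F h.sm hu]
    refine (ih (u := F.D a u + fun x => F.D a ψ x • u x) ((F.sm_D hu a).add (hs a))
      ((F.hcs_D hc a).add (hc' a))).trans ?_
    rw [mul_assoc]
    refine mul_le_mul_of_nonneg_left ((nrm_add_le k (F.sm_D hu a) (F.hcs_D hc a) (hs a)
      (hc' a)).trans ?_) (cW_nonneg D k)
    rw [add_mul, one_mul]
    refine add_le_add (h.D a u ▸ nrm_D_le k u a) ((nrm_smul (hD a).1 hu (h.CB.2 ((hD a).2 k))
      (FL_of_hcs k hu hc)).trans ?_)
    have := cK_nonneg (ι := ι) k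
    exact mul_le_mul_of_nonneg_left (nrm_mono (Nat.le_succ k) u) (by positivity)

theorem CBs_neg (h : WtP F F' ψ) (hD : ∀ a, F.CBs (F.D a ψ) D) (a : ι) :
    F'.CBs (F'.D a (-ψ)) fun k => |D k| := by
  have : F'.D a (-ψ) = -F.D a ψ := by rw [h.D]; funext x; exact dv_neg _ _
  rw [this, h.CBs]
  exact ⟨(hD a).1.neg, fun k => CB_neg (hD a).1 ((hD a).2 k)⟩

theorem cW_abs (k : ℕ) : cW ι (fun k => |D k|) k = cW ι D k := by
  induction k with
  | zero => rfl
  | succ k ih => rw [cW, cW, ih, abs_abs]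

theorem nrm_le_exp (h : WtP F F' ψ) (hD : ∀ a, F.CBs (F.D a ψ) D) (k : ℕ) {u : M → V}
    (hu : Sm I u) (hc : HasCompactSupport u) :
    F'.nrm k u ≤ cW ι D k * F.nrm k fun x => exp (ψ x) • u x := by
  have := h.symm.nrm_exp_le (h.CBs_neg hD) k ((sm_exp h.sm).smul hu)
    (hcs_bil_right (ContinuousLinearMap.lsmul ℝ ℝ) _ hc)
  rw [cW_abs] at this
  refine le_trans (le_of_eq ?_) this
  congr 1; funext x
  simp [smul_smul, ← exp_add]

variable (k : ℕ) (p : M → V →L[ℝ] V)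

theorem rep_exp (h : WtP F F' ψ) (hD : ∀ a, F.CBs (F.D a ψ) D) :
    F'.RepT F (F'.liftT k k p F p fun u x => exp (ψ x) • u x) (fun u x => exp (ψ x) • u x) ∧
      ‖F'.liftT k k p F p fun u x => exp (ψ x) • u x‖ ≤ cW ι D k :=
  rep_liftT (fun u hu => ⟨(sm_exp h.sm).smul hu.1,
      hcs_bil_right (ContinuousLinearMap.lsmul ℝ ℝ) _ hu.2.1, fun x => by
        show p x (exp (ψ x) • u x) = exp (ψ x) • u x
        rw [map_smul, hu.2.2]⟩)
    (fun u _ v _ => funext fun x => by simp) (fun c u _ => funext fun x => by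
      simp [smul_comm c]) (cW_nonneg D k) fun u hu => h.nrm_exp_le hD k hu.1 hu.2.1

/-- multiplication by the weight -/
def cj (h : WtP F F' ψ) (hD : ∀ a, F.CBs (F.D a ψ) D) : F'.H k p ≃L[ℝ] F.H k p :=
  ContinuousLinearEquiv.equivOfInverse (F'.liftT k k p F p fun u x => exp (ψ x) • u x)
    (F.liftT k k p F' p fun u x => exp ((-ψ) x) • u x)
    (fun x => DFunLike.congr_fun (RepT_eq (RepT_comp (h.symm.rep_exp k p (h.CBs_neg hD)).1
      (h.rep_exp k p hD).1) Rep_id fun u => funext fun y => by simp [smul_smul, ← exp_add]) x)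
    (fun x => DFunLike.congr_fun (RepT_eq (RepT_comp (h.rep_exp k p hD).1
      (h.symm.rep_exp k p (h.CBs_neg hD)).1) Rep_id fun u => funext fun y => by
        simp [smul_smul, ← exp_add]) x)

theorem rep_cj (h : WtP F F' ψ) (hD : ∀ a, F.CBs (F.D a ψ) D) :
    F'.RepT F (h.cj k p hD : F'.H k p →L[ℝ] F.H k p) fun u x => exp (ψ x) • u x :=
  (h.rep_exp k p hD).1

theorem rep_cj_symm (h : WtP F F' ψ) (hD : ∀ a, F.CBs (F.D a ψ) D) :
    F.RepT F' ((h.cj k p hD).symm : F.H k p →L[ℝ] F'.H k p) fun u x => exp (-ψ x) • u x :=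
  (h.symm.rep_exp k p (h.CBs_neg hD)).1

theorem norm_cj_le (h : WtP F F' ψ) (hD : ∀ a, F.CBs (F.D a ψ) D) :
    ‖(h.cj k p hD : F'.H k p →L[ℝ] F.H k p)‖ ≤ cW ι D k := (h.rep_exp k p hD).2

theorem norm_cj_symm_le (h : WtP F F' ψ) (hD : ∀ a, F.CBs (F.D a ψ) D) :
    ‖((h.cj k p hD).symm : F.H k p →L[ℝ] F'.H k p)‖ ≤ cW ι D k :=
  cW_abs (ι := ι) (D := D) k ▸ (h.symm.rep_exp k p (h.CBs_neg hD)).2

theorem l4 (h : WtP F F' ψ) (h0 : ∀ x, 0 ≤ ψ x) (hD : ∀ a, F.CBs (F.D a ψ) D) {C : ℝ}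
    (hl : ∀ f : M → ℝ, Sm I f → HasCompactSupport f → √(∫ x, f x ^ 4 ∂F.μ) ≤ C * F.ip 1 f f)
    {f : M → ℝ} (hf : Sm I f) (hc : HasCompactSupport f) :
    √(∫ x, f x ^ 4 ∂F'.μ) ≤ |C| * cW ι D 1 ^ 2 * F'.ip 1 f f := by
  have hs : Sm I fun x => exp (ψ x) • f x := (sm_exp h.sm).smul hf
  have hc' : HasCompactSupport fun x => exp (ψ x) • f x :=
    hcs_bil_right (ContinuousLinearMap.lsmul ℝ ℝ) _ hc
  have h1 : ∫ x, f x ^ 4 ∂F'.μ ≤ ∫ x, (exp (ψ x) • f x) ^ 4 ∂F.μ := by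
    rw [h.integral]
    refine integral_mono_of_nonneg (Eventually.of_forall fun x => by positivity)
      ((hs.continuous.pow 4).integrable_of_hasCompactSupport
        (hc'.mono fun x hx h' => hx (by
          show (exp (ψ x) • f x) ^ 4 = 0
          rw [show exp (ψ x) • f x = 0 from h']; simp))) (Eventually.of_forall fun x => ?_)
    simp only [smul_eq_mul, mul_pow, ← exp_nat_mul]
    exact mul_le_mul_of_nonneg_right (exp_le_exp.2 (by push_cast; linarith [h0 x])) (by positivity)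
  refine (Real.sqrt_le_sqrt h1).trans ((hl _ hs hc').trans ?_)
  have h2 := pow_le_pow_left₀ (nrm_nonneg _ _) (h.nrm_exp_le hD 1 hf hc) 2
  rw [mul_pow, nrm_sq, nrm_sq, ← ip_eq, ← ip_eq] at h2
  rw [mul_assoc]
  exact mul_le_mul (le_abs_self C) h2 (F.ip_nonneg 1 _) (abs_nonneg C)

end WtP

/-- the constants of the weighted frame -/
def cT (ι : Type) [Fintype ι] (C D : ℕ → ℝ) (k : ℕ) : ℝ :=
  |C k| + 2 * |D k| + |C 0| * cW ι D 1 ^ 2

/-- a weight `≥ 1` with bounded logarithmic derivatives keeps the geometry bounded -/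
theorem Wt.tame [SecondCountableTopology M] {F F' : Fr I M ι} {ψ : M → ℝ} (h : Wt F F' ψ)
    {C D : ℕ → ℝ} (hF : F.Tame C) (h0 : ∀ x, 0 ≤ ψ x) (hD : ∀ a, F.CBs (F.D a ψ) D) :
    F'.Tame (cT ι C D) := by
  have hle : ∀ k, C k ≤ cT ι C D k := fun k => by
    have := le_abs_self (C k)
    have : 0 ≤ 2 * |D k| + |C 0| * cW ι D 1 ^ 2 := by positivity
    unfold cT; linarith
  have hm : ∀ {f : M → ℝ}, F.CBs f C → F'.CBs f (cT ι C D) := fun hf =>
    h.toWtP.CBs.2 ⟨hf.1, fun k => CB_mono (hf.2 k) (hle k)⟩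
  have h1 := one_le_pow₀ (n := 2) (cW_one_le (ι := ι) D 1)
  have h2 := abs_nonneg (C 0)
  have h3 := abs_nonneg (D 0)
  refine ⟨fun a b => h.P ▸ hm (hF.P a b), fun a b l => h.c ▸ hm (hF.c a b l), fun a => ?_,
    fun f hf hc => ?_, fun f hf hc x => ?_, fun K hK => ?_⟩
  · have : F'.dv a = F.dv a + fun x => (2 : ℝ) • F.D a ψ x := funext (h.dv a)
    rw [this]
    have s2 : Sm I fun x => (2 : ℝ) • F.D a ψ x := contMDiff_const.mul (hD a).1
    refine h.toWtP.CBs.2 ⟨(hF.dv a).1.add s2, fun k => CB_mono (CB_add (hF.dv a).1 s2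
      ((hF.dv a).2 k) (CB_clm ((2 : ℝ) • ContinuousLinearMap.id ℝ ℝ) (hD a).1
        (CB_abs ((hD a).2 k)))) ?_⟩
    have := le_abs_self (C k)
    have : 0 ≤ |C 0| * cW ι D 1 ^ 2 := by positivity
    simp only [norm_smul, ContinuousLinearMap.norm_id, Real.norm_ofNat, mul_one, cT]
    linarith
  · refine (h.toWtP.l4 h0 hD hF.l4 hf hc).trans
      (mul_le_mul_of_nonneg_right ?_ (F'.ip_nonneg 1 f))
    unfold cT; linarith
  · refine (h.toWtP.sup h0 (Sup.of_tame hF) f hf hc x).trans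
      (mul_le_mul_of_nonneg_right ?_ (F'.ip_nonneg 4 f))
    have : 0 ≤ |C 0| * cW ι D 1 ^ 2 := by positivity
    unfold cT; linarith
  · obtain ⟨χ, h1, h2⟩ := hF.exh K hK
    exact ⟨χ, hm h1, h2⟩

end Crest.Agent.X212.Nk89
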