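import Crest.Agent.X212.An.Asm

/-! Ideal strata whose objects are *represented* (a relation) by points of the Banach models. -/

set_option autoImplicit false
set_option linter.unusedSectionVars false
noncomputable section
open Set Filter Topology Function

namespace Crest.Agent.X212.Nk89
open Mod61 An

/-- the objects `u n` have representatives near `x₀` -/
def RNear {W : Type} {Q : Prob W} {X ι : Type} (rep : X → Q.X → Prop) (l : Filter ι) (u : ι → X)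
    (x₀ : Q.X) : Prop := ∀ A ∈ Q.Near x₀, ∀ᶠ n in l, ∃ x ∈ A, rep (u n) x

/-- the form in which it is proved: representatives in the chart of `x₀` converge -/
theorem rNear_of {W : Type} {Q : Prob W} {X ι : Type} {rep : X → Q.X → Prop} {l : Filter ι}
    {u : ι → X} {x₀ : Q.X} (y : ι → Q.S x₀.1) (h1 : Tendsto (fun n => Q.pt (y n)) l (𝓝 (Q.pt x₀.2)))
    (h2 : ∀ᶠ n in l, rep (u n) ⟨x₀.1, y n⟩) : RNear rep l u x₀ := fun _ hA =>
  (((Q.tendsto_near_of (u := fun n => ⟨x₀.1, y n⟩) y h1 (.of_forall fun _ => Q.eqv.refl _)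
    ).eventually hA).and h2).mono fun _ h => ⟨_, h.1, h.2⟩

/-- ideal strata `S`, objects `X`, parts `J`, charts `I`, and the relation `rep` -/
structure Idr (W : Type) : Type 1 where
  S : Type
  X : S → Type
  Sol : ∀ s, (W →₀ ℝ) → X s → Prop
  J : S → Type
  I : ∀ s, J s → Type
  P : ∀ s j, I s j → Prob W
  rep : ∀ {s j} (i : I s j), X s → (P s j i).X → Prop
  rank : S → ℕ
  Adm : (W →₀ ℝ) → Prop
  face : S → Prop

namespace Idr
open Fin93 St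
variable {W : Type} (D : Idr W)

/-- the part `j` is regular -/
def RegJ {s : D.S} (j : D.J s) (q : W →₀ ℝ) (x : D.X s) : Prop :=
  ∃ (i : D.I s j) (y : (D.P s j i).X), D.rep i x y ∧ (D.P s j i).Reg q y

/-- all parts are regular -/
def Reg {s : D.S} (q : W →₀ ℝ) (x : D.X s) : Prop := ∀ j, D.RegJ j q x

/-- good perturbations -/
def G (q : W →₀ ℝ) : Prop := D.Adm q ∧ ∀ s x, D.Sol s q x → D.Reg q x

structure Ax : Prop where
  fin : Finite D.S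
  finJ : ∀ s, Finite (D.J s)
  ax : ∀ s j i, (D.P s j i).Ax D.Adm
  adm : St.IsOp D.Adm
  sol : ∀ s j i q x y, D.Adm q → D.Sol s q x → D.rep i x y → (D.P s j i).Sol q y
  dens : ∀ s j q x, D.Adm q → D.Sol s q x → ∃ (i : D.I s j) (y : (D.P s j i).X), D.rep i x y ∧
    ((D.P s j i).Reg q y ∨ ∃ J, (D.P s j i).Onto q y J)
  kill : ∀ s q x, ¬D.face s → D.Adm q → D.Sol s q x → ¬D.Reg q x
  comp : ∀ s q₀, D.Adm q₀ → ∀ (ι : Type) (𝒰 : Ultrafilter ι) (q : ι → W →₀ ℝ) (u : ι → D.X s),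
    St.Cv (𝒰 : Filter ι) q q₀ → (∀ᶠ n in (𝒰 : Filter ι), D.Adm (q n) ∧ D.Sol s (q n) (u n)) →
    (∃ x₀, D.Sol s q₀ x₀ ∧ ∀ j (i : D.I s j) y₀, D.rep i x₀ y₀ → RNear (D.rep i) 𝒰 u y₀) ∨
    ∃ s' x₀, D.rank s' < D.rank s ∧ D.Sol s' q₀ x₀ ∧
      (D.face s' → D.Reg q₀ x₀ → ∀ᶠ n in (𝒰 : Filter ι), D.Reg (q n) (u n))

/-- objects with a representative near every representative of `x₀` -/
def near {s : D.S} (j : D.J s) (x₀ : D.X s) : Filter (D.X s) :=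
  ⨅ (i : D.I s j) (y₀ : (D.P s j i).X) (_ : D.rep i x₀ y₀),
    ((D.P s j i).Near y₀).lift' fun A => {x | ∃ y ∈ A, D.rep i x y}

/-- the data for `Fin93` -/
def dat (O : (W →₀ ℝ) → Prop) (q₀ : W →₀ ℝ) :
    Fin93.Dat (W →₀ ℝ) (Finset W) (Σ s, D.J s) (fun J => J → ℝ) fun s => D.X s.1 where
  ι J p := q₀ + ext0 J p
  rank s := D.rank s.1
  Adm q := D.Adm q ∧ O q
  Sol s := D.Sol s.1
  Reg s := D.RegJ s.2
  Onto s q x J := ∃ (i : D.I s.1 s.2) (y : (D.P s.1 s.2 i).X), D.rep i x y ∧ (D.P s.1 s.2 i).Onto q y J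
  Near s x₀ := D.near s.2 x₀

variable {D}

theorem mem_near {s : D.S} {j : D.J s} {i : D.I s j} {x₀ : D.X s} {y₀ : (D.P s j i).X}
    (h : D.rep i x₀ y₀) {A : Set (D.P s j i).X} (hA : A ∈ (D.P s j i).Near y₀) :
    {x | ∃ y ∈ A, D.rep i x y} ∈ D.near j x₀ :=
  mem_iInf_of_mem i (mem_iInf_of_mem y₀ (mem_iInf_of_mem h (mem_lift' hA)))

/-- product sets -/
theorem mem_prod {α : Type} {l : Filter α} {s : D.S} {j : D.J s} {i : D.I s j} {x₀ : D.X s}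
    {y₀ : (D.P s j i).X} (h : D.rep i x₀ y₀) {A : Set (α × (D.P s j i).X)}
    (hA : A ∈ l ×ˢ (D.P s j i).Near y₀) :
    {z : α × D.X s | ∃ y, (z.1, y) ∈ A ∧ D.rep i z.2 y} ∈ l ×ˢ D.near j x₀ := by
  obtain ⟨B, hB, C, hC, e⟩ := mem_prod_iff.1 hA
  exact mem_of_superset (prod_mem_prod hB (mem_near h hC))
    fun z ⟨h1, y, h2, h3⟩ => ⟨y, e ⟨h1, h2⟩, h3⟩

namespace Ax
variable (h : D.Ax)
include h

theorem hyp {O : (W →₀ ℝ) → Prop} (hO : IsOp O) (q₀ : W →₀ ℝ) : (D.dat O q₀).Hyp where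
  stage J J' hJ p := by
    obtain ⟨p', hp'⟩ := Fin93.ext0_stage J J' hJ p
    exact ⟨p', congrArg (q₀ + ·) hp'⟩
  adm J p₀ ha := (IsOp.and h.adm hO) _ ha _ _ _ (cv_ext0 q₀ tendsto_id)
  mono _ _ _ _ _ hJ := fun ⟨i, y, r, ho⟩ => ⟨i, y, r, Prob.Ax.onto_mono hJ ho⟩
  dens s J p x ha hx := by
    obtain ⟨i, y, r, h1 | ⟨J', h1⟩⟩ := h.dens s.1 s.2 _ x ha.1 hx
    exacts [.inl ⟨i, y, r, h1⟩, .inr ⟨J', i, y, r, h1⟩]
  onto s J p x₀ J' ha hx := fun ⟨i, y₀, r, ho⟩ =>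
    mem_of_superset (mem_near r ((h.ax _ _ i).onto_open (h.sol _ _ i _ x₀ y₀ ha.1 hx r).1 ho))
      fun x ⟨y, h1, r'⟩ h2 => ⟨i, y, r', h1 (h.sol _ _ i _ x y ha.1 h2 r').1⟩
  reg s J p₀ x₀ ha hx := fun ⟨i, y₀, r, hr⟩ => by
    have h1 := (h.ax _ _ i).reg_open (h.sol _ _ i _ x₀ y₀ ha.1 hx r).1 hr
    have h3 := tendsto_fst (g := (D.dat O q₀).Near s x₀) |>.eventually
      (h.adm _ ha.1 _ _ _ (cv_ext0 q₀ (tendsto_id (x := 𝓝 p₀))))
    filter_upwards [mem_prod r h1, h3] with z ⟨y, h4, r'⟩ h5 h6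
    exact ⟨i, y, r', h4 (h.sol _ _ i _ _ y h5 h6 r').1⟩
  loc s J p₀ x₀ ha hx := fun ⟨i, y₀, r, ho⟩ => by
    obtain ⟨A, hA, hres⟩ := (h.ax _ _ i).loc ha.1 (h.sol _ _ i _ x₀ y₀ ha.1 hx r) ho
    have h3 := tendsto_fst (g := (D.dat O q₀).Near s x₀) |>.eventually
      (h.adm _ ha.1 _ _ _ (cv_ext0 q₀ (tendsto_id (x := 𝓝 p₀))))
    refine ⟨_, inter_mem (mem_prod r hA) h3, hres.mono fun p hp x ⟨⟨y, h4, r'⟩, h6⟩ h5 => ?_⟩
    exact ⟨i, y, r', hp y h4 (h.sol _ _ i _ x y h6 h5 r')⟩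
  comp s J p₀ ha hg 𝒰 h1 h2 := by
    have hc := cv_ext0 q₀ h1
    rcases h.comp s.1 _ ha.1 _ 𝒰 _ Prod.snd hc ((h.adm _ ha.1 _ _ _ hc).and h2)
      with ⟨x₀, h3, h4⟩ | ⟨s', x₀, h3, h4, h5⟩
    · exact .inr ⟨x₀, h3, tendsto_iInf.2 fun i => tendsto_iInf.2 fun y₀ => tendsto_iInf.2 fun r =>
        tendsto_lift'.2 (h4 s.2 i y₀ r)⟩
    · have hr : D.Reg _ x₀ := fun j => hg ⟨s', j⟩ h3 x₀ h4
      by_cases hf : D.face s'
      · exact .inl ((h5 hf hr).mono fun i hi => hi s.2)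
      · exact (h.kill s' _ x₀ hf ha.1 h4 hr).elim

/-- **the good perturbations are open and dense** -/
theorem low : Low.Ax ⟨D.Adm, D.G⟩ where
  le _ hq := hq.1
  ex O hO q₀ h0 h1 := by
    classical
    have := h.fin
    have := h.finJ
    obtain ⟨J, -, p, h2, h3⟩ := (h.hyp hO q₀).exists_good (J₀ := ∅) (p₀ := 0) (by
      show D.Adm (q₀ + ext0 (∅ : Finset W) 0) ∧ O (q₀ + ext0 (∅ : Finset W) 0)
      rw [Idl.add_ext0]; exact ⟨h0, h1⟩)
    exact ⟨_, h2.2, h2.1, fun s x hx j => h3 ⟨s, j⟩ x hx⟩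
  op := by
    classical
    have := h.fin
    have := h.finJ
    rintro q₀ ⟨ha, hg⟩ ι l q hq
    have h0 := h.adm q₀ ha ι l q hq
    obtain ⟨J, hJ, hl⟩ := hq
    have e' : ∀ i, q₀ + ext0 J (fun w : J => q i w - q₀ w) = q i := fun i => by
      ext w
      by_cases hw : w ∈ J
      · have := Fin93.ext0_mem (fun w : J => q i w - q₀ w) ⟨w, hw⟩
        simp only [Finsupp.add_apply, this]; ring
      · simp only [Finsupp.add_apply, Fin93.ext0_not_mem _ hw, hJ i w hw, add_zero]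
    have h1 := (h.hyp isOp_true q₀).good_all_open (J := J) (p₀ := 0)
      (by show D.Adm (q₀ + ext0 J 0) ∧ True; rw [Idl.add_ext0]; exact ⟨ha, trivial⟩)
      (fun s x hx => by
        have hx' : D.Sol s.1 (q₀ + ext0 J 0) x := hx
        show D.RegJ s.2 (q₀ + ext0 J 0) x
        rw [Idl.add_ext0] at hx' ⊢; exact hg _ x hx' s.2)
    have h2 : Tendsto (fun i => fun w : J => q i w - q₀ w) l (𝓝 0) :=
      tendsto_pi_nhds.2 fun w => tendsto_sub_nhds_zero_iff.2 (hl w)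
    filter_upwards [h0, h2.eventually h1] with i h3 hi
    refine ⟨h3, fun s x hx j => ?_⟩
    rw [← e' i] at hx ⊢; exact hi ⟨s, j⟩ x hx

/-- at a good perturbation only faces occur -/
theorem face_of {q : W →₀ ℝ} (hq : D.G q) {s : D.S} {x : D.X s} (hx : D.Sol s q x) : D.face s := by
  by_contra hf
  exact h.kill s q x hf hq.1 hx (hq.2 s x hx)

end Ax

/-- a part of negative index kills -/
theorem not_reg_of_neg {s : D.S} {j : D.J s} {q : W →₀ ℝ} {x : D.X s}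
    (h : ∀ i, (D.P s j i).Ax D.Adm) (ha : D.Adm q) (hx : ∀ i y, D.rep i x y → (D.P s j i).Sol q y)
    (hn : ∀ i y, D.rep i x y → (D.P s j i).n < 0) : ¬D.Reg q x := fun hr => by
  obtain ⟨i, y, r, hi⟩ := hr j
  exact absurd ((h i).nonneg ha (hx i y r) hi) (not_le.2 (hn i y r))

end Idr

end Crest.Agent.X212.Nk89
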