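import Crest.Agent.X212.Nk89.Idx
import Crest.Agent.X212.Nk89.Idr
import Crest.Agent.X212.Mod61.Inst
import Crest.Agent.X212.Grp76.Fre
import Crest.Agent.X212.Map77.Rp
import Crest.Agent.X212.Gl67.Jet
import Crest.Agent.X212.Cht98.Cov

/-! The gauge theory of one reference on a manifold with cylindrical ends: definitions, leaves. -/

set_option autoImplicit false
set_option linter.unusedSectionVars false
noncomputable section
open scoped Manifold ContDiff Topology InnerProductSpace ENNReal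
open MeasureTheory Set Function Filter

namespace Crest.Agent.X212.Nk89
open An An.Pre Sob92 Prm93 Fred93 Mod61 Map77 Nd18 Cyf70 Eqv71
open Grp76 (dif Ph Nice tA mA)

variable {E : Type} [NormedAddCommGroup E] [NormedSpace ℝ E] [FiniteDimensional ℝ E]
  [MeasurableSpace E] [BorelSpace E]
  {HM : Type} [TopologicalSpace HM] {I : ModelWithCorners ℝ E HM} [I.Boundaryless]
  {M : Type} [TopologicalSpace M] [ChartedSpace HM M] [IsManifold I ∞ M]
  [MeasurableSpace M] [T2Space M] [BorelSpace M] [SecondCountableTopology M]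
  {ι κ : Type} [Fintype ι] [Fintype κ] {lam : Type} [Fintype lam]
  {T : Type} [NormedAddCommGroup T] [NormedSpace ℝ T]

/-! ### the theory of one reference -/

section th
variable {𝔉 : Fam I M ι lam T} (o : Ref 𝔉) {r n m k : ℕ} {W : Type}

/-- based automorphisms -/
abbrev AlE (w : M → CL o.m.V o.m.V) (c : Circle) : Prop :=
  c = 1 ∧ dif o w ∈ Hs 𝔉.F0.toPre (Ph o)

variable (r) in
/-- the base point -/
def pt0 {t : T} (ht : t ∈ 𝔉.Q) : Pnt o r := ⟨0, 0, 0, t, zero_mem _, zero_mem _, ht⟩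

variable {o}

/-- the values of the field equations -/
def vD (e : T → PtX M ι lam r n m) (y : Pnt o r) : M → o.m.V :=
  𝔉.Om'.indicator ((e y.t).D y.cfg)

/-- the values of the field equations -/
def vC (e : T → PtX M ι lam r n m) (y : Pnt o r) : M → Fm (ι × ι) o.m.A :=
  𝔉.Om.indicator ((e y.t).C y.cfg)

/-- `y` represents `c` over `Om` (any gauge, any phase) -/
def Rep (c : Cfg M ι lam r) (y : Pnt o r) : Prop :=
  ∃ u ζ, EqOn 𝔉.B (𝔉.G y.t).F 𝔉.Om c y.cfg u ζ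

/-- the theory of the reference `o` -/
@[reducible] def thE (Γ : GrpM o r k (AlE o)) (e : T → PtX M ι lam r n m)
    (τ : W → T → PtX M ι lam r n m) (K : Pnt o r → Prop) (d : ℤ) : Th 𝔉 r n m W :=
  ⟨Unit, fun _ => o, fun _ _ => AlE o, k, fun _ => Γ, e, τ, fun _ => K, d⟩

variable (h : 𝔉.OK)
include h

theorem alE_refl : AlE o o.m.p 1 := ⟨rfl, by
  have : dif o o.m.p = 0 := funext fun x => by simp [dif]
  exact this ▸ zero_mem _⟩

theorem alE_symm {y y' : Pnt o r} {w : M → CL o.m.V o.m.V} {c : Circle} (ht : y'.t = y.t)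
    (e : y.Eq y' w c) (a : AlE o w c) : AlE o (fun x => trn (w x)) c⁻¹ := by
  refine ⟨by rw [a.1, inv_one], (Grp76.hs_iff h).2 ⟨?_, Grp76.Ph_w h (e.symm h ht).m⟩⟩
  rw [show dif o (fun x => trn (w x)) = fun x => tA (dif o w x) from funext fun x => ?_]
  · exact ((Grp76.hs_iff h).1 a.2).1.clm tA
  by_cases hx : x ∈ 𝔉.Om
  · refine Wz78.opL_inj ?_
    simp only [dif, indicator_of_mem hx, Grp76.opL_tA, opL_hsL]
    rw [← trn_of_sym (o.ok.psym x), trn_of_sym (o.ok.psym x)]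
    exact ((ContinuousLinearMap.adjoint.map_sub _ _).trans
      (congrArg _ (trn_of_sym (o.ok.psym x)))).symm
  · simp [dif, hx]

theorem alE_trans {y y' y'' : Pnt o r} {w w' : M → CL o.m.V o.m.V} {c c' : Circle}
    (ht : y'.t = y.t) (e : y.Eq y' w c) (ht' : y''.t = y'.t) (e' : y'.Eq y'' w' c') (a : AlE o w c)
    (a' : AlE o w' c') : AlE o (fun x => w' x ∘L w x) (c' * c) := by
  refine ⟨by rw [a.1, a'.1, mul_one],
    (Grp76.hs_iff h).2 ⟨?_, Grp76.Ph_w h (e.trans h ht e' ht').m⟩⟩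
  have h1 := ((Grp76.hs_iff h).1 a.2).1
  have h2 := ((Grp76.hs_iff h).1 a'.2).1
  rw [show dif o (fun x => w' x ∘L w x) = fun x => mA (dif o w' x) (dif o w x) + dif o w' x
    + dif o w x from funext fun x => ?_]
  · exact ((h1.bil mA h2.1).add h2).add h1
  by_cases hx : x ∈ 𝔉.Om
  · refine Wz78.opL_inj ?_
    have e1 := ((e.mi h ht).me x hx).pu o.ok
    have e2 := ((e'.mi h ht').me x hx).up o.ok
    have e3 : o.m.p x ∘L o.m.p x = o.m.p x := o.ok.pidem x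
    simp only [dif, indicator_of_mem hx, map_add, Grp76.opL_mA, opL_hsL,
      ContinuousLinearMap.mul_def, ContinuousLinearMap.comp_sub, ContinuousLinearMap.sub_comp, e1,
      e2, e3]
    abel
  · simp [dif, hx]

omit h in
theorem cj_dif {x : M} (hx : x ∈ 𝔉.Om) (w : M → CL o.m.V o.m.V) {η : o.m.A} (hη : η ∈ o.m.gS x) :
    cj (w x) η - η = mA (dif o w x) η + mA (η + mA (dif o w x) η) (tA (dif o w x)) := by
  refine Wz78.opL_inj ?_
  have h4 := Wz78.g_p hη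
  have h5 := Wz78.g_p' o.ok hη
  have h6 : trn (w x - o.m.p x) = trn (w x) - o.m.p x :=
    (ContinuousLinearMap.adjoint.map_sub _ _).trans (congrArg _ (trn_of_sym (o.ok.psym x)))
  rw [dif, indicator_of_mem hx, map_sub, map_add, Grp76.opL_mA, Grp76.opL_mA, map_add,
    Grp76.opL_mA, Grp76.opL_tA, opL_hsL, h6, opL_cj, sub_mul, h4, add_sub_cancel, mul_sub,
    mul_assoc _ _ (o.m.p x), h5, sub_add_sub_cancel', mul_assoc]
  rfl

theorem alE_mv {y y' : Pnt o r} {w : M → CL o.m.V o.m.V} {c : Circle} (ht : y'.t = y.t)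
    (e : y.Eq y' w c) (a : AlE o w c) : Mv o o w := by
  intro t
  have mi := e.mi h ht
  have h1 := ((Grp76.hs_iff h).1 a.2).1
  have hb : ∀ i, 𝔉.F0.Cb fun x => o.b t x i := fun i =>
    Cb_clm (Grp76.pj o.m.A i) (o.sb.cb t trivial)
  have h2 : ∀ i, Nice 𝔉.F0.toPre fun x => dB o o w t x i := fun i => by
    have h3 := h1.bil' mA (hb i)
    have h4 := h3.add ((h1.clm tA).bil mA (Cb_add (hb i) h3.1))
    rwa [show (fun x => dB o o w t x i) = _ from funext fun x => ?_]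
    rw [dB_apply]
    by_cases hx : x ∈ 𝔉.Om
    · exact cj_dif hx w (o.b_mem t x i)
    · simp [idx_off (b_P1 t x) hx]
  have h3 : ∀ x, o.P1 x (cF 𝔉 ι w x (o.b t x)) = cF 𝔉 ι w x (o.b t x) := fun x =>
    mi.mF h (fun x a b => 𝔉.B.P a b x) x _ (b_P1 t x)
  have h4 : ∀ x, dB o o w t x = cF 𝔉 ι w x (o.b t x) - o.b t x := fun _ => rfl
  exact (Grp76.hs_iff h).2 ⟨Nice.fm h2, fun x => by rw [h4, map_sub, h3, b_P1]⟩

variable {Γ : GrpM o r k (AlE o)} {e : T → PtX M ι lam r n m} {τ : W → T → PtX M ι lam r n m}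
  {K : Pnt o r → Prop} {d : ℤ} {Adm : (W →₀ ℝ) → Prop}

theorem thE_gpd : (thE Γ e τ K d).Gpd :=
  ⟨h, fun _ => alE_refl h, fun _ _ _ _ ht e => alE_symm h ht e,
    fun _ _ _ _ _ _ _ ht e ht' e' => alE_trans h ht e ht' e'⟩

/-- the hypotheses of `Th.OK` -/
theorem thE_ok (hk : 7 ≤ k) (re : o.Rp e) (rτ : ∀ w, o.Rp (τ w)) (ne : 𝔉.Nat e)
    (nτ : ∀ w, 𝔉.Nat (τ w))
    (K_eqv : ∀ y y' w, y'.t = y.t → AlE o w 1 → y.Eq y' w 1 → K y → K y')
    (K_open : ∀ q y, Adm q → K y → (thE Γ e τ K d).Zr q ⟨(), y⟩ → ∀ᶠ v in 𝓝 (y.pt k),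
      ∀ y' : Pnt o r, y'.pt k = v → (thE Γ e τ K d).Zr q ⟨(), y'⟩ → K y')
    (slc : ∀ q y, Adm q → K y → (thE Γ e τ K d).Zr q ⟨(), y⟩ →
      Γ.Slc ((thE Γ e τ K d).tot q) d y) : (thE Γ e τ K d).OK Adm where
  toGpd := thE_gpd h
  hk := hk
  mv _ _ _ _ ht e := alE_mv h ht e
  re _ := re
  rτ _ := rτ
  ne _ _ := ne.natP h _ _ _
  nτ _ _ w := (nτ w).natP h _ _ _
  K_eqv := fun _ _ ⟨ht, w, _, ⟨rfl, al⟩, e⟩ i => K_eqv _ _ w ht ⟨rfl, al⟩ e i.2
  K_open q x ha i := K_open q x.2 ha i.2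
  slc q x ha i := slc q x.2 ha i.2

end th

/-! ### constant families and the cylinder -/

theorem ok_cst {B : Base M ι lam} {G : Geo I M ι lam} {O O' : Set M} (hB : B.OK I) (hG : G.OK B)
    (ht : ∃ C, G.F.Tame C) (ho : ∀ a b c d, G.F.Cb (B.o a b c d)) (hl : G.F.Cb B.l)
    (ha : ∀ a, G.F.Cb (G.a a)) (hO : IsClopen O) (hO' : IsClopen O') (hs : O' ⊆ O) :
    (cst T B G O O').OK := by
  obtain ⟨C, hC⟩ := ht
  have hP : ∀ x a b, ∑ c, B.P a c x * B.P c b x = B.P a b x := fun x a b => (hB.pr x).idem a b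
  have cP : ∀ a b, G.F.Cb (B.P a b) := fun a b => hG.P ▸ ⟨C, hC.P a b⟩
  refine ⟨hB, hG, fun _ _ => hG, ⟨C, hC⟩, fun _ _ => ⟨C, hC⟩, rfl, hG.P, ho, hl, isOpen_univ, hO,
    hO', hs, fun _ _ a x => ?_, fun _ _ => hP, fun _ _ => hP, fun _ _ => hP, fun _ _ => hP,
    fun _ _ => hP, fun _ _ => hP, fun a b => .fixed (cP a b), fun a b => .fixed (cP a b),
    fun _ _ _ => .fixed (Cb_const _), fun _ => .fixed (Cb_const _),
    fun a b c => .fixed ⟨C, hC.c a b c⟩, fun a => .fixed ⟨C, hC.dv a⟩, fun a => .fixed (ha a),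
    ⟨fun _ _ => 1, .fixed (Cb_const _), fun _ _ => ⟨fun _ => one_pos, by simp [cst]⟩⟩,
    fun m A0 _ hA _ _ => ?_⟩
  · exact ((G.F.P_e a x).symm.trans (by rw [hG.P]; rfl))
  · have : (cst T B G O O').W0 m A0 ‹T› = A0 := funext fun a => funext fun x => by
      simpa [Fam.W0, cst] using hA.cc.proj a x
    exact this.symm ▸ hA

section cyl
variable {E3 : Type} [NormedAddCommGroup E3] [NormedSpace ℝ E3] [FiniteDimensional ℝ E3]
  [MeasurableSpace E3] [BorelSpace E3]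
  {H3 : Type} [TopologicalSpace H3] {I3 : ModelWithCorners ℝ E3 H3} [I3.Boundaryless]
  {Y : Type} [TopologicalSpace Y] [ChartedSpace H3 Y] [IsManifold I3 ∞ Y] [T2Space Y]
  [MeasurableSpace Y] [BorelSpace Y] [SecondCountableTopology Y] [CompactSpace Y]
  {N : Type} [NormedAddCommGroup N] [NormedSpace ℝ N]

theorem cb_inv (F : Pre I3 Y κ) {f : Y → N} (hf : Sm (IC I3) fun x : Y × ℝ => f x.1) :
    (cylP F).Cb fun x => f x.1 := Cht98.Cb_fst F (Cb_of_compact (sm_slice_fst hf 0))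

theorem cbZ {D : YD I3 Y κ lam} {δ : ℝ} {O' : Set (Y × ℝ)} {f : Y → N}
    (hf : Sm (IC I3) fun x : Y × ℝ => f x.1) : (famZ T D δ O').F0.Cb fun x => f x.1 :=
  (wtP_wtP (cylP D.F.toPre) (sm_snd (contDiff_const.mul sm_ab))).Cb.2 (cb_inv D.F.toPre hf)

/-- no parameters -/
abbrev T0 : Type := Fin 0 → ℝ

variable (T) in
/-- the `t`-invariant reference on the cylinder -/
@[reducible] def refZ {D : YD I3 Y κ lam} (δ : ℝ) {O' : Set (Y × ℝ)} {β : YC Y κ lam} (h : D.Adm β)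
    (h0 : ∀ x ∉ O', β.Φ x.1 = 0) : Ref (famZ T D δ O') where
  m := ⟨β.m.N, β.m.J, fun x => β.m.p x.1, fun a x => β.m.ρ a x.1, fun x => β.m.j x.1⟩
  A0 a x := β.W a x.1
  Φ0 x := β.Φ x.1
  ok := h.adm.ok
  conn := h.adm.conn
  cp := cbZ h.adm.ok.sp
  cρ a := cbZ (h.adm.ok.sρ a)
  cj := cbZ h.adm.ok.sj
  cA a := cbZ (h.adm.conn.cc.sm a)
  cΦ := cbZ h.adm.sm
  pos x := by
    by_cases hx : x ∈ O'
    · exact (DFunLike.congr_fun (indicator_of_mem (s := O') hx _) _).trans (h.adm.pos x)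
    · rw [h0 x hx, map_zero]

instance {D : YD I3 Y κ lam} (δ : ℝ) {O' : Set (Y × ℝ)} {β : YC Y κ lam} (h : D.Adm β)
    (h0 : ∀ x ∉ O', β.Φ x.1 = 0) : (refZ T δ h h0).B0 := ⟨rfl⟩

/-- the weighted norm over the heights `> a` in the direction `sg` -/
def NE (D : YD I3 Y κ lam) (δ sg a : ℝ) (k : ℕ) (u : Y × ℝ → N) : ℝ≥0∞ :=
  Gl67.N D.Z.toPre (fun x => δ * (sg * x.2)) {x | a < sg * x.2} k u

variable {D : YD I3 Y κ lam} {δ : ℝ} {O' : Set (Y × ℝ)} {β : YC Y κ lam} (h : D.Adm β)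
  (h0 : ∀ x ∉ O', β.Φ x.1 = 0) (k : ℕ) (e : PtX (Y × ℝ) (Option κ) lam 0 0 0)

/-- LEAF INV (70): the linearisation at `β` is Fredholm of index `d` on the cylinder -/
def Inv (d : ℤ) : Prop := Idx k (fun _ => e) (pt0 (refZ T0 δ h h0) 0 (t := 0) trivial) d

/-- LEAF LOC on the cylinder (69) -/
def LocZ (sg : ℝ) : Prop := ∀ b ρ : ℝ, ∀ ε > 0, ∃ a, ∀ y y' : Pnt (refZ T0 δ h h0) 0,
  ‖y.pt k‖ ≤ ρ → ‖y'.pt k‖ ≤ ρ → (∀ x, b < sg * x.2 → y.α x = y'.α x ∧ y.φ x = y'.φ x) →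
    NE D δ sg a k (vD (fun _ => e) y - vD (fun _ => e) y') ≤ ε ∧
    NE D δ sg a k (vC (fun _ => e) y - vC (fun _ => e) y') ≤ ε

/-- the hypotheses on the cylinder of a limit -/
structure CylOK : Prop where
  aff : Aff (refZ T0 δ h h0) (Fs (famZ T0 D δ O')) 0 0 0 fun _ => e
  inv : ∃ d, Inv (δ := δ) h h0 k e d
  loc : ∀ sg, sg = 1 ∨ sg = -1 → LocZ (δ := δ) h h0 k e sg

end cyl

/-! ### references which are literally `t`-invariant on the ends -/

namespace End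
variable {𝔉 : Fam I M (Option κ) lam T} (P : End 𝔉) (o : Ref 𝔉) {r n m : ℕ}

/-- the point with coordinate `y` at height `s` -/
def pt (s : ℝ) (y : P.Y.M) : M := P.K.ψ (y, P.sg * s)

/-- the slice at height `s` of the base configuration with parameter `t` -/
@[reducible] def sl (s : ℝ) (t : T) : YC P.Y.M κ lam :=
  ⟨⟨o.m.N, o.m.J, fun y => o.m.p (P.pt s y), fun a y => o.m.ρ a (P.pt s y),
    fun y => o.m.j (P.pt s y)⟩, fun a y => o.W t 0 a (P.pt s y), fun y => o.Φ0 (P.pt s y), 0⟩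

/-- the base configuration is independent of the height and temporal above the height `R` -/
structure Lit (R : ℝ) : Prop where
  eq : ∀ t ∈ 𝔉.Q, ∀ s, R < s → P.sl o s t = P.sl o (R + 1) t
  tmp : ∀ t ∈ 𝔉.Q, ∀ y, o.W t 0 none (P.pt (R + 1) y) = 0

/-- the domain of the spinor on the cylinder -/
def O' (R : ℝ) : Set (P.Y.M × ℝ) := {_x | P.U R ⊆ 𝔉.Om'}

/-- LEAF LOC (69): the equations at configurations which agree high up agree higher up -/
def Loc (k : ℕ) (δ R : ℝ) (e : T → PtX M (Option κ) lam r n m) (t : T)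
    (h : P.D.Adm (P.sl o (R + 1) t)) (h0 : ∀ x ∉ P.O' R, (P.sl o (R + 1) t).Φ x.1 = 0)
    (eZ : PtX (P.Y.M × ℝ) (Option κ) lam 0 0 0) : Prop :=
  ∀ b ρ : ℝ, R ≤ b → ∀ ε > 0, ∃ a, ∀ (y : Pnt o r) (y' : Pnt (refZ T0 δ h h0) 0), y.t = t →
    ‖y.pt k‖ ≤ ρ → ‖y'.pt k‖ ≤ ρ →
    (∀ x, b < P.sg * x.2 → y.α (P.K.ψ x) = y'.α x ∧ y.φ (P.K.ψ x) = y'.φ x) →
    NE P.D δ P.sg a k (fun x => vD e y (P.K.ψ x) - vD (fun _ => eZ) y' x) ≤ ε ∧
    NE P.D δ P.sg a k (fun x => vC e y (P.K.ψ x) - vC (fun _ => eZ) y' x) ≤ ε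

/-- exponential closeness to `β` above the height `R`, in one gauge -/
def EB (c : Cfg M (Option κ) lam r) (β : YC P.Y.M κ lam) (u : P.Y.M × ℝ → CL c.m.V β.m.V)
    (ζ : Circle) (d R : ℝ) (k : ℕ) (C : ℝ) : Prop :=
  ∀ s, R ≤ s → P.D.Cls (P.K.pb c) β u ζ (Ioo (P.sg * s - 1) (P.sg * s + 1)) k
    (C * Real.exp (-d * s))

end End

namespace Ends
variable {𝔉 : Fam I M (Option κ) lam T} {δ : ℝ} (X : Ends 𝔉 δ) (o : Ref 𝔉) {r n m : ℕ}

/-- literal at all ends -/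
structure Lit (R : ℝ) : Prop where
  le : X.R ≤ R
  lit : ∀ a, (X.P a).Lit o R

/-- the ends on which the connection lives -/
def Act (a : X.A) : Prop := (X.P a).U X.R ⊆ 𝔉.Om

/-- the hypotheses of the Fredholm property at the parameter `t` -/
def Fred (R : ℝ) (k : ℕ) (e : T → PtX M (Option κ) lam r n m) (t : T) : Prop :=
  ∀ a, X.Act a → ∀ h h0, ∃ eZ, CylOK (δ := δ) h h0 k eZ ∧ (X.P a).Loc o k δ R e t h h0 eZ

end Ends

end Crest.Agent.X212.Nk89
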