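import Crest.Agent.X212.Nk89.Brg

/-! The linearisation is asymptotic to the linearisation on the cylinder. -/

set_option autoImplicit false
set_option linter.unusedSectionVars false
noncomputable section
open scoped Manifold ContDiff Topology InnerProductSpace ENNReal
open MeasureTheory Set Function Filter

namespace Crest.Agent.X212.Nk89
open An An.Pre Sob92 Prm93 Fred93 Mod61 Map77 Nd18 Cyf70 Ell97

variable {E : Type} [NormedAddCommGroup E] [NormedSpace ℝ E] [FiniteDimensional ℝ E]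
  [MeasurableSpace E] [BorelSpace E]
  {HM : Type} [TopologicalSpace HM] {I : ModelWithCorners ℝ E HM} [I.Boundaryless]
  {M : Type} [TopologicalSpace M] [ChartedSpace HM M] [IsManifold I ∞ M]
  [MeasurableSpace M] [T2Space M] [BorelSpace M] [SecondCountableTopology M]
  {ι κ : Type} [Fintype ι] [Fintype κ] {lam : Type} [Fintype lam]
  {T : Type} [NormedAddCommGroup T] [NormedSpace ℝ T]

theorem pg_congr {M M' : Type} {N : ℕ} {J : En (Fin N)} {p : M → En (Fin N)} {p' : M' → En (Fin N)}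
    {ρ : ι → M → En (Fin N)} {ρ' : ι → M' → En (Fin N)} {j : M → CL (Eu lam) (En (Fin N))}
    {j' : M' → CL (Eu lam) (En (Fin N))} {x : M} {x' : M'} (hp : p x = p' x')
    (hρ : ∀ a, ρ a x = ρ' a x') (hj : j x = j' x') :
    (Md.mk N J p ρ j).pg x = (Md.mk N J p' ρ' j').pg x' := by
  have : (Md.mk N J p ρ j).gS x = (Md.mk N J p' ρ' j').gS x' := Submodule.ext fun ξ => by
    simp only [← SetLike.mem_coe, Md.gS, Submodule.coe_set_mk, AddSubmonoid.coe_set_mk,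
      AddSubsemigroup.coe_set_mk, mem_setOf_eq, hp, hρ, hj]
  simp only [Md.pg, this]

theorem val_RR [DecidableEq κ] {b : Bd M ι κ} {F : Fr I M lam} {G : Fr I M ι} (H : b.Hy F G)
    {k : ℕ} (hk : 4 ≤ k) {c : M → Cf ι κ} (hc : F.Cb c) (u : Sec I b.pC) :
    F.val k _ (b.RR F.toPre G k c (F.toH _ _ u)) =
      G.op ((b.d0 G c).adj G).σ ((b.d0 G c).adj G).B u := by
  rw [RepT_toH (rep_RR H k hc), val_toH H.sup hk]

theorem Ct.sm {E' : Type} [NormedAddCommGroup E'] [NormedSpace ℝ E'] [FiniteDimensional ℝ E']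
    [MeasurableSpace E'] [BorelSpace E'] {HM' : Type} [TopologicalSpace HM']
    {I' : ModelWithCorners ℝ E' HM'} [I'.Boundaryless] {M' : Type} [TopologicalSpace M']
    [ChartedSpace HM' M'] [IsManifold I' ∞ M'] [MeasurableSpace M'] [T2Space M'] [BorelSpace M']
    [SecondCountableTopology M'] {F : Pre I M ι} {F' : Pre I' M' ι}
    {φ : OpenPartialHomeomorph M M'} {θ : M → ℝ} {θ' : M' → ℝ} (h : Ct F F' φ θ θ') {V : Type}
    [NormedAddCommGroup V] [NormedSpace ℝ V] {v : M' → V} (hv : Sm I' v) :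
    Sm I fun x => θ x • v (φ x) := by
  have := sm_pull h.iso (h.cb'.choose_spec.1.smul hv)
    (h.adm'.mono (isClosed_tsupport _) (tsupport_smul_subset_left _ _))
  rwa [show pull φ _ = fun x => θ x • v (φ x) from funext fun x => ?_] at this
  by_cases hx : x ∈ φ.source
  · simp only [pull_of_mem hx, h.eq x hx]; rfl
  · simp only [pull_of_notMem hx, h.off hx, zero_smul]

section tt
variable {𝔉 : Fam I M ι lam T} {o : Ref 𝔉} {r n m k : ℕ} {f : o.C r k → o.Y n m k}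
  {e : T → PtX M ι lam r n m} (h : 𝔉.OK)
include h

omit h in
variable (f) in
/-- the Dirac equation near `y` -/
def g1 (y : Pnt o r) (x : 𝔉.F0.H (k + 1) (bd o).pC) : 𝔉.F0.H k o.Pm :=
  (f (y.pt k + sC' o r k y.t x)).1

omit h in
variable (f) in
/-- the curvature equation near `y` -/
def g2 (y : Pnt o r) (x : 𝔉.F0.H (k + 1) (bd o).pC) : 𝔉.F0.H k o.P2 :=
  (f (y.pt k + sC' o r k y.t x)).2.1

omit h in
variable (o) in
/-- the gauge row at the base configuration -/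
def ro (t : T) : (M → Cf ι (Fin o.m.N)) → M → o.m.A :=
  (Fs 𝔉 t).op (((bd o).d0 (Fs 𝔉 t) (u0 o t)).adj (Fs 𝔉 t)).σ
    (((bd o).d0 (Fs 𝔉 t) (u0 o t)).adj (Fs 𝔉 t)).B

theorem exists_D (hk : 4 ≤ k) (hf : RepF e f) (y : Pnt o r) :
    ∃ (A₁ : _ →L[ℝ] _) (A₂ : _ →L[ℝ] _), HasFDerivAt (g1 f y) A₁ 0 ∧ HasFDerivAt (g2 f y) A₂ 0 ∧ ∀ (u : Sec I (bd o).pC) x,
      𝔉.F0.val k _ (TG k f (y.pt k) y.t (u0 o y.t) (𝔉.F0.toH _ _ u)) x = i1 _ _ (ro o y.t u x) +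
        i2 _ _ (i1 _ _ (𝔉.F0.val k _ (A₁ (𝔉.F0.toH _ _ u)) x) +
          i2 _ _ (𝔉.F0.val k _ (A₂ (𝔉.F0.toH _ _ u)) x)) := by
  have h1 := ((hf.1.contDiffAt ((Map77.isOpen_U h).mem_nhds (pt_mem y))).differentiableAt
    (by simp)).hasFDerivAt
  have d : HasFDerivAt (fun x => f (y.pt k + sC' o r k y.t x))
      (fderiv ℝ f (y.pt k) ∘L sC' o r k y.t) 0 := HasFDerivAt.comp 0 (by rwa [map_zero, add_zero])
    ((sC' o r k y.t).hasFDerivAt.const_add (y.pt k))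
  refine ⟨_, _, d.fst, d.snd.fst, fun u x => ?_⟩
  simp only [TG, _root_.add_apply, ContinuousLinearMap.comp_apply, val_add, Pi.add_apply,
    val_iH1 h.sup hk, val_iH2 h.sup hk, sY_apply]
  exact congrArg (i1 _ _ · + _) (congrFun
    (val_RR ((adj_rem h).hy o y.ht) hk ((sb_u0 _ h).cb _ y.ht) u) x)

theorem exists_pt (hk : 3 ≤ k) (hf : RepF e f) (y : Pnt o r) : ∃ ρ, ‖y.pt k‖ ≤ ρ ∧
    ∀ u : Sec I (bd o).pC, ‖𝔉.F0.toH (k + 1) _ u‖ ≤ 1 → ∃ x : Pnt o r, x.t = y.t ∧ ‖x.pt k‖ ≤ ρ ∧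
      𝔉.F0.val k _ (g1 f y (𝔉.F0.toH _ _ u)) = vD e x ∧
      𝔉.F0.val k _ (g2 f y (𝔉.F0.toH _ _ u)) = vC e x ∧ ∀ z,
        x.α z = y.α z + fa (SC o (𝔉.Si y.t) z (u.1 z)) ∧
        x.φ z = y.φ z + fp (SC o (𝔉.Si y.t) z (u.1 z)) := by
  refine ⟨‖y.pt k‖ + ‖sC' o r k y.t‖, le_add_of_nonneg_right (sC' o r k y.t).opNorm_nonneg,
    fun u hu => ?_⟩
  obtain ⟨x, e0, e1, e2⟩ := exists_add h hk y u
  exact ⟨x, e0, e1 ▸ (norm_add_le _ _).trans (add_le_add_right (((sC' o r k y.t).le_opNorm _).trans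
    (mul_le_of_le_one_right (sC' o r k y.t).opNorm_nonneg hu)) _), by rw [g1, ← e1]; exact (hf.2 x).D,
    by rw [g2, ← e1]; exact (hf.2 x).C, e2⟩

/-- identities up to compact operators extend from the points with compact support -/
theorem cq_of_cpt (hk : 3 ≤ k) (hf : RepF e f) (y : Pnt o r) (u : M → Cf ι (Fin o.m.N))
    {X Y : Type} [NormedAddCommGroup X] [NormedSpace ℝ X] [NormedAddCommGroup Y] [NormedSpace ℝ Y]
    [CompleteSpace X] [CompleteSpace Y] (a : 𝔉.F0.H k (ps o.Pg (bd o).pE) →L[ℝ] Y)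
    (c : X →L[ℝ] 𝔉.F0.H (k + 1) (bd o).pC) (B : X →L[ℝ] Y)
    (H : ∀ y' : Pnt o r, y'.t = y.t → HasCompactSupport y'.α → HasCompactSupport y'.φ →
      Cq (a ∘L TG k f (y'.pt k) y.t u ∘L c) B) : Cq (a ∘L TG k f (y.pt k) y.t u ∘L c) B := by
  have c1 : ContinuousOn (fun v => a ∘L TG k f v y.t u ∘L c) (o.U r k) :=
    continuousOn_const.clm_comp ((cont_TG h hf y.t u).clm_comp continuousOn_const)
  refine (isClosed_cq B).closure_subset (((c1 _ (pt_mem y)).mono ?_).mem_closure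
    (closure_cpt h hk y) ?_)
  · rintro _ ⟨y', -, rfl, -⟩; exact pt_mem y'
  · rintro _ ⟨y', h1, rfl, h2, h3⟩; exact H y' h1 h2 h3

omit h in
theorem off_pC {x : M} (hs : 𝔉.Om' ⊆ 𝔉.Om) (hx : x ∉ 𝔉.Om) : (bd o).pC x = 0 := by
  ext1 v
  refine ext2 (fm_ext fun a => ?_) ?_ <;>
    simp [Ref.P1, Ref.Pg, Ref.Pp, hx, mt (@hs x) hx]

omit h in
theorem off_pF {x : M} (hs : 𝔉.Om' ⊆ 𝔉.Om) (hx : x ∉ 𝔉.Om) : ps o.Pg (bd o).pE x = 0 := by
  ext1 v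
  refine ext2 ?_ (ext2 ?_ (fm_ext fun a => ?_)) <;>
    simp [Ref.P2, Ref.Pg, Ref.Pm, hx, mt (@hs x) hx]

end tt

/-! ### the cylinder -/

section cyl
variable {E3 : Type} [NormedAddCommGroup E3] [NormedSpace ℝ E3] [FiniteDimensional ℝ E3]
  [MeasurableSpace E3] [BorelSpace E3]
  {H3 : Type} [TopologicalSpace H3] {I3 : ModelWithCorners ℝ E3 H3} [I3.Boundaryless]
  {Y : Type} [TopologicalSpace Y] [ChartedSpace H3 Y] [IsManifold I3 ∞ Y] [T2Space Y]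
  [MeasurableSpace Y] [BorelSpace Y] [SecondCountableTopology Y] [CompactSpace Y]
  {D : YD I3 Y κ lam} {δ : ℝ} {O' : Set (Y × ℝ)}
  {U V W : Type} [NormedAddCommGroup V] [InnerProductSpace ℝ V] [FiniteDimensional ℝ V]
  [NormedAddCommGroup U] [InnerProductSpace ℝ U] [FiniteDimensional ℝ U]
  [NormedAddCommGroup W] [InnerProductSpace ℝ W] [FiniteDimensional ℝ W]
  {s : Y × ℝ → U →L[ℝ] U} {p : Y × ℝ → V →L[ℝ] V} {q : Y × ℝ → W →L[ℝ] W} {sg : ℝ} {k : ℕ}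
  {X : Type} [NormedAddCommGroup X] [NormedSpace ℝ X]
  (h : (famZ T D δ O').OK) (hs : sg = 1 ∨ sg = -1) (hk : 4 ≤ k) {S : Set X}
  (hS : ∀ w ∈ S, ∀ s : ℝ, s • w ∈ S) {b : ℝ}
include h hs hk hS

theorem small {g : X → (famZ T D δ O').F0.H k p} {A : X →L[ℝ] (famZ T D δ O').F0.H k p}
    (hg : HasFDerivAt g A 0) (H : ∀ η : ℝ≥0∞, 0 < η → ∃ a, ∀ w ∈ S, ‖w‖ ≤ 1 →
      Sm (IC I3) ((famZ T D δ O').F0.val k p (g w)) ∧ ∃ u, (∀ z : Y × ℝ, b < sg * z.2 →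
        (famZ T D δ O').F0.val k p (g w) z = u z) ∧ NE D δ sg a k u ≤ η) {ε : ℝ} (hε : 0 < ε) :
    ∀ᶠ c in atTop, ∀ w ∈ S, ‖smulH _ k p (fun z => hc sg c z.2) (A w)‖ ≤ ε * ‖w‖ :=
  deriv_small hg (norm_hcZ hs) hS (fun ε hε => by
    obtain ⟨η, η0, hη⟩ := norm_le_NE h hs hk hε (p := p)
    obtain ⟨a, ha⟩ := H η η0
    filter_upwards [eventually_gt_atTop a, eventually_ge_atTop 1, eventually_ge_atTop (b + 1)]
      with c h1 h2 h3 w hw hn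
    obtain ⟨s, u, e, n⟩ := ha w hw hn
    exact hη a c h1 h2 _ u s (fun z hz => e z (by linarith)) n) hε

theorem small2 {g₁ : X → (famZ T D δ O').F0.H k p} {A₁ : X →L[ℝ] (famZ T D δ O').F0.H k p}
    {g₂ : X → (famZ T D δ O').F0.H k q} {A₂ : X →L[ℝ] (famZ T D δ O').F0.H k q}
    (h1 : HasFDerivAt g₁ A₁ 0) (h2 : HasFDerivAt g₂ A₂ 0)
    (H : ∀ η : ℝ≥0∞, 0 < η → ∃ a, ∀ w ∈ S, ‖w‖ ≤ 1 → ∃ u₁ u₂,
      Sm (IC I3) ((famZ T D δ O').F0.val k p (g₁ w)) ∧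
      Sm (IC I3) ((famZ T D δ O').F0.val k q (g₂ w)) ∧ (∀ z : Y × ℝ, b < sg * z.2 →
        (famZ T D δ O').F0.val k p (g₁ w) z = u₁ z ∧ (famZ T D δ O').F0.val k q (g₂ w) z = u₂ z) ∧
      NE D δ sg a k u₁ ≤ η ∧ NE D δ sg a k u₂ ≤ η) {L : X → (famZ T D δ O').F0.H k (ps s (ps p q))}
    (e : ∀ w ∈ S, ∀ z : Y × ℝ, b < sg * z.2 → (famZ T D δ O').F0.val k _ (L w) z =
      i2 _ _ (i1 _ _ ((famZ T D δ O').F0.val k p (A₁ w) z) +
        i2 _ _ ((famZ T D δ O').F0.val k q (A₂ w) z))) {ε : ℝ} (hε : 0 < ε) :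
    ∀ᶠ c in atTop, ∀ w ∈ S, ‖smulH _ k _ (fun z => hc sg c z.2) (L w)‖ ≤ ε * ‖w‖ := by
  let J := iH2 (famZ T D δ O').F0.toPre k s (ps p q) ∘L (iH1 _ k p q).coprod (iH2 _ k p q)
  have η0 : 0 < ε / (‖J‖ + 1) := by positivity
  filter_upwards [small h hs hk hS h1 (b := b) (fun η h0 => (H η h0).imp fun a ha w hw hn =>
      let ⟨u, _, s, _, e, n, _⟩ := ha w hw hn; ⟨s, u, fun z hz => (e z hz).1, n⟩) η0,
    small h hs hk hS h2 (b := b) (fun η h0 => (H η h0).imp fun a ha w hw hn =>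
      let ⟨_, u, _, s, e, _, n⟩ := ha w hw hn; ⟨s, u, fun z hz => (e z hz).2, n⟩) η0,
    eventually_ge_atTop b] with c c1 c2 c3 w hw
  have cb := cb_hcZ (T := T) (D := D) (δ := δ) (O' := O') hs c
  rw [show smulH _ k _ (fun z => hc sg c z.2) (L w) = J (smulH _ k p (fun z => hc sg c z.2) (A₁ w),
    smulH _ k q (fun z => hc sg c z.2) (A₂ w)) from val_injective h.sup hk (funext fun z => ?_)]
  · refine (J.le_opNorm _).trans ((mul_le_mul (lt_add_one _).le (max_le (c1 w hw) (c2 w hw))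
      (le_max_of_le_left (norm_nonneg _)) (by positivity)).trans (le_of_eq ?_))
    rw [← mul_assoc, mul_div_cancel₀ _ (by positivity)]
  simp only [J, ContinuousLinearMap.comp_apply, ContinuousLinearMap.coprod_apply, val_add,
    Pi.add_apply, val_iH1 h.sup hk, val_iH2 h.sup hk, val_smulH h.sup hk cb]
  rcases le_or_gt (sg * z.2) c with hz | hz
  · simp only [hc_zero hz, zero_smul, map_zero, add_zero]
  · simp only [e w hw z (c3.trans_lt hz), map_add, map_smul, smul_add]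

set_option maxHeartbeats 1000000 in
omit hS hk h in
theorem nlZ_of (h : (famZ T D δ O').OK) (hk : 7 ≤ k) {o : Ref (famZ T D δ O')} {r n m : ℕ}
    {e : T → PtX (Y × ℝ) (Option κ) lam r n m} {f : o.C r k → o.Y n m k} (re : o.Rp e)
    (hf : RepF e f) (y : Pnt o r) (hL : ∀ b ρ : ℝ, ∀ ε > 0, ∃ a, ∀ x x' : Pnt o r, ‖x.pt k‖ ≤ ρ →
      ‖x'.pt k‖ ≤ ρ → (∀ z, b < sg * z.2 → x.α z = x'.α z ∧ x.φ z = x'.φ z) →
      NE D δ sg a k (vD e x - vD e x') ≤ ε ∧ NE D δ sg a k (vC e x - vC e x') ≤ ε) :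
    NlZ sg (TG k f (y.pt k) y.t (u0 o y.t)) := fun b ε hε => by
  have k4 : 4 ≤ k := by omega
  obtain ⟨ρ, hρ, H⟩ := exists_pt h (by omega) hf y
  obtain ⟨A₁, A₂, d1, d2, eT⟩ := exists_D h k4 hf y
  refine (small2 h hs k4 (S := {w | ∃ u : Sec (IC I3) (bd o).pC,
    (∀ z : Y × ℝ, b < sg * z.2 → u.1 z = 0) ∧ w = (famZ T D δ O').F0.toH (k + 1) _ u}) ?_ (b := b)
    (d1.sub_const (f (y.pt k)).1) (d2.sub_const (f (y.pt k)).2.1) (fun η η0 => ?_)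
    (L := TG k f (y.pt k) y.t (u0 o y.t)) ?_ hε).mono fun c hc u hu => hc _ ⟨u, hu, rfl⟩
  · rintro _ ⟨u, hu, rfl⟩ s
    exact ⟨s • u, fun z hz => (congrArg (s • ·) (hu z hz)).trans (smul_zero s),
      (LinearMap.map_smul _ s u).symm⟩
  · refine (hL b ρ η η0).imp ?_
    rintro a ha _ ⟨u, hu, rfl⟩ hn
    obtain ⟨x, -, n, e1, e2, e3⟩ := H u hn
    rw [val_sub, val_sub, e1, e2, (hf.2 y).D, (hf.2 y).C]
    exact ⟨_, _, (sm_v h re x).1.sub (sm_v h re y).1, (sm_v h re x).2.sub (sm_v h re y).2,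
      fun _ _ => ⟨rfl, rfl⟩, ha x y n hρ fun z hz => by
        simp only [e3, hu z hz, map_zero, add_zero, and_self]⟩
  · rintro _ ⟨u, hu, rfl⟩ z hz
    rw [eT, show ro o y.t u z = 0 from image_eq_zero_of_notMem_tsupport fun e =>
      notMem_tsupport_iff_eventuallyEq.2 (mem_of_superset ((isOpen_lt continuous_const
        (by fun_prop : Continuous fun z : Y × ℝ => sg * z.2)).mem_nhds hz) fun z hz => hu z hz)
        (tsupport_op _ _ _ e), map_zero, zero_add]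

omit hS hk h hs
variable {β : YC Y κ lam} {O' : Set (Y × ℝ)} {hβ : D.Adm β} {h0 : ∀ x ∉ O', β.Φ x.1 = 0}
  {eZ : PtX (Y × ℝ) (Option κ) lam 0 0 0}
  {fZ : (refZ T0 δ hβ h0).C 0 k → (refZ T0 δ hβ h0).Y 0 0 k}

variable (δ hβ h0) in
/-- the base point of the cylinder -/
abbrev yZ : Pnt (refZ T0 δ hβ h0) 0 := pt0 (refZ T0 δ hβ h0) 0 (t := 0) trivial

variable (fZ) in
/-- the linearisation on the cylinder -/
abbrev TZ := TG k fZ ((yZ δ hβ h0).pt k) (yZ δ hβ h0).t (u0 (refZ T0 δ hβ h0) (yZ δ hβ h0).t)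

/-- locality on the cylinder -/
theorem nlZ (hs : sg = 1 ∨ sg = -1) (h : (famZ T0 D δ O').OK) (hk : 7 ≤ k)
    (hZ : CylOK (δ := δ) hβ h0 k eZ) (hf : RepF (fun _ => eZ) fZ) : NlZ sg (TZ fZ) :=
  nlZ_of hs h hk ((adj_rem h).rp hZ.aff) hf _ (hZ.loc sg hs)

end cyl

/-! ### one end -/

namespace End
variable {𝔉 : Fam I M (Option κ) lam T} {P : End 𝔉} {o : Ref 𝔉} {ψ : M → ℝ} {δ R₀ R b : ℝ} {t : T}
  (h : P.D.Adm (P.sl o (R + 1) t)) (h0 : ∀ x ∉ P.O' R, (P.sl o (R + 1) t).Φ x.1 = 0)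
  (k : 𝔉.OK) (hP : P.OK ψ δ R₀) (hR : R₀ ≤ R) (hl : P.Lit o R) (ht : t ∈ 𝔉.Q)
include k hP hR hl ht

theorem brel (hb : R ≤ b) (act : P.U R₀ ⊆ 𝔉.Om) :
    BRel (bd (refZ T0 δ h h0)) (bd o) (P.ch b) := by
  have g := hP.gRel k ht
  have m : ∀ z ∈ (P.ch b).source, z ∈ P.H R := fun z hz => hb.trans_lt hz.2
  have m0 : ∀ z ∈ (P.ch b).source, z ∈ P.H R₀ := fun z hz => hR.trans_lt (m z hz)
  have a := fun z hz => hl.at ht (m z hz)
  have e1 : ∀ z ∈ (P.ch b).source, (refZ T0 δ h h0).Pg z = o.Pg (P.K.ψ z) := fun z hz =>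
    (indicator_of_mem (mem_univ z) _).trans ((pg_congr (a z hz).1.symm
      (fun i => ((a z hz).2.1 i).symm) (a z hz).2.2.1.symm).trans
      (indicator_of_mem (act (hP.ψ_mem le_rfl (m0 z hz))) _).symm)
  have e2 : ∀ z ∈ (P.ch b).source, (fun i j => P.D.B.P i j z) = fun i j => 𝔉.B.P i j (P.K.ψ z) :=
    fun z hz => funext₂ fun i j => g.P i j z (m0 z hz)
  have e3 : ∀ z ∈ (P.ch b).source, (refZ T0 δ h h0).m.om P.D.B z = o.m.om 𝔉.B (P.K.ψ z) :=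
    fun z hz => by simp only [Md.om, (a z hz).2.1, g.o _ _ _ _ z (m0 z hz)]
  have e4 : ∀ z ∈ (P.ch b).source, ∀ {f : _ → En (Fin o.m.N)} {f' : _ → En (Fin o.m.N)},
      f z = f' (P.K.ψ z) → (P.O' R).indicator f z = 𝔉.Om'.indicator f' (P.K.ψ z) :=
    fun z hz f f' e => by
      by_cases hx : z ∈ P.O' R
      · rw [indicator_of_mem hx, indicator_of_mem ((hP.mem_O' k hR (m z hz) z).1 hx), e]
      · rw [indicator_of_notMem hx, indicator_of_notMem (mt (hP.mem_O' k hR (m z hz) z).2 hx)]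
  exact ⟨e2, fun z hz i => ((a z hz).2.1 i).symm, e1, fun z hz => congrArg₂ idx (e2 z hz) (e1 z hz),
    fun z hz => congrArg₂ idx (funext₂ fun s s' => by
      simp only [Base.sd, Base.a2, Base.st, ch_apply, ← g.P _ _ z (m0 z hz),
        ← g.o _ _ _ _ z (m0 z hz)]; rfl) (e1 z hz),
    fun z hz => e4 z hz (congrArg₂ (fun s s' => (1 / 2 : ℝ) • (s - s')) (a z hz).1.symm (e3 z hz)),
    fun z hz => e4 z hz (congrArg₂ (fun s s' => (1 / 2 : ℝ) • (s + s')) (a z hz).1.symm (e3 z hz))⟩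

theorem u0_eq {z : P.Y.M × ℝ} (hz : z ∈ P.H R) :
    u0 (refZ T0 δ h h0) 0 z = u0 o t (P.K.ψ z) := by
  have a := hl.at ht hz
  have e : ∀ i, (famZ T0 P.D δ (P.O' R)).W0 _ ((refZ T0 δ h h0).A 0) 0 i z =
      𝔉.W0 o.m (o.A t) t i (P.K.ψ z) := fun i => by
    have : (refZ T0 δ h h0).B0 := ⟨rfl⟩
    rw [Ref.A_eq]
    refine Eq.trans ?_ ((a.2.2.2.1 i).symm.trans (by simp [Ref.W, Md.addC]))
    simpa [Fam.W0, famZ, wtF, cst] using (refZ T0 δ h h0).conn.cc.proj i z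
  simp only [u0, base, e, a.2.2.2.2]

omit hl in
theorem SC_eq {z : P.Y.M × ℝ} (hz : z ∈ P.H R) :
    SC (refZ T0 δ h h0) ((famZ T0 P.D δ (P.O' R)).Si 0) z = SC o (𝔉.Si t) (P.K.ψ z) := by
  have hz' : z ∈ P.H R₀ := hR.trans_lt hz
  rw [SC, SC, show 𝔉.Si t (P.K.ψ z) = fun i j => P.D.B.P i j z from funext₂ fun i j =>
    (hP.S t ht _ (hP.ψ_mem le_rfl hz') i j).2.trans ((hP.gRel k ht).P i j z hz').symm]
  rfl

end End

namespace Ends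
variable {𝔉 : Fam I M (Option κ) lam T} {δ : ℝ} {X : Ends 𝔉 δ} {R b : ℝ} {k : ℕ} {a : X.A}

section abs
variable {U V W S : Type} [NormedAddCommGroup V] [InnerProductSpace ℝ V] [FiniteDimensional ℝ V]
  [NormedAddCommGroup U] [InnerProductSpace ℝ U] [FiniteDimensional ℝ U]
  [NormedAddCommGroup W] [InnerProductSpace ℝ W] [FiniteDimensional ℝ W]
  [NormedAddCommGroup S] [InnerProductSpace ℝ S] [FiniteDimensional ℝ S]
  {c : M → S →L[ℝ] S} {s : M → U →L[ℝ] U} {p : M → V →L[ℝ] V} {q : M → W →L[ℝ] W}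
  {c' : (X.P a).Y.M × ℝ → S →L[ℝ] S} {s' : (X.P a).Y.M × ℝ → U →L[ℝ] U}
  {p' : (X.P a).Y.M × ℝ → V →L[ℝ] V} {q' : (X.P a).Y.M × ℝ → W →L[ℝ] W}

theorem asy_of (hk : 4 ≤ k) (m1 : X.Mb a b p p') (m2 : X.Mb a b q q')
    (m3 : X.Mb a b (ps s (ps p q)) (ps s' (ps p' q')))
    {g₁ : 𝔉.F0.H (k + 1) c → 𝔉.F0.H k p} {g₂ : 𝔉.F0.H (k + 1) c → 𝔉.F0.H k q}
    {A₁ : _ →L[ℝ] _} {A₂ : _ →L[ℝ] _}
    {g₁' : (X.FZ a ((X.P a).O' R)).H (k + 1) c' → (X.FZ a ((X.P a).O' R)).H k p'}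
    {g₂' : (X.FZ a ((X.P a).O' R)).H (k + 1) c' → (X.FZ a ((X.P a).O' R)).H k q'}
    {A₁' : _ →L[ℝ] _} {A₂' : _ →L[ℝ] _}
    (d1 : HasFDerivAt g₁ A₁ 0) (d2 : HasFDerivAt g₂ A₂ 0) (d1' : HasFDerivAt g₁' A₁' 0)
    (d2' : HasFDerivAt g₂' A₂' 0) {L : 𝔉.F0.H (k + 1) c →L[ℝ] 𝔉.F0.H k (ps s (ps p q))}
    {L' : (X.FZ a ((X.P a).O' R)).H (k + 1) c' →L[ℝ]
      (X.FZ a ((X.P a).O' R)).H k (ps s' (ps p' q'))} {w : (M → S) → M → U}
    {w' : ((X.P a).Y.M × ℝ → S) → (X.P a).Y.M × ℝ → U}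
    (eL : ∀ (u : Sec I c) x, 𝔉.F0.val k _ (L (𝔉.F0.toH _ _ u)) x = i1 _ _ (w u x) +
      i2 _ _ (i1 _ _ (𝔉.F0.val k _ (A₁ (𝔉.F0.toH _ _ u)) x) +
        i2 _ _ (𝔉.F0.val k _ (A₂ (𝔉.F0.toH _ _ u)) x)))
    (eL' : ∀ (u : Sec _ c') x, (X.FZ a _).val k _ (L' ((X.FZ a _).toH _ _ u)) x = i1 _ _ (w' u x) +
      i2 _ _ (i1 _ _ ((X.FZ a _).val k _ (A₁' ((X.FZ a _).toH _ _ u)) x) +
        i2 _ _ ((X.FZ a _).val k _ (A₂' ((X.FZ a _).toH _ _ u)) x)))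
    (er : ∀ u u', ∀ z ∈ (X.P a).H b, (∀ᶠ y in 𝓝 z, u' y = u ((X.P a).K.ψ y)) →
      w' u' z = w u ((X.P a).K.ψ z)) {b₀ : ℝ}
    (H : ∀ l, b₀ ≤ l → ∀ η : ℝ≥0∞, 0 < η → ∃ a₀, ∀ (u : Sec I c) (u' : Sec _ c'),
      (∀ z, l < (X.P a).sg * z.2 → u'.1 z = u.1 ((X.P a).K.ψ z)) → ‖𝔉.F0.toH (k + 1) _ u‖ ≤ 1 →
      ‖(X.FZ a ((X.P a).O' R)).toH (k + 1) _ u'‖ ≤ 1 → ∃ v₁ v₂ v₁' v₂', Sm I v₁ ∧ Sm I v₂ ∧
      Sm (IC (X.P a).Y.I) v₁' ∧ Sm (IC (X.P a).Y.I) v₂' ∧ 𝔉.F0.val k _ (g₁ (𝔉.F0.toH _ _ u)) = v₁ ∧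
      𝔉.F0.val k _ (g₂ (𝔉.F0.toH _ _ u)) = v₂ ∧
      (X.FZ a _).val k _ (g₁' ((X.FZ a _).toH _ _ u')) = v₁' ∧
      (X.FZ a _).val k _ (g₂' ((X.FZ a _).toH _ _ u')) = v₂' ∧
      NE (X.P a).D δ (X.P a).sg a₀ k (fun z => v₁ ((X.P a).K.ψ z) - v₁' z) ≤ η ∧
      NE (X.P a).D δ (X.P a).sg a₀ k (fun z => v₂ ((X.P a).K.ψ z) - v₂' z) ≤ η) :
    X.Asy a ((X.P a).O' R) b L L' := fun b' ε hε => by
  obtain ⟨l, c1, c2, c3⟩ : ∃ c, b' ≤ c ∧ b₀ ≤ c ∧ b + 1 + 1 ≤ c :=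
    ⟨max b' (max b₀ (b + 1 + 1)), by simp, by simp, by simp⟩
  have c4 : b ≤ l := by linarith
  have o1 : ∀ z, l < (X.P a).sg * z.2 → (X.P a).θZ (b + 1) z = 1 := fun z hz =>
    hc_one (c3.trans hz.le)
  refine (small2 (X.okZ a R) (X.P a).sg_cases hk (S := {w | ∃ (u : Sec I c) (u' : Sec _ c'),
    (∀ z, l < (X.P a).sg * z.2 → u'.1 z = u.1 ((X.P a).K.ψ z)) ∧
      w = (𝔉.F0.toH (k + 1) _ u, (X.FZ a ((X.P a).O' R)).toH (k + 1) _ u')}) ?_ (b := l)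
    (((X.rs a _ b k p p').hasFDerivAt.comp 0 (d1.comp (0 : _ × _) hasFDerivAt_fst)).sub
      (d1'.comp (0 : _ × _) hasFDerivAt_snd))
    (((X.rs a _ b k q q').hasFDerivAt.comp 0 (d2.comp (0 : _ × _) hasFDerivAt_fst)).sub
      (d2'.comp (0 : _ × _) hasFDerivAt_snd)) (fun η η0 => ?_)
    (L := fun w => X.rs a _ b k _ _ (L w.1) - L' w.2) ?_ hε).mono
    fun c hc u u' hu => hc _ ⟨u, u', fun z hz => hu z (c1.trans_lt hz), rfl⟩
  · rintro _ ⟨u, u', hu, rfl⟩ s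
    exact ⟨s • u, s • u', fun z hz => congrArg (s • ·) (hu z hz),
      Prod.ext (LinearMap.map_smul _ s u).symm (LinearMap.map_smul _ s u').symm⟩
  · refine (H l c2 η η0).imp ?_
    rintro a₀ ha _ ⟨u, u', hu, rfl⟩ hn
    obtain ⟨_, _, _, _, s1, s2, s3, s4, rfl, rfl, rfl, rfl, n⟩ :=
      ha u u' hu ((le_max_left _ _).trans hn) ((le_max_right _ _).trans hn)
    simp only [Pi.sub_apply, comp_apply, val_sub, funext (m1.val_rs hk _), funext (m2.val_rs hk _)]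
    exact ⟨_, _, ((m1.ct ∅).sm s1).sub s3, ((m1.ct ∅).sm s2).sub s4, fun z hz => by
      simp only [o1 z hz, one_smul, and_self], n⟩
  · rintro _ ⟨u, u', hu, rfl⟩ z hz
    simp only [_root_.sub_apply, ContinuousLinearMap.comp_apply, val_sub, Pi.sub_apply, eL, eL',
      m1.val_rs hk, m2.val_rs hk, m3.val_rs hk, o1 z hz, one_smul, map_sub, map_add,
      ContinuousLinearMap.coe_fst', ContinuousLinearMap.coe_snd', er u u' z (c4.trans_lt hz)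
        (mem_of_superset (((X.P a).isOpen_H l).mem_nhds hz) hu)]
    abel

end abs

variable {o : Ref 𝔉} {r n m : ℕ} {e : T → PtX M (Option κ) lam r n m} {f : o.C r k → o.Y n m k}
  {y : Pnt o r} {h : (X.P a).D.Adm ((X.P a).sl o (R + 1) y.t)}
  {h0 : ∀ x ∉ (X.P a).O' R, ((X.P a).sl o (R + 1) y.t).Φ x.1 = 0}
  {eZ : PtX ((X.P a).Y.M × ℝ) (Option κ) lam 0 0 0}
  {fZ : (refZ T0 δ h h0).C 0 k → (refZ T0 δ h h0).Y 0 0 k}

set_option maxHeartbeats 2000000 in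
/-- **the linearisation is asymptotic to the linearisation on the cylinder** -/
theorem asy (hk : 7 ≤ k) (hl : X.Lit o R) (ha : X.Act a) (hb : R ≤ b) (h1 : 1 ≤ b) (re : o.Rp e)
    (hf : RepF e f) (rZ : (refZ T0 δ h h0).Rp fun _ => eZ) (hfZ : RepF (fun _ => eZ) fZ)
    (hL : (X.P a).Loc o k δ R e y.t h h0 eZ) (hα : HasCompactSupport y.α)
    (hφ : HasCompactSupport y.φ) :
    X.Asy a ((X.P a).O' R) b (TG k f (y.pt k) y.t (u0 o y.t)) (TZ fZ) := by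
  have hP := X.okP a
  have kZ := X.okZ a R
  have B := End.brel h h0 X.ok hP hl.le (hl.lit a) y.ht hb ha
  have hb' := hl.le.trans hb
  have src := (hP.ch_src hb').ge
  obtain ⟨b₀, hb₀⟩ := X.exists_ht (hα.union hφ)
  have k4 : 4 ≤ k := by omega
  have k3 : 3 ≤ k := by omega
  obtain ⟨A₁, A₂, d1, d2, eT⟩ := exists_D X.ok k4 hf y
  obtain ⟨A₁', A₂', d1', d2', eT'⟩ := exists_D kZ k4 hfZ (yZ δ h h0)
  obtain ⟨ρ, -, H⟩ := exists_pt X.ok k3 hf y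
  obtain ⟨ρ', -, H'⟩ := exists_pt kZ k3 hfZ (yZ δ h h0)
  refine asy_of k4 ⟨hb', h1, fun z hz => B.sm z (src hz)⟩
    ⟨hb', h1, fun z hz => B.p2 z (src hz)⟩ ⟨hb', h1, fun z hz => B.pF z (src hz)⟩ d1 d2 d1' d2'
    eT eT' (fun u u' z hz hu => B.row (X.isoS a hb' h1 ((X.P a).O' R) y.ht) (src hz)
      (End.u0_eq h h0 X.ok hP hl.le (hl.lit a) y.ht (hb.trans_lt hz)) hu) (b₀ := max b₀ R)
    fun l hl' η η0 => (hL l (max ρ ρ') ((le_max_right _ _).trans hl') η η0).imp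
      fun a₀ ha₀ u u' hu n n' => ?_
  obtain ⟨x, e0, e1, e2, e3, e4⟩ := H u n
  obtain ⟨x', -, e1', e2', e3', e4'⟩ := H' u' n'
  refine ⟨_, _, _, _, (sm_v X.ok re x).1, (sm_v X.ok re x).2, (sm_v kZ rZ x').1, (sm_v kZ rZ x').2,
    e2, e3, e2', e3', ha₀ x x' e0 (e1.trans (le_max_left _ _)) (e1'.trans (le_max_right _ _))
      fun z hz => ?_⟩
  have hz' := (le_max_right _ _).trans hl'
  have s := hb₀ a _ ((X.P a).U_mono ((le_max_left _ _).trans hl') (hP.ψ_mem (hl.le.trans hz') hz))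
  rw [(e4 _).1, (e4 _).2, (e4' _).1, (e4' _).2, ← hu z hz,
    image_eq_zero_of_notMem_tsupport fun e => s (.inl e),
    image_eq_zero_of_notMem_tsupport fun e => s (.inr e),
    ← End.SC_eq h h0 X.ok hP hl.le y.ht (hz'.trans_lt hz)]
  exact ⟨rfl, rfl⟩

end Ends

end Crest.Agent.X212.Nk89
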