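import Crest.Agent.X212.Nk89.Gwa
import Crest.Agent.X212.Sym93.Ker
import Crest.Agent.X212.Ixz30.Eqv

/-!
# Row 212, GL-WALL (helper89): the lower bound at smooth points, and its gauge invariance
-/

set_option autoImplicit false
set_option linter.unusedSectionVars false
noncomputable section
open scoped Manifold ContDiff Topology InnerProductSpace
open MeasureTheory Set Function Filter

namespace Crest.Agent.X212.Nk89
open An Mod61 Eqv71 Hol14 Cnt93 Ker54 Sym93 Map77 Ixz30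
open Fred93 (Fr)

variable {E : Type} [NormedAddCommGroup E] [NormedSpace ℝ E] [FiniteDimensional ℝ E]
  [MeasurableSpace E] [BorelSpace E]
  {HM : Type} [TopologicalSpace HM] {I : ModelWithCorners ℝ E HM} [I.Boundaryless]
  {M : Type} [TopologicalSpace M] [ChartedSpace HM M] [IsManifold I ∞ M]
  [MeasurableSpace M] [T2Space M] [BorelSpace M] [SecondCountableTopology M]
  {ι : Type} [Fintype ι] {lam : Type} [Fintype lam]
  {T : Type} [NormedAddCommGroup T] [NormedSpace ℝ T] [FiniteDimensional ℝ T]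
  {𝔉 : Fam I M ι lam T} {o o' : Ref 𝔉} {r n m : ℕ} (k : ℕ) {hh : Type} [Fintype hh]
  {κ : hh → Cut M lam} (e : T → PtX M ι lam r n m) (σ : ∀ i, T → Pc r 𝔉.B (κ i))

/-- the lower bound at smooth points near `(x, ψ)` -/
structure LowP (x : Pnt o r) (ψ : ∀ i, HH o (κ i)) : Prop where
  ex : ∀ y : Pnt o r, ∃ v : o.Y n m k, RepE e y v
  le : ∀ c ≥ (0 : ℝ), ∃ K ≥ (0 : ℝ), ∃ ρ > (0 : ℝ), ∀ (y : Pnt o r) (χ : ∀ i, HH o (κ i))
    (v : o.Y n m k), RepE e y v → ‖(y.pt k - x.pt k, χ - ψ)‖ ≤ ρ → ∀ β ≥ (0 : ℝ),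
    ‖(sig (Fs 𝔉) k x (y.pt k - x.pt k), fun i => ⟪JC o (κ i) (ψ i), χ i - ψ i⟫_ℝ)‖ ≤
      β + c * ‖y.t - x.t‖ →
    ‖(y.pt k - x.pt k, χ - ψ)‖ ≤
      K * (‖(v, fun i => evC (σ i) y (χ i), fun i => ‖χ i‖ ^ 2 - 1)‖ + β)

variable {k e σ} (h : 𝔉.OK) (hs : ∀ i, (κ i).supp ⊆ 𝔉.Om) (hk : 7 ≤ k)
  (ne : 𝔉.Nat e)
include h hs hk ne

theorem low_fmt (hy : Hdy 𝔉.F0) {f : o.C r k → o.Y n m k}
    {A : ∀ i, o.C r k → CL (HH o (κ i)) (HH o (κ i))} (rf : RepF e f)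
    (rA : ∀ i, RepC o k (σ i) (A i)) (nσ : ∀ i, NatC o o (fun _ _ => True) (σ i))
    {y : Pnt o r} {ψ : ∀ i, HH o (κ i)} (z : ZX e (fun i => σ i) y ψ) (fre : y.Free (AlE o)) {d : ℤ}
    (hI : Idx k e y d)
    (hd : d + 2 * r + Module.finrank ℝ T - 2 * n - m = 2 * Fintype.card hh)
    (fr : ∀ i, Fr (evC (σ i) y) 0)
    (hr : Surjective (fderiv ℝ (bigF f A) (y.pt k, ψ))) : LowP k e σ y ψ := by
  have k3 : 3 ≤ k := by omega
  have k4 : 4 ≤ k := by omega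
  have x0 : ∀ i, (κ i).x0 ∈ 𝔉.Om := fun i => hs i ⟨(0, 0), rfl⟩
  let Γ := Gb54.gmE o h hk r hy
  have hfr := (Γ.free_iff h k3).2 fre
  have bij := (adj_rem h).sig_bij_hdy k3 (hdy_rem h hy y.ht) (Gb54.isD h hk y)
    (Gb54.d_inj h hk hfr)
  obtain ⟨D, s, -, e2, -⟩ := Gb54.gm1_slice o h hk r hy _ _ _ hfr (Γ.proper y y) _ bij
  have JJ := fun i => JH_JH (cpC h o (x := (κ i).x0))
  have hU := (Mod61.isOpen_U h).mem_nhds (y.mem_U (k := k))
  let R : ∀ i, Γ.G → CL (HH o (κ i)) (HH o (κ i)) := fun i g => rC o o (κ i) (Γ.u g (κ i).x0)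
  suffices L : LowAt (bigF f A) ((sig (Fs 𝔉) k y ∘L .fst ℝ _ _).prod
      (phR fun i => JC o (κ i) (ψ i))) (((ContinuousLinearMap.snd ℝ _ T) ∘L (.snd ℝ _ _) ∘L
        .snd ℝ _ _) ∘L .fst ℝ _ _) (y.pt k, ψ) by
    refine ⟨fun y => ⟨_, rf.2 y⟩, fun c hc => ?_⟩
    obtain ⟨K, K0, hK⟩ := L c hc
    obtain ⟨ρ, ρ0, hρ⟩ := Metric.eventually_nhds_iff.1 hK
    refine ⟨K, K0, ρ / 2, half_pos ρ0, fun y' χ v hv a β β0 b => ?_⟩
    obtain rfl := hv.unique h k4 (rf.2 y')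
    have := hρ (y := (y'.pt k, χ)) (by rw [dist_eq_norm]; exact a.trans_lt (half_lt_self ρ0)) β β0 b
    simpa only [bigF, (rA _).2, Prod.mk_sub_mk] using this
  refine low_big (J := fun i => JC o (κ i)) (d := D.d) (g := fun ξ => D.e ξ • y.pt k)
    (ρ := fun i ξ => R i (D.e ξ) (ψ i))
    (fun i v => by rw [JH_skew (cpC h o), JJ, inner_neg_right, neg_neg])
    (fun i v => by
      have := JH_skew (cpC h o (x := (κ i).x0)) v v
      rw [real_inner_comm] at this; linarith)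
    ((rf.1.contDiffAt hU).differentiableAt (by simp))
    (fun i => ((rA i).1.contDiffAt hU).differentiableAt (by simp))
    (fun i v => (rA i).J h (hs i) k3 trivial (nσ i) y.mem_U v) (e2 ▸ bij.2)
    (fun ξ => e2 ▸ congrArg Prod.snd ((Gb54.isD h hk y).z ξ)) (orbit_der D).hasFDerivAt
    (by rw [D.e_zero, one_smul]) (fun i => ?_) (fun i => ?_) (fun a => ?_)
    (hd ▸ hI.slc h k4 rf) (fun i => (rA i).2 y ▸ fr i) hr
  · obtain ⟨s, hs⟩ := s.du (κ i).x0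
    exact ((rHL o.m.J (o.m.pp 𝔉.B (κ i).x0)).differentiableAt.comp 0
      hs.hasFDerivAt.differentiableAt).clm_apply (differentiableAt_const _)
  · show R i (D.e 0) (ψ i) = ψ i
    rw [D.e_zero]
    exact (congrArg (rC _ _ (κ i) · _) (Γ.u_one (x0 i))).trans (rC_p h _)
  · refine Prod.ext ?_ (Prod.ext (funext fun i => ?_) (funext fun i => ?_))
    · show f (D.e a • y.pt k) = 0
      refine (Γ.equivar h k4 (ne.natP h _ _ _) rf _ y.mem_U).trans ?_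
      rw [((rf.2 y).zero_iff h k4).2 z.1, map_zero]
    · show A i (D.e a • y.pt k) (R i _ (ψ i)) = 0
      refine ((rA i).act h (hs i) k3 Γ (fun y y' w ζ t _ => nσ i y y' w ζ t trivial) _ y.mem_U
        _).trans ?_
      rw [(rA i).2, (z.2 i).2, map_zero]
    · show ‖R i _ (ψ i)‖ ^ 2 - 1 = 0
      rw [norm_rC h (Γ.mx _ (x0 i)), (z.2 i).1, one_pow, sub_self]

omit hs ne in
theorem repE_act {w : M → CL o.m.V o'.m.V} {c : Circle} {A : o.Y n m k →L[ℝ] o'.Y n m k}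
    (a : ActY A w c) (hn : NatP o o' (fun _ _ => True) e) {y : Pnt o r} {y' : Pnt o' r}
    (ht : y'.t = y.t) (b : y.Eq y' w c) {v : o.Y n m k} (hv : RepE e y v) : RepE e y' (A v) := by
  obtain ⟨h1, h2, h3, h4⟩ := hn y y' w c ht trivial b
  refine ⟨funext fun x => ?_, funext fun x => ?_, ?_, ?_⟩
  · rw [a.D, hv.D]
    by_cases hx : x ∈ 𝔉.Om'
    · rw [indicator_of_mem hx, indicator_of_mem hx]; exact (h1 x hx).symm
    · rw [indicator_of_notMem hx, indicator_of_notMem hx]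
      exact (congrArg _ (map_zero (w x))).trans (cs_zero _ _)
  · ext1 s
    rw [a.C, hv.C]
    by_cases hx : x ∈ 𝔉.Om
    · rw [indicator_of_mem hx, indicator_of_mem hx]; exact (h2 x hx s).symm
    · rw [indicator_of_notMem hx, indicator_of_notMem hx]
      exact map_zero (cj (w x))
  · rw [a.S, hv.S]; exact (funext h3).symm
  · rw [a.S, hv.R]; exact h4.symm

omit h hs hk ne in
theorem pair_le {X Y P P' : Type} [NormedAddCommGroup X] [NormedSpace ℝ X] [NormedAddCommGroup Y]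
    [NormedSpace ℝ Y] [NormedAddCommGroup P] [NormedAddCommGroup P'] {L : X →L[ℝ] Y} {C : ℝ}
    (hL : ‖L‖ ≤ C) (h1 : 1 ≤ C) (u : X) {p : P} {p' : P'} (hp : ‖p'‖ ≤ ‖p‖) :
    ‖(L u, p')‖ ≤ C * ‖(u, p)‖ :=
  max_le ((L.le_opNorm u).trans (mul_le_mul hL (norm_fst_le (u, p)) (norm_nonneg _) (by linarith)))
    ((hp.trans (norm_snd_le (u, p))).trans (le_mul_of_one_le_left (norm_nonneg _) h1))

/-- **gauge invariance** -/
theorem LowP.tr [o.B0] [o'.B0] {x : Pnt o r} {x' : Pnt o' r} {w : M → CL o'.m.V o.m.V} {ζ : Circle}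
    (ht : x.t = x'.t) (a : x'.Eq x w ζ) {ψ : ∀ i, HH o (κ i)} {ψ' : ∀ i, HH o' (κ i)}
    (hψ : ∀ i, (κ i).Eqv (κ i) 𝔉.B 𝔉.B w (ψ' i) (ψ i))
    (nσ : ∀ i, NatC o' o (fun _ _ => True) (σ i)) (L : LowP k e σ x ψ) : LowP k e σ x' ψ' := by
  have k3 : 3 ≤ k := by omega
  have k4 : 4 ≤ k := by omega
  have mi := a.mi h ht
  have mi' := mi.symm h
  have me : ∀ i, MX o' o (κ i).x0 (w (κ i).x0) := fun i => mi.me _ (hs i ⟨(0, 0), rfl⟩)
  choose η hη using fun i => (eqvC_iff h (hs i) ht a).1 (hψ i)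
  have ac := mi.actC h (r := r) k3 ζ
  refine ⟨fun y' => ?_, fun c hc => ?_⟩
  · obtain ⟨y, t, b, -⟩ := a.tr h ht mv_B0 y'
    obtain ⟨v, hv⟩ := L.ex y
    exact ⟨_, repE_act h hk (mi'.actY h k4 ζ⁻¹) (ne.natP h _ _ _) t.symm (b.symm h t) hv⟩
  let A := Mod61.LC (o := o') (o' := o) r k w ζ
  let A' := Mod61.LC (o := o) (o' := o') r k (fun x => trn (w x)) ζ⁻¹
  let G := 𝔉.F0.mulH k o'.Pg o.Pg (aG w)
  let Y := Mod61.LY (o := o') (o' := o) n m k w ζ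
  obtain ⟨C, c1, c2, c3, c4, c5⟩ : ∃ C, 1 ≤ C ∧ ‖A‖ ≤ C ∧ ‖A'‖ ≤ C ∧ ‖G‖ ≤ C ∧ ‖Y‖ ≤ C :=
    ⟨max 1 (max ‖A‖ (max ‖A'‖ (max ‖G‖ ‖Y‖))), by simp, by simp, by simp, by simp, by simp⟩
  have C0 : 0 < C := one_pos.trans_le c1
  obtain ⟨K, K0, ρ, ρ0, hK⟩ := L.le (C * c) (by positivity)
  refine ⟨C * (K * C), by positivity, ρ / C, by positivity, fun y' χ' v' hv a1 β β0 a2 => ?_⟩
  obtain ⟨y, t, b, p⟩ := a.tr h ht mv_B0 y'
  have p1 : y.pt k - x.pt k = A (y'.pt k - x'.pt k) := by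
    rw [p k k3 _ ac, add_sub_cancel_left]
  have p2 : (fun i => RI h (me i) (η i) (χ' i)) - ψ = fun i => RI h (me i) (η i) (χ' i - ψ' i) :=
    funext fun i => by rw [map_sub, Pi.sub_apply, hη i]; rfl
  have p3 : ‖fun i => RI h (me i) (η i) (χ' i - ψ' i)‖ = ‖χ' - ψ'‖ := by
    simp only [Pi.norm_def, LinearIsometryEquiv.nnnorm_map, Pi.sub_apply]
  have p4 : sig (Fs 𝔉) k x (A (y'.pt k - x'.pt k)) = G (sig (Fs 𝔉) k x' (y'.pt k - x'.pt k)) := by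
    have e4 := DFunLike.congr_fun (row_nat h a ht (k := k)) (sC o' r k x'.t (y'.pt k - x'.pt k))
    rw [ContinuousLinearMap.comp_apply, ← sC_nat h mi ζ k3 x'.ht] at e4
    exact (congrArg (fun t => (bd o).RR 𝔉.F0.toPre (Fs 𝔉 t) k (uy x)
      (sC o r k t (A (y'.pt k - x'.pt k)))) ht).trans e4
  have p5 : ∀ i, ⟪JC o (κ i) (ψ i), RI h (me i) (η i) (χ' i) - ψ i⟫_ℝ =
      ⟪JC o' (κ i) (ψ' i), χ' i - ψ' i⟫_ℝ := fun i => by
    rw [show RI h (me i) (η i) (χ' i) - ψ i = _ from congrFun p2 i,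
      ← (RI h (me i) (η i)).inner_map_map (JC _ _ _), hη i, RI_apply _ _ _ (JC _ _ _),
      (itC h (me i)).rH_JH, phz_comm (fun _ => rfl)]
  have p6 : ∀ i, evC (σ i) y (RI h (me i) (η i) (χ' i)) = RI h (me i) (η i) (evC (σ i) y' (χ' i)) :=
    fun i => by
      have := nσ i y' y w ζ t trivial b (η i) (χ' i)
      rwa [Rh_eq h (me i), Rh_eq h (me i)] at this
  have q := hK y (fun i => RI h (me i) (η i) (χ' i)) _
    (repE_act h hk (mi.actY h k4 ζ) (ne.natP h _ _ _) t b hv) (by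
      rw [p1, p2]
      exact (pair_le c2 c1 _ p3.le).trans ((mul_le_mul_of_nonneg_left a1 C0.le).trans_eq
        (by field_simp))) (C * β) (by positivity) (by
      rw [p1, p4, funext p5, t, ht, mul_assoc, ← mul_add]
      exact (pair_le c4 c1 _ le_rfl).trans (mul_le_mul_of_nonneg_left a2 C0.le))
  have q1 := pair_le (p' := χ' - ψ') c3 c1 (A (y'.pt k - x'.pt k)) p3.ge
  rw [ac.inv h k3 (mi'.actC h k3 ζ⁻¹) mi.me fun _ _ => rfl, ← p1, ← p2] at q1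
  have q2 := pair_le (p := (fun i => evC (σ i) y' (χ' i), fun i => ‖χ' i‖ ^ 2 - 1))
    (p' := (fun i => evC (σ i) y (RI h (me i) (η i) (χ' i)),
      fun i => ‖RI h (me i) (η i) (χ' i)‖ ^ 2 - 1)) c5 c1 v' (by
    simp only [p6, Prod.norm_def, Pi.norm_def, LinearIsometryEquiv.nnnorm_map,
      LinearIsometryEquiv.norm_map, le_refl])
  refine q1.trans ((mul_le_mul_of_nonneg_left (q.trans (mul_le_mul_of_nonneg_left
    (add_le_add_left q2 _) K0)) C0.le).trans_eq (by ring))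

end Crest.Agent.X212.Nk89
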