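import Crest.Agent.X212.Loc8.Zn
import Crest.Agent.X212.Zn74.Brg

/-!
# Row 212, GL-WALL-PSC: the leaf `ZnL` (plug of `Loc8.zn` and `Zn74.zl_of`)
-/

set_option autoImplicit false
set_option linter.unusedSectionVars false
noncomputable section
open scoped Manifold ContDiff Topology InnerProductSpace
open MeasureTheory Set Function Filter Real

namespace Crest.Agent.X212.Nk89.Zn
open An An.Pre Map77 Sob92 Nd18 Cyf70 Dec35 Hm83 Iz83
open Rf65 (kk)
open Wal14 (ZP drP)
open Loc8 (ZL)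

section cyl
variable {E3 : Type} [NormedAddCommGroup E3] [NormedSpace ℝ E3] [FiniteDimensional ℝ E3]
  [MeasurableSpace E3] [BorelSpace E3]
  {H3 : Type} [TopologicalSpace H3] {I3 : ModelWithCorners ℝ E3 H3} [I3.Boundaryless]
  {Y : Type} [TopologicalSpace Y] [ChartedSpace H3 Y] [IsManifold I3 ∞ Y] [T2Space Y]
  [MeasurableSpace Y] [BorelSpace Y] [SecondCountableTopology Y] [CompactSpace Y]
  {κ : Type} [Fintype κ] {lam : Type} [Fintype lam] {D : YD I3 Y κ lam} {β : YC Y κ lam}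
  {V : Type} [Fintype V] [DecidableEq V] {δ η : ℝ} {ν : V → κ → Y → ℝ} {ξ : Y → β.m.A}

theorem zl_W {W' : Option κ → Y → CL β.m.V β.m.V} (e : W' = β.W) (hβ : Rdc90.Bs D β)
    (h : ZP D β δ η ν ξ)
    (hm : Continuous fun z : Y × ℝ => (.pi fun i => bm z.2 • innerSL ℝ (kk ν (some i) ξ z) :
      CL (Cv (cy β)) (V → ℝ))) :
    ZL D { β with W := W' } δ (drP κ Y η δ)
      fun z => .pi fun i => bm z.2 • innerSL ℝ (kk ν (some i) ξ z) := by
  subst e
  exact Zn74.zl_of hβ h hm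

end cyl

open An.Job M Gj67

variable {κ lam : Type} [Fintype κ] [Fintype lam]
  {Wi : Type} {X : Mf 4} {A : Type} [Fintype A]
  [DecidableEq lam] {M : Mark X A κ} {W : World M} {L : ML M lam} {Λ : Lns W L}
  {A' h : Type} [Fintype A'] [DecidableEq A'] [Fintype h] {r n : ℕ}

/-- **LEAF ZN** -/
theorem znL (J : Job Wi Λ A' h r n) : Wal14.ZnL J := by
  intro σ a V _ _ d q₀ δ η ν ξ bS d₀ P H Z
  have e : ((Wal14.rows d δ η ν ξ bS d₀).β 0).W = (d.β 0).W := funext₂ fun i y =>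
    congrArg (fun v : Fm _ (HS (Fin d.N)) => d.AZ i y + opL (v i))
      ((map_zero (Wal14.bV d ν ξ y)).trans (map_zero (d.bZ y)).symm)
  have z := zl_W (D := d.D) (β := d.β 0) e P.bs Z (H.okZ 0).mo.1.continuous
  exact Loc8.zn H P.nil rfl z

end Crest.Agent.X212.Nk89.Zn
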