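import Crest.Agent.X212.Nk89.Gwb
import Crest.Agent.X212.Nk89.Dic
import Crest.Agent.X212.Gl67.Brg
import Crest.Agent.X212.Met55.Fam

/-!
# Row 212, GL-WALL (helper89): change of the base background; a side as a reference of a chart
-/

set_option autoImplicit false
set_option linter.unusedSectionVars false
noncomputable section
open scoped Manifold ContDiff Topology InnerProductSpace ENNReal NNReal
open MeasureTheory Set Function Filter

namespace Crest.Agent.X212.Nk89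
open An Mod61 Map77 Met55 Prm93 Sob92 Spn45
open Wz78 (glc gfrm gsep)
open Gl67 (Sid Cm Eqn PP g0 q2)

variable {E : Type} [NormedAddCommGroup E] [NormedSpace ℝ E] [FiniteDimensional ℝ E]
  [MeasurableSpace E] [BorelSpace E]
  {HM : Type} [TopologicalSpace HM] {I : ModelWithCorners ℝ E HM}
  {M : Type} [TopologicalSpace M] [ChartedSpace HM M] [IsManifold I ∞ M]
  [MeasurableSpace M] {ι : Type} [Fintype ι] {lam : Type} [Fintype lam]

section coc
variable (F₁ F₂ F₃ : An.Fr I M ι) (B : Base M ι lam) (m : Md M ι lam) (G₁ G₂ G₃ : Geo I M ι lam)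
  (x : M) (a b k : ι)

theorem trS_coc : ∑ c, trS F₂ F₃ x a c * trS F₁ F₂ x c b = trS F₁ F₃ x a b := by
  have h : fM F₁.e F₂.e x * fM F₂.e F₃.e x = fM F₁.e F₃.e x := by
    rw [fM, fM, tm, tm, Matrix.mul_assoc, ← Matrix.mul_assoc (fm _ _), (pre_sp F₂.toPre x).fm_ri,
      Matrix.one_mul]; rfl
  simp only [trS_eq, mul_comm (fM F₂.e _ _ _ _)]
  rw [← h]; rfl

theorem cfS_coc : ∑ c, trS F₂ F₃ x a c * cfS F₁ F₂ x c b k + cfS F₂ F₃ x a b k =
    cfS F₁ F₃ x a b k := by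
  simp only [cfS, dG, ← trS_coc F₁ F₂ F₃, Finset.sum_mul, mul_sub, Finset.mul_sum,
    Finset.sum_sub_distrib]
  rw [Finset.sum_comm (f := fun l c => 1 / 4 * (trS F₂ F₃ x a c * trS F₁ F₂ x c l * F₁.Gam l b k x))]
  simp only [mul_left_comm (trS F₂ F₃ x a _) (1 / 4 : ℝ), mul_assoc]
  ring

theorem laS_coc : ∑ c, trS G₂.F G₃.F x a c * laS B G₁ G₂ x c + laS B G₂ G₃ x a =
    laS B G₁ G₃ x a := by
  have : dA G₁ G₃ a x = ∑ c, trS G₂.F G₃.F x a c • dA G₁ G₂ c x + dA G₂ G₃ a x := by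
    simp only [dA, ← trS_coc G₁.F G₂.F G₃.F, Finset.sum_smul, smul_sub, Finset.smul_sum, smul_smul,
      Finset.sum_sub_distrib]
    rw [Finset.sum_comm]; abel
  simp only [laS, this, mul_add, add_mul, Finset.mul_sum, Finset.sum_mul, map_add, map_sum,
    mul_smul_comm, smul_mul_assoc, map_smul, smul_eq_mul, mul_left_comm (trS G₂.F G₃.F x a _)]

/-- change of the background of a connection -/
def chA (A : m.Cn) : m.Cn := fun a x => ∑ b, trS G₁.F G₂.F x a b • A b x +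
  ∑ b, ∑ k, cfS G₁.F G₂.F x a b k • (m.ρ b x * m.ρ k x) + laS B G₁ G₂ x a • (m.J * m.p x)

theorem chA_coc (A : m.Cn) : chA B m G₂ G₃ (chA B m G₁ G₂ A) = chA B m G₁ G₃ A := by
  funext a x
  simp only [chA, ← trS_coc G₁.F G₂.F G₃.F, ← cfS_coc G₁.F G₂.F G₃.F, ← laS_coc B G₁ G₂ G₃ x a,
    smul_add, Finset.smul_sum, smul_smul, add_smul, Finset.sum_smul, Finset.sum_add_distrib]
  rw [Finset.sum_comm (f := fun b c => (trS G₂.F G₃.F x a b * trS G₁.F G₂.F x b c) • A c x),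
    Finset.sum_comm (f := fun l b => ∑ k, (trS G₂.F G₃.F x a l * cfS G₁.F G₂.F x l b k) • _),
    Finset.sum_congr rfl fun b _ => Finset.sum_comm (f := fun l k =>
      (trS G₂.F G₃.F x a l * cfS G₁.F G₂.F x l b k) • (m.ρ b x * m.ρ k x))]
  abel

variable {B m G₁} (hG : G₁.OK B)
include hG

theorem cfS_self : cfS G₁.F G₁.F x a b k = 0 := by
  simp only [cfS, dG, trS_self, hG.P, (glc hG).proj1 (gfrm hG) (gsep hG), sub_self, mul_zero]

theorem laS_self : laS B G₁ G₁ x a = 0 := by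
  simp only [laS, dA, trS_self, hG.P, hG.con.proj, sub_self, mul_zero, zero_mul, map_zero]

theorem chA_self {A : m.Cn} (C : m.IsConn B G₁ A) : chA B m G₁ G₁ A = A := by
  funext a x
  simp only [chA, cfS_self _ _ _ _ hG, laS_self _ _ hG, trS_self, hG.P, C.cc.proj, zero_smul,
    Finset.sum_const_zero, add_zero]

end coc

variable [I.Boundaryless] [T2Space M] [BorelSpace M] [SecondCountableTopology M]

section nrm
variable {V : Type} [NormedAddCommGroup V] [InnerProductSpace ℝ V] [CompleteSpace V]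
  {F₁ : Pre I M ι} {F F' : An.Fr I M ι} {g : M → ℝ} {k : ℕ}

theorem val_chg' (hc : Cmp F.toPre F'.toPre) {S S' : ℝ} (s : Sup F.toPre S) (s' : Sup F'.toPre S')
    (hk : 4 ≤ k) {p : M → V →L[ℝ] V} (u : F.H k p) : F'.val k p (chg k p hc u) = F.val k p u :=
  funext fun x => H_eq (f := fun u => F'.ev k p x (chg k p hc u)) (g := fun u => F.ev k p x u)
    (by fun_prop) (by fun_prop) (fun u => by
      rw [chg_toH]
      exact (congrFun (val_toH s' hk u) x).trans (congrFun (val_toH s hk u) x).symm) u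

theorem q2_clm {X Y : Type} [NormedAddCommGroup X] [NormedSpace ℝ X] [NormedAddCommGroup Y]
    [NormedSpace ℝ Y] (L : X →L[ℝ] Y) (u : X) : q2 (L u) ≤ (‖L‖₊ ^ 2 : ℝ≥0) * q2 u := by
  rw [q2, q2, ← ENNReal.ofReal_coe_nnreal, ← ENNReal.ofReal_mul (NNReal.coe_nonneg _)]
  refine ENNReal.ofReal_le_ofReal ?_
  rw [NNReal.coe_pow, ← mul_pow]
  exact pow_le_pow_left₀ (norm_nonneg _) (L.le_opNorm u) 2

/-- the weighted local norm and the norm of a comparable scale -/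
theorem q2_N (w : WtP F₁ F.toPre g) (hc : Cmp F.toPre F'.toPre) {S S' : ℝ} (s : Sup F.toPre S)
    (s' : Sup F'.toPre S') (hk : 4 ≤ k) (p : M → V →L[ℝ] V) : ∃ C : ℝ≥0, ∀ h : F'.H k p,
      Sm I (F'.val k p h) → q2 h ≤ C * Gl67.N F₁ g univ k (F'.val k p h) ∧
        Gl67.N F₁ g univ k (F'.val k p h) ≤ C * q2 h := by
  refine ⟨‖(chg k p hc : F.H k p →L[ℝ] F'.H k p)‖₊ ^ 2 +
    ‖((chg k p hc).symm : F'.H k p →L[ℝ] F.H k p)‖₊ ^ 2, fun h hs => ?_⟩
  obtain ⟨h, rfl⟩ := (chg k p hc).surjective h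
  rw [val_chg' hc s s' hk] at hs ⊢
  have a := Is.FL_norm k (Is.val s hk h) hs
  rw [Gl67.N_eq w a.1, ← nrm_sq, ← a.2]
  refine ⟨(q2_clm (chg k p hc : F.H k p →L[ℝ] F'.H k p) h).trans (by gcongr; exacts [le_self_add,
    le_rfl]), ?_⟩
  have := q2_clm ((chg k p hc).symm : F'.H k p →L[ℝ] F.H k p) (chg k p hc h)
  rw [ContinuousLinearEquiv.coe_coe, ContinuousLinearEquiv.symm_apply_apply] at this
  exact this.trans (by gcongr; exact le_add_self)

end nrm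

/-- the drift of the adjoint of the infinitesimal action -/
theorem adj_rem_d0 {κ : Type} [Fintype κ] [DecidableEq κ] {d : Bd M ι κ} (h : d.OK)
    (G : An.Fr I M ι) (F : Pre I M ι) (u w : M → Cf ι κ) (x : M) (hw : d.pC x (w x) = w x) :
    ((d.d0 (rem G F) u).adj (rem G F)).app (rem G F) w x = ((d.d0 G u).adj G).app G w x +
      ∑ a, ((rem G F).dv a x - G.dv a x) • d.g x (fa (w x) a) := by
  have e : ∀ a, Op.tr ((d.d0 G u).σ a x) (w x) = -fa (w x) a := fun a => by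
    refine ext_inner_left ℝ fun v => ?_
    rw [Ell97.inner_tr, inner_neg_right]
    show ⟪d.pC x (σ0 (d.Px x) a (d.g x v)), w x⟫_ℝ = _
    rw [h.prjC.symm, hw, σ0, inner2]
    simp only [neg_apply, ContinuousLinearMap.comp_apply, map_neg, f2_i1, s2_i1, neg_zero,
      inner_zero_left, add_zero, inner_neg_left]
    rw [h.inner_ea, show d.p1 x (f2 _ _ (w x)) = f2 _ _ (w x) from
      (f2_ps x _).symm.trans (congrArg _ hw)]
  show ∑ a, (-Op.tr ((d.d0 G u).σ a x)) (G.D a w x) + d.g x ((Op.tr ((d.d0 G u).B x) -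
      ∑ a, (G.D a (fun y => Op.tr ((d.d0 G u).σ a y)) x +
        (rem G F).dv a x • Op.tr ((d.d0 G u).σ a x))) (w x)) =
    ∑ a, (-Op.tr ((d.d0 G u).σ a x)) (G.D a w x) + d.g x ((Op.tr ((d.d0 G u).B x) -
      ∑ a, (G.D a (fun y => Op.tr ((d.d0 G u).σ a y)) x +
        G.dv a x • Op.tr ((d.d0 G u).σ a x))) (w x)) + _
  simp only [sub_apply, _root_.sum_apply, add_apply, smul_apply, e, map_sub, map_sum, map_add,
    map_smul, map_neg, smul_neg, Finset.sum_add_distrib, sub_smul, Finset.sum_sub_distrib,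
    Finset.sum_neg_distrib]
  abel

/-! ### a side as a reference -/

variable {T T' U Up R h : Type} [NormedAddCommGroup T] [NormedSpace ℝ T] [NormedAddCommGroup T']
  [NormedSpace ℝ T'] [NormedAddCommGroup U] [NormedSpace ℝ U] [NormedAddCommGroup Up]
  [NormedSpace ℝ Up] [NormedAddCommGroup R] [NormedSpace ℝ R] [Fintype h] {N r : ℕ}
  {Jc : En (Fin N)} {B : Base M ι lam} {F0 : An.Fr I M ι} {G0 : Geo I M ι lam}
  {H : T' → Geo I M ι lam} {Q' : Set T'} {t₀ : T'} {θ : T →L[ℝ] T'} {Q : Set T} {δ : ℝ}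

variable (B F0 G0 H Q') in
/-- the family of the chart -/
abbrev fC : Fam I M ι lam T' := fam B F0 G0 H Q' univ univ

variable (B H t₀ θ Q) in
/-- the family of the side -/
abbrev fS : Fam I M ι lam T := fam B (H t₀).F (H t₀) (fun t => H (t₀ + θ t)) Q univ univ

variable (F0 G0 Q' δ) in
/-- the hypotheses -/
structure Ch (s : Sid (fS B H t₀ θ Q) N Jc U Up R) : Prop where
  ok : s.OK
  fc : (fC B F0 G0 H Q').OK
  t0 : t₀ ∈ Q'
  cmp : Cmp (s.Fw δ).toPre F0.toPre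
  b : s.b = 0

namespace Ch
variable {s : Sid (fS B H t₀ θ Q) N Jc U Up R} (K : Ch F0 G0 Q' δ s)
include K

theorem cb {X : Type} [NormedAddCommGroup X] [NormedSpace ℝ X] {f : M → X} (hf : (H t₀).F.Cb f) :
    F0.Cb f := K.cmp.Cb_iff.1 ((Gl67.Sid.wtP (s := s) (δ := δ)).Cb.2 hf)

/-- the reference -/
@[reducible] def o : Ref (fC B F0 G0 H Q') where
  m := s.md
  A0 := chA B s.md (H t₀) G0 s.A0
  Φ0 := s.Φ0
  ok := K.ok.ok
  conn := isConn_chg K.fc.B (K.fc.G _ K.t0) K.fc.G0 K.ok.ok K.ok.conn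
  cp := K.cb K.ok.cp
  cρ a := K.cb (K.ok.cρ a)
  cj := K.cb K.ok.cj
  cA a := by
    have S := fun a b => (K.fc.sSi a b).cb _ K.t0
    have c1 : ∀ b k, F0.Cb fun x => cfS (H t₀).F G0.F x a b k := fun b k => by
      rw [funext fun x => eq_neg_of_add_eq_zero_right ((cfS_coc G0.F (H t₀).F G0.F x a b k).trans
        (cfS_self x a b k K.fc.G0))]
      exact Cb_neg (Cb_sum Finset.univ fun c _ => Cb_smul (S a c) ((K.fc.scf c b k).cb _ K.t0))
    have c2 : F0.Cb fun x => laS B (H t₀) G0 x a := by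
      rw [funext fun x => eq_neg_of_add_eq_zero_right ((laS_coc B G0 (H t₀) G0 x a).trans
        (laS_self x a K.fc.G0))]
      exact Cb_neg (Cb_sum Finset.univ fun c _ => Cb_smul (S a c) ((K.fc.sla c).cb _ K.t0))
    exact Cb_add (Cb_add (Cb_sum _ fun b _ => Cb_smul (S a b) (K.cb (K.ok.cA b)))
      (Cb_sum _ fun b _ => Cb_sum _ fun k _ => Cb_smul (c1 b k)
        (Cb_comp (K.cb (K.ok.cρ b)) (K.cb (K.ok.cρ k)))))
      (Cb_smul c2 (Cb_comp (Cb_const _) (K.cb K.ok.cp)))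
  cΦ := K.cb K.ok.cΦ
  pos x := by rw [show (fC B F0 G0 H Q').Om' = univ from rfl, indicator_univ]; exact K.ok.pos x

instance : K.o.B0 := ⟨rfl⟩

/-- the section in the coordinates of the chart -/
def sc (w : Sec I s.bd.pC) : Sec I (bd K.o).pC := ⟨_, RepT_mem (rep_SH' (k := 0) K.o K.fc K.t0) w⟩

/-- the point of `(w, z, t)` -/
def pt (w : Sec I s.bd.pC) (z : EuclideanSpace ℂ (Fin r)) {t : T'} (ht : t ∈ Q') : Pnt K.o r :=
  ⟨fun x => fa ((K.sc w).1 x), fun x => fp ((K.sc w).1 x), z, t,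
    Hs_sec K.fc.sup ⟨_, RepT_mem (rep_fH (F := F0.toPre) (k := 0)) (K.sc w)⟩,
    Hs_sec K.fc.sup ⟨_, RepT_mem (rep_sH (F := F0.toPre) (k := 0)) (K.sc w)⟩, ht⟩

theorem W0_eq (t : T') : (fC B F0 G0 H Q').W0 s.md (K.o.A t) t = chA B s.md (H t₀) (H t) s.A0 := by
  rw [Ref.A_eq]; exact chA_coc B s.md (H t₀) G0 (H t) s.A0

theorem cfg_pt (c : Cm N r h R) (w : Sec I s.bd.pC) (p : PP T U r h N) (ht : t₀ + θ p.1 ∈ Q') :
    (K.pt w (c.z0 + p.2.2.1) ht).cfg = s.cfg c w p := by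
  have e1 : K.o.W (t₀ + θ p.1) (fun x => fa ((K.sc w).1 x)) = (s.cfg c w p).W := by
    rw [Ref.W, K.W0_eq]
    refine congrArg (s.md.addC _) (funext fun x => ?_)
    rw [K.b, Pi.zero_apply, zero_apply, add_zero]
    refine (congrArg _ (f2_sm2 _ _ _)).trans ((Map77.idx_idx _ _ _ _ _).trans ?_)
    exact congrArg (idx · _ _) (funext₂ fun a b => trS_coc _ _ _ x a b)
  have e2 : (fun x => fp ((K.sc w).1 x)) = fun x => fp (w.1 x) := funext fun x => s2_sm2 _ _ _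
  show Cfg.mk s.md (K.o.W (t₀ + θ p.1) fun x => fa ((K.sc w).1 x))
    (s.Φ0 + fun x => fp ((K.sc w).1 x)) _ = _
  rw [e1, e2]; rfl

theorem sc_zero : K.sc 0 = 0 := Subtype.ext (funext fun _ => map_zero _)

theorem chA0 : chA B s.md (H t₀) (H t₀) s.A0 = s.A0 := chA_self (K.fc.G _ K.t0) K.ok.conn

theorem W_zero : (K.o.W t₀ fun x => fa ((K.sc 0).1 x)) = s.A0 := by
  rw [Ref.W, K.W0_eq, K.chA0, K.sc_zero]
  funext a x; simp [Md.addC]

theorem Φ_zero : (s.Φ0 + fun x => fp ((K.sc 0).1 x)) = s.Φ0 := by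
  rw [K.sc_zero]; funext x; simp

theorem cfg_zero (z : EuclideanSpace ℂ (Fin r)) :
    (K.pt 0 z K.t0).cfg = ⟨s.md, s.A0, s.Φ0, z⟩ := by
  show Cfg.mk s.md (K.o.W t₀ fun x => fa ((K.sc 0).1 x)) (s.Φ0 + fun x => fp ((K.sc 0).1 x)) _ = _
  rw [K.W_zero, K.Φ_zero]; rfl

theorem pt_eq {k : ℕ} (hk : 3 ≤ k) (w : Sec I s.bd.pC) (z : EuclideanSpace ℂ (Fin r)) {t : T'}
    (ht : t ∈ Q') : (K.pt w z ht).pt k =
      sC' K.o r k t₀ (F0.toH (k + 1) (bd K.o).pC w) + (0, 0, z, t) := by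
  have e : SH (k + 1) K.o ((fC B F0 G0 H Q').Si t₀) (F0.toH (k + 1) (bd K.o).pC w) =
    F0.toH (k + 1) _ (K.sc w) := RepT_toH (rep_SH' K.o K.fc K.t0) w
  have k4 : 4 ≤ k + 1 := by omega
  refine Prod.ext ?_ (Prod.ext ?_ (zero_add _).symm)
  · refine (ofV_eq K.fc.sup k4 ?_).trans (add_zero _).symm
    exact (congrArg (F0.val _ _ <| fH _ _ _ _ ·) e).trans ((congrArg _ (RepT_toH rep_fH _)).trans
      (val_toH K.fc.sup k4 _))
  · refine (ofV_eq K.fc.sup k4 ?_).trans (add_zero _).symm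
    exact (congrArg (F0.val _ _ <| sH _ _ _ _ ·) e).trans ((congrArg _ (RepT_toH rep_sH _)).trans
      (val_toH K.fc.sup k4 _))

theorem pt_sub {k : ℕ} (hk : 3 ≤ k) (w : Sec I s.bd.pC) (z₀ z : EuclideanSpace ℂ (Fin r)) {t : T'}
    (ht : t₀ + t ∈ Q') : (K.pt w (z₀ + z) ht).pt k - (K.pt 0 z₀ K.t0).pt k =
      sC' K.o r k t₀ (F0.toH (k + 1) (bd K.o).pC w) + (0, 0, z, t) := by
  have e : sC' K.o r k t₀ (F0.toH (k + 1) (bd K.o).pC (0 : Sec I s.bd.pC)) = 0 :=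
    (congrArg _ (map_zero _)).trans (map_zero _)
  rw [K.pt_eq hk, K.pt_eq hk, e, zero_add, add_sub_assoc]
  simp

theorem sC_sub {k : ℕ} (u : F0.H (k + 1) (bd K.o).pC) (z : EuclideanSpace ℂ (Fin r)) (t : T') :
    sC K.o r k t₀ (sC' K.o r k t₀ u + (0, 0, z, t)) = u := by
  rw [map_add, sC_sC' K.fc K.t0, sC, ContinuousLinearMap.comp_apply, jC_apply, map_zero, map_zero,
    add_zero, map_zero, add_zero]

/-- the gauge row at the base parameter is the Coulomb row of the chart -/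
theorem val_row {k : ℕ} (hk : 4 ≤ k)
    (hd : s.dr = fun a x => (Fs (fC B F0 G0 H Q') t₀).dv a x - (H t₀).F.dv a x)
    (w : Sec I s.bd.pC) (z₀ z : EuclideanSpace ℂ (Fin r)) (t : T') :
    F0.val k _ (sig (Fs (fC B F0 G0 H Q')) k (K.pt 0 z₀ K.t0) (sC' K.o r k t₀
      (F0.toH (k + 1) (bd K.o).pC w) + (0, 0, z, t))) = s.row 0 w := by
  have e := RepT_toH (rep_RR ((adj_rem K.fc).hy K.o K.t0) k (cb_uy K.fc (K.pt 0 z₀ K.t0))) w
  refine (congrArg (F0.val k _ <| (bd K.o).RR _ _ k _ ·) (K.sC_sub _ z t)).trans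
    ((congrArg _ e).trans ((val_toH K.fc.sup hk _).trans (funext fun x => ?_)))
  refine (adj_rem_d0 (ok_bd K.o K.fc) (H t₀).F F0.toPre _ w x (w.2.2.2 x)).trans ?_
  have e1 : uy (K.pt 0 z₀ K.t0) = base s.A0 s.Φ0 := congrArg₂ base K.W_zero K.Φ_zero
  have e2 : (fun x => sm2 (idx (trS (H t₀).F (H t₀).F x) (.id ℝ _)) (.id ℝ _) (w.1 x)) = w.1 :=
    funext fun x => ext2 (by
      rw [f2_sm2, ← w.2.2.2 x, f2_ps]
      refine (Map77.idx_idx _ _ _ _ _).trans (congrArg (idx · _ _) (funext₂ fun a b => ?_))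
      have hP : (H t₀).F.P = B.P := (K.fc.G _ K.t0).P
      simp only [trS_self, hP]
      exact (K.fc.B.pr x).idem a b) (s2_sm2 _ _ _)
  show _ = (((bd K.o).d0 (H (t₀ + θ 0)).F (base (chA B s.md (H t₀) (H (t₀ + θ 0)) s.A0) s.Φ0)).adj
    (H (t₀ + θ 0)).F).app (H (t₀ + θ 0)).F (fun x => sm2 (idx (trS (H t₀).F (H (t₀ + θ 0)).F x)
      (.id ℝ _)) (.id ℝ _) (w.1 x)) x + _
  rw [map_zero, add_zero, e1, e2, K.chA0, hd]
  rfl

end Ch

end Crest.Agent.X212.Nk89
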