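import Crest.Agent.X212.Cyf70.Sf
import Mathlib.Analysis.InnerProductSpace.Adjoint

/-! Interpolation of operators on Hilbert scales (Lax's lemma on symmetrisable operators). -/

set_option autoImplicit false
set_option linter.unusedSectionVars false
noncomputable section
open scoped InnerProductSpace Topology
open Set Function Filter

namespace Crest.Agent.X212.Nk89
open Ell97

section abs
variable {A B : Type*} [NormedAddCommGroup A] [InnerProductSpace ℝ A] [CompleteSpace A]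
  [NormedAddCommGroup B] [InnerProductSpace ℝ B] [CompleteSpace B]

/-- symmetric, positive, injective -/
structure Pos (G : A →L[ℝ] A) : Prop where
  symm : ∀ x y, ⟪G x, y⟫_ℝ = ⟪x, G y⟫_ℝ
  pos : ∀ x, 0 ≤ ⟪G x, x⟫_ℝ
  inj : Injective G

namespace Pos
variable {G : A →L[ℝ] A} (h : Pos G)
include h

theorem symm_pow : ∀ (n : ℕ) (x y : A), ⟪(G ^ n) x, y⟫_ℝ = ⟪x, (G ^ n) y⟫_ℝ
  | 0, _, _ => rfl
  | n + 1, x, y => by
    conv_lhs => rw [pow_succ]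
    rw [pow_succ', mul_apply_eq_comp, mul_apply_eq_comp, symm_pow n, h.symm]

theorem shift (n s : ℕ) (x y : A) :
    ⟪(G ^ (s + 2 * n)) x, y⟫_ℝ = ⟪(G ^ s) ((G ^ n) x), (G ^ n) y⟫_ℝ := by
  rw [← h.symm_pow n, ← mul_apply_eq_comp, ← mul_apply_eq_comp, ← pow_add,
    ← pow_add]
  congr 3; ring

theorem pow (n : ℕ) : Pos (G ^ n) := by
  refine ⟨h.symm_pow n, fun x => ?_, ?_⟩
  · obtain ⟨m, rfl | rfl⟩ := n.even_or_odd'
    · have := h.shift m 0 x x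
      rw [zero_add] at this
      rw [this]; exact real_inner_self_nonneg
    · rw [add_comm, h.shift, pow_one]; exact h.pos _
  · induction n with
    | zero => exact injective_id
    | succ n ih => rw [pow_succ]; exact ih.comp h.inj

theorem dense : DenseRange G := by
  have : (G.range : Submodule ℝ A)ᗮ = ⊥ := (Submodule.eq_bot_iff _).2 fun y hy => h.inj <| by
    rw [map_zero, ← inner_self_eq_zero (𝕜 := ℝ), h.symm, real_inner_comm]
    exact (Submodule.mem_orthogonal _ _).1 hy _ ⟨G y, rfl⟩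
  exact Submodule.dense_iff_topologicalClosure_eq_top.2
    (Submodule.topologicalClosure_eq_top_iff.2 this)

theorem cs (x y : A) : ⟪G x, y⟫_ℝ ^ 2 ≤ ⟪G x, x⟫_ℝ * ⟪G y, y⟫_ℝ := by
  have := discrim_le_zero (a := ⟪G y, y⟫_ℝ) (b := 2 * ⟪G x, y⟫_ℝ) (c := ⟪G x, x⟫_ℝ) fun t => by
    have h1 := h.pos (x + t • y)
    have h2 : ⟪G y, x⟫_ℝ = ⟪G x, y⟫_ℝ := by rw [h.symm, real_inner_comm]
    simp only [map_add, map_smul, inner_add_left, inner_add_right, real_inner_smul_left,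
      real_inner_smul_right, h2] at h1
    linarith
  rw [discrim] at this
  linarith

/-- Lax's lemma -/
theorem lax {S : A →L[ℝ] A} (hS : ∀ x y, ⟪G (S x), y⟫_ℝ = ⟪G x, S y⟫_ℝ) (x : A) :
    ⟪G (S x), x⟫_ℝ ≤ ‖S‖ * ⟪G x, x⟫_ℝ := by
  set a : ℕ → ℝ := fun n => ⟪G ((S ^ n) x), (S ^ n) x⟫_ℝ with ha
  have a0 : ∀ n, 0 ≤ a n := fun n => h.pos _
  have cv : ∀ n, a (n + 1) ^ 2 ≤ a n * a (n + 2) := fun n => by
    have := h.cs ((S ^ n) x) ((S ^ (n + 2)) x)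
    refine le_of_eq_of_le ?_ this
    simp only [ha, pow_succ', mul_apply_eq_comp, hS]
  have bd : ∀ n, a n ≤ ‖G‖ * ‖x‖ ^ 2 * (‖S‖ ^ 2) ^ n := fun n => by
    have h1 : ‖(S ^ n) x‖ ≤ ‖S‖ ^ n * ‖x‖ := by
      induction n with
      | zero => simp
      | succ n ih =>
        rw [pow_succ', pow_succ', mul_assoc]
        exact (S.le_opNorm _).trans (mul_le_mul_of_nonneg_left ih (norm_nonneg _))
    refine (real_inner_le_norm _ _).trans ((mul_le_mul ((G.le_opNorm _).trans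
      (mul_le_mul_of_nonneg_left h1 (norm_nonneg _))) h1 (norm_nonneg _) (by positivity)).trans
      (le_of_eq ?_))
    rw [← pow_mul, mul_comm 2 n, pow_mul]; ring
  have key : a 1 ≤ ‖S‖ ^ 2 * a 0 := by
    by_contra hn
    rw [not_le] at hn
    have h0 : 0 < a 0 := (a0 0).lt_of_ne fun e => by
      have := cv 0
      rw [← e, zero_mul] at this
      rw [← e, mul_zero] at hn
      nlinarith
    obtain ⟨r, hr, hr'⟩ : ∃ r, ‖S‖ ^ 2 < r ∧ r * a 0 = a 1 :=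
      ⟨a 1 / a 0, (lt_div_iff₀ h0).2 hn, div_mul_cancel₀ _ h0.ne'⟩
    have r0 : 0 < r := (sq_nonneg _).trans_lt hr
    have st : ∀ n, 0 < a n ∧ r * a n ≤ a (n + 1) ∧ a 0 * r ^ n ≤ a n := fun n => by
      induction n with
      | zero => exact ⟨h0, hr'.le, by simp⟩
      | succ n ih =>
        have p1 : 0 < a (n + 1) := (mul_pos r0 ih.1).trans_le ih.2.1
        refine ⟨p1, le_of_mul_le_mul_left ?_ ih.1, ?_⟩
        · nlinarith [cv n, mul_le_mul_of_nonneg_right ih.2.1 p1.le]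
        · rw [pow_succ]; nlinarith [mul_le_mul_of_nonneg_left ih.2.2 r0.le, ih.2.1]
    have tz := (tendsto_pow_atTop_nhds_zero_of_lt_one (div_nonneg (sq_nonneg ‖S‖) r0.le)
      ((div_lt_one r0).2 hr)).const_mul (‖G‖ * ‖x‖ ^ 2)
    rw [mul_zero] at tz
    refine absurd (ge_of_tendsto' tz fun n => ?_) (not_le.2 h0)
    rw [div_pow, ← mul_div_assoc, le_div_iff₀ (pow_pos r0 n)]
    exact (st n).2.2.trans (bd n)
  have h1 := h.cs (S x) x
  have e1 : a 1 = ⟪G (S x), S x⟫_ℝ := by simp [ha]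
  have e0 : a 0 = ⟪G x, x⟫_ℝ := by simp [ha]
  rw [e1, e0] at key
  refine abs_le_of_sq_le_sq' (h1.trans ?_) (mul_nonneg (norm_nonneg _) (h.pos x)) |>.2
  rw [mul_pow, sq (⟪G x, x⟫_ℝ), ← mul_assoc]
  exact mul_le_mul_of_nonneg_right key (h.pos x)

end Pos

variable {G : A →L[ℝ] A} {G' : B →L[ℝ] B}

theorem rebase (h : Pos G) {K : A →L[ℝ] B} {c : ℝ} (hc : ∀ x, ‖G' (K x)‖ ≤ c * ‖G x‖) :
    ∃ K' : A →L[ℝ] B, ∀ x, K' (G x) = G' (K x) :=
  ⟨((G'.comp K : A →L[ℝ] B) : A →ₗ[ℝ] B).extendOfNorm (G : A →ₗ[ℝ] A),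
    fun x => LinearMap.extendOfNorm_eq h.dense ⟨c, hc⟩ x⟩

theorem mid (h : Pos G) (h' : Pos G') {K : A →L[ℝ] B} {c : ℝ}
    (hc : ∀ x, ‖G' (K x)‖ ≤ c * ‖G x‖) :
    ∃ c, 0 ≤ c ∧ ∀ x, ⟪G' (K x), K x⟫_ℝ ≤ c * ⟪G x, x⟫_ℝ := by
  obtain ⟨K', hK⟩ := rebase h hc
  have e : ∀ x y, ⟪G x, ContinuousLinearMap.adjoint K' (K y)⟫_ℝ = ⟪G' (K x), K y⟫_ℝ :=
    fun x y => by rw [ContinuousLinearMap.adjoint_inner_right, hK]
  refine ⟨‖(ContinuousLinearMap.adjoint K').comp K‖, norm_nonneg _, fun x => ?_⟩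
  refine le_of_eq_of_le ?_ (h.lax (fun x y => ?_) x)
  · rw [h.symm _ x, real_inner_comm (G x), ContinuousLinearMap.comp_apply, e]
  · rw [h.symm, real_inner_comm, ContinuousLinearMap.comp_apply, ContinuousLinearMap.comp_apply,
      e, e, h'.symm, real_inner_comm]

theorem norm_of_form (h : Pos G) (h' : Pos G') {K : A →L[ℝ] B} {n : ℕ} {c : ℝ} (c0 : 0 ≤ c)
    (hc : ∀ x, ⟪(G' ^ (2 * n)) (K x), K x⟫_ℝ ≤ c * ⟪(G ^ (2 * n)) x, x⟫_ℝ) (x : A) :
    ‖(G' ^ n) (K x)‖ ≤ √c * ‖(G ^ n) x‖ := by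
  have := hc x
  rw [← zero_add (2 * n), h.shift, h'.shift, pow_zero, pow_zero, one_apply_eq_self,
    one_apply_eq_self, real_inner_self_eq_norm_sq, real_inner_self_eq_norm_sq] at this
  refine (abs_le_of_sq_le_sq' (this.trans_eq ?_) (by positivity)).2
  rw [mul_pow, Real.sq_sqrt c0]

/-- the discrete Heinz-Kato inequality -/
theorem heinz (h : Pos G) (h' : Pos G') (r : ℕ) : ∀ {K : A →L[ℝ] B} {c : ℝ},
    (∀ x, ‖(G' ^ 2 ^ r) (K x)‖ ≤ c * ‖(G ^ 2 ^ r) x‖) → ∀ s, s ≤ 2 * 2 ^ r →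
    ∃ c, 0 ≤ c ∧ ∀ x, ⟪(G' ^ s) (K x), K x⟫_ℝ ≤ c * ⟪(G ^ s) x, x⟫_ℝ := by
  induction r with
  | zero =>
    intro K c hc s hs
    obtain rfl | rfl | rfl : s = 0 ∨ s = 1 ∨ s = 0 + 2 * 1 := by omega
    · refine ⟨‖K‖ ^ 2, sq_nonneg _, fun x => ?_⟩
      simp only [pow_zero, one_apply_eq_self, real_inner_self_eq_norm_sq, ← mul_pow]
      exact pow_le_pow_left₀ (norm_nonneg _) (K.le_opNorm x) 2
    · exact mid (h.pow 1) (h'.pow 1) hc
    · refine ⟨c ^ 2, sq_nonneg _, fun x => ?_⟩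
      simp only [h.shift, h'.shift, pow_zero, one_apply_eq_self,
        real_inner_self_eq_norm_sq, ← mul_pow]
      exact pow_le_pow_left₀ (norm_nonneg _) (hc x) 2
  | succ r ih =>
    intro K c hc s hs
    obtain ⟨c₁, c0, h1⟩ := mid (h.pow _) (h'.pow _) hc
    rw [pow_succ'] at h1
    have h2 := norm_of_form h h' c0 h1
    rcases le_total s (2 * 2 ^ r) with h3 | h3
    · exact ih h2 s h3
    · obtain ⟨s, rfl⟩ := Nat.exists_eq_add_of_le' h3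
      obtain ⟨K', hK⟩ := rebase (h.pow _) h2
      obtain ⟨c₂, c2, h4⟩ := ih (K := K') (c := c) (fun x => by
        refine (h.pow (2 ^ r)).dense.induction_on x (isClosed_le (by fun_prop) (by fun_prop))
          fun a => ?_
        have := hc a
        rwa [pow_succ, mul_two, pow_add, pow_add, mul_apply_eq_comp,
          mul_apply_eq_comp, ← hK] at this) s (by rw [pow_succ] at hs; omega)
      exact ⟨c₂, c2, fun x => by rw [h.shift, h'.shift, ← hK]; exact h4 _⟩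

end abs

variable {X X' Y Y' : ℕ → Type*} [∀ k, NormedAddCommGroup (X k)] [∀ k, InnerProductSpace ℝ (X k)]
  [∀ k, NormedAddCommGroup (X' k)] [∀ k, InnerProductSpace ℝ (X' k)]
  [∀ k, NormedAddCommGroup (Y k)] [∀ k, InnerProductSpace ℝ (Y k)]
  [∀ k, NormedAddCommGroup (Y' k)] [∀ k, InnerProductSpace ℝ (Y' k)]
  [∀ k, CompleteSpace (X k)] [∀ k, CompleteSpace (X' k)] [∀ k, CompleteSpace (Y k)]
  [∀ k, CompleteSpace (Y' k)]

theorem pos_G0 (P : Half X X') : Pos P.G0 :=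
  ⟨P.G0_symm, fun x => by rw [real_inner_comm]; exact (sq_nonneg _).trans (P.G0_sq_le x), P.G0_inj⟩

theorem dn0_G (P : Half X X') : ∀ (j : ℕ) (y : X j),
    dn0 P.i (j + 2) (P.G j y) = P.G0 (dn0 P.i j y)
  | 0, _ => rfl
  | j + 1, y => by rw [dn0_succ (j + 2), ← P.G_i, dn0_G P j, dn0_succ]

/-- from the level `2 n` to the level `0` -/
def qn (P : Half X X') : ∀ n, X (2 * n) →L[ℝ] X 0
  | 0 => ContinuousLinearMap.id ℝ _
  | n + 1 => (qn P n).comp (P.Q (2 * n))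

theorem G_qn (P : Half X X') : ∀ (n : ℕ) (u : X (2 * n)),
    (P.G0 ^ n) (qn P n u) = dn0 P.i (2 * n) u
  | 0, _ => rfl
  | n + 1, u => by
    rw [pow_succ', mul_apply_eq_comp]
    exact (congrArg P.G0 (G_qn P n (P.Q (2 * n) u))).trans
      ((dn0_G P _ _).symm.trans (congrArg _ (P.G_Q _ u)))

theorem dense_one (P : Pair X X') : DenseRange (P.i 1) := by
  obtain ⟨C, C0, hC⟩ := Cyf70.gard P 0
  let b : X 1 →L[ℝ] X 1 := (ContinuousLinearMap.adjoint (P.i 0)).comp (P.i 0) +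
    (ContinuousLinearMap.adjoint (P.L 0)).comp (P.L 0)
  have hb : ∀ u v, ⟪b u, v⟫_ℝ = ⟪P.i 0 u, P.i 0 v⟫_ℝ + ⟪P.L 0 u, P.L 0 v⟫_ℝ := fun u v => by
    simp [b, inner_add_left, ContinuousLinearMap.adjoint_inner_left]
  obtain ⟨e, he⟩ := Cyf70.exists_equiv_of_coercive b (c := (2 * C ^ 2 + 1)⁻¹) (by positivity)
    fun u => by
      rw [hb, real_inner_self_eq_norm_sq, real_inner_self_eq_norm_sq, mul_assoc,
        inv_mul_le_iff₀ (by positivity)]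
      have h1 : ‖u‖ ≤ C * (‖P.L 0 u‖ + ‖P.i 0 u‖) := hC u
      nlinarith [mul_self_le_mul_self (norm_nonneg _) h1, sq_nonneg ‖P.L 0 u‖, sq_nonneg ‖P.i 0 u‖,
        mul_nonneg (sq_nonneg C) (sq_nonneg (‖P.L 0 u‖ - ‖P.i 0 u‖))]
  have : ((P.i 1).range : Submodule ℝ (X 1))ᗮ = ⊥ := (Submodule.eq_bot_iff _).2 fun y hy => by
    obtain ⟨u, rfl⟩ := e.surjective y
    obtain ⟨v, hv⟩ := (P.Q_bij 0).2 (P.i 0 u)
    have h1 := (Submodule.mem_orthogonal' _ _).1 hy _ ⟨v, rfl⟩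
    have h2 : e u = b u := DFunLike.congr_fun he u
    have h3 := P.adj (P.i 1 v)
    rw [h2] at h1
    change ⟪b u, P.i 1 v⟫_ℝ = 0 at h1
    rw [hb, ← P.Li, P.adj, ← inner_add_right, ← P.Q_apply, hv, inner_self_eq_zero] at h1
    rw [P.i_inj 0 (h1.trans (map_zero _).symm), map_zero]
  exact Submodule.dense_iff_topologicalClosure_eq_top.2
    (Submodule.topologicalClosure_eq_top_iff.2 this)

/-- the levels in terms of the powers of the resolvent -/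
theorem exists_lev (P : Pair X X') : ∀ (j s n : ℕ), s + j = 2 * n →
    ∃ e : X 0 →L[ℝ] X j, DenseRange e ∧ (∀ a, dn0 P.i j (e a) = (P.G0 ^ n) a) ∧ ∃ C, 0 ≤ C ∧
      ∀ a, ‖e a‖ ^ 2 ≤ C * ⟪(P.G0 ^ s) a, a⟫_ℝ ∧ ⟪(P.G0 ^ s) a, a⟫_ℝ ≤ C * ‖e a‖ ^ 2
  | 0, s, n, h => by
    have hp := pos_G0 P.toHalf
    refine ⟨P.G0 ^ n, (hp.pow n).dense, fun _ => rfl, 1, zero_le_one, fun a => ?_⟩
    rw [show s = 0 + 2 * n by omega, hp.shift, pow_zero, one_apply_eq_self,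
      real_inner_self_eq_norm_sq, one_mul]
    exact ⟨le_rfl, le_rfl⟩
  | 1, s, n, h => by
    have hp := pos_G0 P.toHalf
    obtain ⟨n, rfl⟩ : ∃ m, n = m + 1 := ⟨n - 1, by omega⟩
    obtain ⟨C, C0, hC⟩ := Cyf70.gard P 0
    have sG : Surjective (P.G 0) := fun u => ⟨_, P.G_Q 0 u⟩
    refine ⟨(P.i 1).comp ((P.G 0).comp (P.G0 ^ n)), (dense_one P).comp (sG.denseRange.comp
      (hp.pow n).dense (P.G 0).continuous) (P.i 1).continuous, fun a => by rw [pow_succ']; rfl,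
      2 * C ^ 2 + ‖P.i 0‖ ^ 2 + ‖P.L 0‖ ^ 2, by positivity, fun a => ?_⟩
    have h1 := P.inner_Q (P.G 0 ((P.G0 ^ n) a)) (P.G 0 ((P.G0 ^ n) a))
    rw [P.Q_G, real_inner_self_eq_norm_sq, real_inner_self_eq_norm_sq] at h1
    rw [show s = 1 + 2 * n by omega, hp.shift, pow_one, real_inner_comm]
    change ‖P.i 1 (P.G 0 ((P.G0 ^ n) a))‖ ^ 2 ≤ _ * ⟪_, P.i 0 (P.i 1 (P.G 0 _))⟫_ℝ ∧
      ⟪_, P.i 0 (P.i 1 (P.G 0 _))⟫_ℝ ≤ _ * ‖P.i 1 (P.G 0 ((P.G0 ^ n) a))‖ ^ 2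
    rw [h1]
    set u := P.i 1 (P.G 0 ((P.G0 ^ n) a))
    have h2 : ‖u‖ ≤ C * (‖P.L 0 u‖ + ‖P.i 0 u‖) := hC u
    have h3 := mul_self_le_mul_self (norm_nonneg _) ((P.i 0).le_opNorm u)
    have h4 := mul_self_le_mul_self (norm_nonneg _) ((P.L 0).le_opNorm u)
    constructor
    · nlinarith [mul_self_le_mul_self (norm_nonneg _) h2, mul_nonneg (sq_nonneg C)
        (sq_nonneg (‖P.L 0 u‖ - ‖P.i 0 u‖)), mul_nonneg (add_nonneg (sq_nonneg ‖P.i 0‖)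
        (sq_nonneg ‖P.L 0‖)) (add_nonneg (sq_nonneg ‖P.i 0 u‖) (sq_nonneg ‖P.L 0 u‖))]
    · nlinarith [mul_nonneg (sq_nonneg C) (sq_nonneg ‖u‖)]
  | j + 2, s, n, h => by
    obtain ⟨n, rfl⟩ : ∃ m, n = m + 1 := ⟨n - 1, by omega⟩
    obtain ⟨e, h1, h2, C, C0, h3⟩ := exists_lev P j s n (by omega)
    have sG : Surjective (P.G j) := fun u => ⟨_, P.G_Q j u⟩
    refine ⟨(P.G j).comp e, sG.denseRange.comp h1 (P.G j).continuous, fun a => by
      rw [ContinuousLinearMap.comp_apply, dn0_G, h2, pow_succ']; rfl,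
      C * (‖P.G j‖ ^ 2 + ‖P.Q j‖ ^ 2), by positivity, fun a => ?_⟩
    have h4 := mul_self_le_mul_self (norm_nonneg _) ((P.G j).le_opNorm (e a))
    have h5 := mul_self_le_mul_self (norm_nonneg _) ((P.Q j).le_opNorm (P.G j (e a)))
    have h6 := ((pos_G0 P.toHalf).pow s).pos a
    rw [P.Q_G] at h5
    rw [ContinuousLinearMap.comp_apply]
    constructor
    · nlinarith [mul_le_mul_of_nonneg_left (h3 a).1 (sq_nonneg ‖P.G j‖),
        mul_nonneg (mul_nonneg C0 (sq_nonneg ‖P.Q j‖)) h6]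
    · nlinarith [mul_le_mul_of_nonneg_left h5 C0, (h3 a).2,
        mul_nonneg (mul_nonneg C0 (sq_nonneg ‖P.G j‖)) (sq_nonneg ‖P.G j (e a)‖)]

/-- **Interpolation.** An operator on the level `0` and on all high levels acts on all levels. -/
theorem exists_all (P : Pair X X') (P' : Pair Y Y') (K : X 0 →L[ℝ] Y 0) {j₀ : ℕ}
    (h : ∀ j, j₀ ≤ j → ∃ T : X j →L[ℝ] Y j, ∀ u, dn0 P'.i j (T u) = K (dn0 P.i j u)) (j : ℕ) :
    ∃ T : X j →L[ℝ] Y j, ∀ u, dn0 P'.i j (T u) = K (dn0 P.i j u) := by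
  rcases le_total j₀ j with hj | hj
  · exact h j hj
  have hr : j₀ ≤ 2 * 2 ^ j₀ := by have := Nat.lt_two_pow_self (n := j₀); omega
  obtain ⟨T, hT⟩ := h _ hr
  obtain ⟨e, -, he, -⟩ := exists_lev P (2 * 2 ^ j₀) 0 _ (zero_add _)
  have hA : ∀ a, (P'.G0 ^ 2 ^ j₀) (((qn P'.toHalf _).comp (T.comp e)) a) =
      K ((P.G0 ^ 2 ^ j₀) a) := fun a => by
    rw [ContinuousLinearMap.comp_apply, G_qn, ContinuousLinearMap.comp_apply, hT, he]
  obtain ⟨s, hs⟩ := Nat.exists_eq_add_of_le' (hj.trans hr)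
  obtain ⟨c, c0, hc⟩ := heinz (pos_G0 P.toHalf) (pos_G0 P'.toHalf) j₀
    (fun a => (hA a).symm ▸ K.le_opNorm _) s (by omega)
  obtain ⟨f, d1, hf, C, C0, h1⟩ := exists_lev P j s _ hs.symm
  obtain ⟨f', -, hf', C', C0', h2⟩ := exists_lev P' j s _ hs.symm
  set A := (qn P'.toHalf _).comp (T.comp e)
  have hb : ∀ a, ‖f' (A a)‖ ≤ √(C' * c * C) * ‖f a‖ := fun a => by
    refine (abs_le_of_sq_le_sq' ?_ (by positivity)).2
    rw [mul_pow, Real.sq_sqrt (by positivity), mul_assoc, mul_assoc]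
    exact (h2 _).1.trans (mul_le_mul_of_nonneg_left ((hc a).trans
      (mul_le_mul_of_nonneg_left (h1 a).2 c0)) C0')
  refine ⟨((f'.comp A : X 0 →L[ℝ] Y j) : X 0 →ₗ[ℝ] Y j).extendOfNorm (f : X 0 →ₗ[ℝ] X j),
    fun u => d1.induction_on u (isClosed_eq (by fun_prop) (by fun_prop)) fun a => ?_⟩
  have := LinearMap.extendOfNorm_eq (f := ((f'.comp A : X 0 →L[ℝ] Y j) : X 0 →ₗ[ℝ] Y j))
    (e := (f : X 0 →ₗ[ℝ] X j)) d1 ⟨_, hb⟩ a
  exact (congrArg _ this).trans ((hf' _).trans ((hA a).trans (congrArg K (hf a).symm)))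

/-- an order zero term from the level `0` and the high levels -/
theorem exists_zer (P : Pair X Y) (K : X 0 →L[ℝ] Y 0) {j₀ : ℕ}
    (h : ∀ j, j₀ ≤ j → ∃ T : X j →L[ℝ] Y j, ∀ u, dn0 P.j j (T u) = K (dn0 P.i j u))
    (h' : ∀ j, j₀ ≤ j → ∃ T : Y j →L[ℝ] X j, ∀ v,
      dn0 P.i j (T v) = ContinuousLinearMap.adjoint K (dn0 P.j j v)) :
    ∃ Z : Cyf70.Zer P.toHalf, Z.K 0 = K ∧ Z.Ks 0 = ContinuousLinearMap.adjoint K ∧
      ∀ j u, dn0 P.j j (Z.K j u) = K (dn0 P.i j u) := by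
  choose T hT using exists_all P P.swap K h
  choose S hS using exists_all P.swap P (ContinuousLinearMap.adjoint K) h'
  have e1 : T 0 = K := ContinuousLinearMap.ext (hT 0)
  have e2 : S 0 = ContinuousLinearMap.adjoint K := ContinuousLinearMap.ext (hS 0)
  exact ⟨⟨T, S, fun k u => dn0_inj P.j_inj k ((hT (k + 1) u).trans (hT k _).symm),
    fun k v => dn0_inj P.i_inj k ((hS (k + 1) v).trans (hS k _).symm),
    fun u v => by rw [e1, e2, ContinuousLinearMap.adjoint_inner_right]⟩, e1, e2, hT⟩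

end Crest.Agent.X212.Nk89
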