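import Crest.Agent.X212.Nk89.Wt
import Crest.Agent.X212.Mon62.Res
import Crest.Agent.X212.Ell97.Nab

/-! The resolvent `1 + ∇*∇` of the frame `F` on weighted Sobolev spaces. -/

set_option autoImplicit false
set_option linter.unusedSectionVars false
noncomputable section
open scoped Manifold ContDiff Topology InnerProductSpace
open MeasureTheory Set Function Filter

namespace Crest.Agent.X212.Nk89
open An Sob92 Wz78 Mon62

variable {E : Type} [NormedAddCommGroup E] [NormedSpace ℝ E] [FiniteDimensional ℝ E]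
  [MeasurableSpace E] [BorelSpace E]
  {HM : Type} [TopologicalSpace HM] {I : ModelWithCorners ℝ E HM} [I.Boundaryless]
  {M : Type} [TopologicalSpace M] [ChartedSpace HM M] [IsManifold I ∞ M]
  [MeasurableSpace M] [T2Space M] [BorelSpace M] [SecondCountableTopology M] {ι : Type} [Fintype ι]
  {V : Type} [NormedAddCommGroup V] [InnerProductSpace ℝ V]

/-- the same frame, divergences differing by a small bounded drift -/
structure Dr (F F' : Fr I M ι) (D : ℕ → ℝ) : Prop where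
  e : F'.e = F.e
  cb : ∀ a, F'.CBs (fun x => F'.dv a x - F.dv a x) D
  sm : ∀ x, ∑ a, (F'.dv a x - F.dv a x) ^ 2 ≤ 1

variable {F F' : Fr I M ι} {C D : ℕ → ℝ} {j : ℕ}

theorem Wt.dr {ψ : M → ℝ} (h : Wt F F' ψ) (hD : ∀ a, F.CBs (F.D a ψ) D)
    (hs : ∀ x, ∑ a, F.D a ψ x ^ 2 ≤ 1 / 4) : Dr F F' fun k => 2 * |D k| := by
  refine ⟨h.e, fun a => ?_, fun x => ?_⟩
  · simp only [h.dv, add_sub_cancel_left]
    refine h.toWtP.CBs.2 ⟨contMDiff_const.mul (hD a).1, fun k => CB_mono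
      (CB_clm ((2 : ℝ) • ContinuousLinearMap.id ℝ ℝ) (hD a).1 (CB_abs ((hD a).2 k))) ?_⟩
    simp only [norm_smul, ContinuousLinearMap.norm_id, Real.norm_ofNat, mul_one, le_refl]
  · simp only [h.dv, add_sub_cancel_left, mul_pow, ← Finset.mul_sum]
    linarith [hs x]

namespace Dr
variable (h : Dr F F' D)
include h

theorem D_eq (a : ι) : (F.D a : (M → V) → M → V) = F'.D a := by
  funext u; rw [Pre.D_def, Pre.D_def, h.e]

theorem Dt (j : ℕ) (c : ι) : Dt V F'.toPre F j c = Dt V F'.toPre F' j c := by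
  rw [Mon62.Dt, Mon62.Dt, h.D_eq]

theorem Nb (j : ℕ) (T : HT F'.toPre V j →L[ℝ] HT F'.toPre V j) (c : ι) :
    Nb F'.toPre F j T c = Nb F'.toPre F' j T c := by rw [Mon62.Nb, Mon62.Nb, h.Dt]

theorem act (hF : F'.Tame C) : Act V F'.toPre F := by
  refine ⟨fun j c => ?_, fun c => ?_⟩
  · rw [h.Dt, h.D_eq]; exact rep_DH c
  · have := Cb_sub ⟨C, hF.dv c⟩ ⟨_, h.cb c⟩
    convert this using 1
    funext x; simp

theorem QQ_eq (hF : F'.Tame C) (T : Mu F'.toPre V j) (u : HT F'.toPre V (j + 2)) :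
    QQ F'.toPre F j T u = QQ F'.toPre F' j T u + ∑ c, smulH F'.toPre j _
      (fun x => F'.dv c x - F.dv c x) (ic F'.toPre V (j + 1) j
        (Mon62.Nb F'.toPre F' (j + 1) (T.2 c) c u)) := by
  have e : ∀ c, smulH F'.toPre j (triv M V) (F.dv c) = smulH F'.toPre j _ (F'.dv c) -
      smulH F'.toPre j _ fun x => F'.dv c x - F.dv c x := fun c =>
    RepT_eq (rep_smulH ((h.act (V := V) hF).dv c))
      (RepT_sub (rep_smulH ⟨C, hF.dv c⟩) (rep_smulH ⟨_, h.cb c⟩)) fun u => funext fun x => by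
        simp [sub_smul]
  simp only [QQ, h.Nb, e, sub_apply, _root_.sum_apply, ContinuousLinearMap.comp_apply,
    add_apply, sub_add, ← Finset.sum_sub_distrib]
  congr 1
  exact Finset.sum_congr rfl fun c _ => by abel

theorem coer_adm (hF : F'.Tame C) {T : Mu F'.toPre V j} (hT : T ∈ Adm V F'.toPre j) :
    Coer (ic F'.toPre V (j + 2) 0) (ic F'.toPre V j 0) (3 / 4) (QQ F'.toPre F j T) := by
  obtain ⟨A, hA, hs, hT⟩ := hT
  intro u
  refine H_le (f := fun u => 3 / 4 * ‖ic F'.toPre V (j + 2) 0 u‖ ^ 2)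
    (g := fun u => ⟪ic F'.toPre V j 0 (QQ F'.toPre F j T u), ic F'.toPre V (j + 2) 0 u⟫_ℝ)
    (by fun_prop) (by fun_prop) (fun u => ?_) u
  simp only [ic]
  rw [RepT_toH (rep_QQ (h.act hF) hT), incl_toH (Nat.zero_le _), incl_toH (Nat.zero_le _),
    ← real_inner_self_eq_norm_sq, Pre.inner_toH, Pre.inner_toH]
  have hu := u.2.1
  have hc := u.2.2.1
  have e : ∀ x, ⟪u.1 x + lap I F.e F.dv A u.1 x, u.1 x⟫_ℝ = (⟪u.1 x, u.1 x⟫_ℝ +
      ∑ a, (F'.dv a x - F.dv a x) * ⟪nab I F'.e A a u.1 x, u.1 x⟫_ℝ) +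
        ⟪lap I F'.e F'.dv A u.1 x, u.1 x⟫_ℝ := fun x => by
    simp only [lap, h.e, inner_add_left, inner_neg_left, sum_inner, real_inner_smul_left,
      Finset.sum_add_distrib, sub_mul, Finset.sum_sub_distrib]
    ring
  have s1 : Sm I fun x => ⟪u.1 x, u.1 x⟫_ℝ := fun x => SA.inner (hu x) (hu x)
  have s2 : Sm I fun x => ∑ a, (F'.dv a x - F.dv a x) * ⟪nab I F'.e A a u.1 x, u.1 x⟫_ℝ :=
    fun x => SA.sum _ fun a _ => ((h.cb a).1 x).mul (SA.inner (sm_nab hA a hu x) (hu x))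
  have s3 : Sm I fun x => ∑ a, ⟪nab I F'.e A a u.1 x, nab I F'.e A a u.1 x⟫_ℝ :=
    fun x => SA.sum _ fun a _ => SA.inner (sm_nab hA a hu x) (sm_nab hA a hu x)
  have c2 : HasCompactSupport fun x =>
      ∑ a, (F'.dv a x - F.dv a x) * ⟪nab I F'.e A a u.1 x, u.1 x⟫_ℝ :=
    hc.mono fun x hx h0 => hx (by simp [h0])
  have c3 : HasCompactSupport fun x => ∑ a, ⟪nab I F'.e A a u.1 x, nab I F'.e A a u.1 x⟫_ℝ :=
    HasCompactSupport.intro hc fun x hx => Finset.sum_eq_zero fun a _ => by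
      have : nab I F'.e A a u.1 x = 0 := by
        rw [nab, dv_eq_zero_of_notMem hx, image_eq_zero_of_notMem_tsupport hx]; simp
      rw [this, inner_zero_left]
  have i1 := integ (F := F') s1 (hcs_inner _ hc)
  have i2 : Integrable (fun x => ⟪u.1 x, u.1 x⟫_ℝ +
      ∑ a, (F'.dv a x - F.dv a x) * ⟪nab I F'.e A a u.1 x, u.1 x⟫_ℝ) F'.μ :=
    i1.add (integ (F := F') s2 c2)
  simp only [Pre.ip, e]
  rw [integral_add i2 (integ (fun x => SA.inner (sm_lap hA hu x) (hu x)) (hcs_inner _ hc)),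
    integral_lap hA hs hu hu hc, ← integral_add i2 (integ s3 c3), ← integral_const_mul]
  refine integral_mono (i1.const_mul _) (i2.add (integ s3 c3)) fun x => ?_
  have h1 : ∀ a, -((F'.dv a x - F.dv a x) ^ 2 * (‖u.1 x‖ ^ 2 / 4)) ≤
      (F'.dv a x - F.dv a x) * ⟪nab I F'.e A a u.1 x, u.1 x⟫_ℝ +
        ⟪nab I F'.e A a u.1 x, nab I F'.e A a u.1 x⟫_ℝ := fun a => by
    have := real_inner_self_nonneg
      (x := nab I F'.e A a u.1 x + ((F'.dv a x - F.dv a x) / 2) • u.1 x)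
    simp only [inner_add_left, inner_add_right, real_inner_smul_left, real_inner_smul_right,
      real_inner_comm (nab I F'.e A a u.1 x) (u.1 x), real_inner_self_eq_norm_sq (u.1 x)] at this ⊢
    nlinarith
  have h2 := Finset.sum_le_sum fun a (_ : a ∈ Finset.univ) => h1 a
  rw [Finset.sum_neg_distrib, ← Finset.sum_mul, Finset.sum_add_distrib] at h2
  have h3 := mul_le_mul_of_nonneg_right (h.sm x) (by positivity : 0 ≤ ‖u.1 x‖ ^ 2 / 4)
  simp only [real_inner_self_eq_norm_sq (u.1 x)]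
  linarith

theorem coer_closure (hF : F'.Tame C) {T : Mu F'.toPre V j}
    (hT : T ∈ closure (Adm V F'.toPre j)) :
    Coer (ic F'.toPre V (j + 2) 0) (ic F'.toPre V j 0) (3 / 4) (QQ F'.toPre F j T) := fun u => by
  have hc : Continuous fun T : Mu F'.toPre V j => QQ F'.toPre F j T u :=
    continuous_QQ.clm_apply continuous_const
  have hcl : IsClosed {T : Mu F'.toPre V j | 3 / 4 * ‖ic F'.toPre V (j + 2) 0 u‖ ^ 2 ≤
      ⟪ic F'.toPre V j 0 (QQ F'.toPre F j T u), ic F'.toPre V (j + 2) 0 u⟫_ℝ} :=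
    isClosed_le continuous_const (by fun_prop)
  exact hcl.closure_subset_iff.2 (fun T hT => h.coer_adm hF hT u) hT

end Dr

/-- the lower order part -/
def cL (n : ℕ) (s d R : ℝ) : ℝ := n * (R * (2 * 1 + R + s)) + n * (d * (1 + R))

/-- the bound of the weighted resolvent -/
def KW (n : ℕ) (b s d K₀ R : ℝ) (j : ℕ) : ℝ :=
  2 * (K₀ + K₀ * cL n s d R * KJ b (2 * (K₀ * cL n s d R + 1))⁻¹ (j + 1) * ((3 / 4)⁻¹ * |1|))

theorem Dr.bij_QQ (h : Dr F F' D) (hF : F'.Tame C) {K₀ : ℝ} (hK : 0 ≤ K₀)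
    (hs : Surjective (QQ F'.toPre F' j (0 : Mu F'.toPre V j)))
    (hb : ∀ u, ‖u‖ ≤ K₀ * ‖QQ F'.toPre F' j (0 : Mu F'.toPre V j) u‖)
    {T : Mu F'.toPre V j} (hT : T ∈ closure (Adm V F'.toPre j)) {R : ℝ} (hR : ‖T‖ ≤ R) :
    Bijective (QQ F'.toPre F j T) ∧ ∀ u, ‖u‖ ≤ KW (Fintype.card ι)
      (Fintype.card ι * (1 + cK ι 0 * |C 0|)) (cK ι j * |C j|) (cK ι j * |D j|) K₀ R j *
        ‖QQ F'.toPre F j T u‖ := by
  have ha := act_self (V := V) hF
  have hR0 : 0 ≤ R := (norm_nonneg T).trans hR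
  have hs0 : 0 ≤ cK ι j * |C j| := mul_nonneg (cK_nonneg _) (abs_nonneg _)
  have hd0 : 0 ≤ cK ι j * |D j| := mul_nonneg (cK_nonneg _) (abs_nonneg _)
  have h0 := norm_QQ_sub ha (d := 1) (s := cK ι j * |C j|)
    (fun c u => by rw [one_mul]; exact norm_DH_le c u)
    (fun c u => ContinuousLinearMap.le_of_opNorm_le _
      (rep_smulH' (F'.dv_sm c) ((hF.dv c).2 j)).2 u) zero_le_one hs0 hR
  have h1 : ∀ u, ‖QQ F'.toPre F j T u - QQ F'.toPre F' j 0 u‖ ≤
      cL (Fintype.card ι) (cK ι j * |C j|) (cK ι j * |D j|) R * ‖ic F'.toPre V (j + 2) (j + 1) u‖ := by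
    intro u
    rw [h.QQ_eq hF, add_sub_right_comm, cL, add_mul]
    refine (norm_add_le _ _).trans (add_le_add (h0 u) ((norm_sum_le _ _).trans ?_))
    rw [mul_assoc]
    refine (Finset.sum_le_card_nsmul _ _ _ fun c _ => ?_).trans
      (by rw [nsmul_eq_mul, Finset.card_univ])
    refine (ContinuousLinearMap.le_of_opNorm_le _
      (rep_smulH' (h.cb c).1 ((h.cb c).2 j)).2 _).trans ?_
    rw [mul_assoc (cK ι j * |D j|)]
    refine mul_le_mul_of_nonneg_left ?_ hd0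
    simp only [Mon62.Nb, add_apply, ContinuousLinearMap.comp_apply, map_add, ic_Dt ha, add_mul, one_mul]
    exact (norm_add_le _ _).trans (add_le_add (norm_DH_le c _) ((norm_ic_le (Nat.le_succ j) _).trans
      ((norm_T2_le T c _).trans (mul_le_mul_of_nonneg_right hR (norm_nonneg _)))))
  have h2 : ∀ f : HT F'.toPre V j, ‖ic F'.toPre V j 0 f‖ ≤ 1 * ‖f‖ := fun f => by
    rw [one_mul]; exact norm_ic_le (Nat.zero_le _) f
  have hL : 0 ≤ cL (Fintype.card ι) (cK ι j * |C j|) (cK ι j * |D j|) R := by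
    unfold cL; positivity
  have h3 := interpH (V := V) hF (δ := (2 * (K₀ *
    cL (Fintype.card ι) (cK ι j * |C j|) (cK ι j * |D j|) R + 1))⁻¹) (by positivity) (j + 1)
  have hc0 : Coer (ic F'.toPre V (j + 2) 0) (ic F'.toPre V j 0) (3 / 4)
      (QQ F'.toPre F' j (0 : Mu F'.toPre V j)) := fun u =>
    le_trans (by nlinarith [sq_nonneg ‖ic F'.toPre V (j + 2) 0 u‖]) (Mon62.coer_adm ha zero_mem_adm u)
  exact ⟨hc0.bij (h.coer_closure hF hT) (by norm_num) hK hL (KJ_nn _ _ _) hs hb h1 h2 h3,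
    (h.coer_closure hF hT).bound (by norm_num) hK hL (KJ_nn _ _ _) hb h1 h2 h3⟩

theorem QQ_zero [FiniteDimensional ℝ V] (hF : F.Tame C) :
    QQ F.toPre F j (0 : Mu F.toPre V j) = Ell97.lapH F (fun _ _ => 0) j :=
  (rep_QQ (act_self hF) repM_zero).unique
    (Ell97.rep_lapH hF (fun _ => Cb_const _) (fun _ _ v w => by simp) j)

/-- **The weighted resolvent**, with constants depending on the bounds only. -/
theorem res_unif [FiniteDimensional ℝ V] (C D : ℕ → ℝ) (j : ℕ) (R : ℝ) : ∃ K, 0 ≤ K ∧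
    ∀ F F' : Fr I M ι, Dr F F' D → F'.Tame C → Ell97.Reg V F' →
      ∀ T ∈ closure (Adm V F'.toPre j), ‖T‖ ≤ R →
        Bijective (QQ F'.toPre F j T) ∧ ∀ u, ‖u‖ ≤ K * ‖QQ F'.toPre F j T u‖ := by
  obtain ⟨K, hK, h⟩ := Ell97.lap_unif (I := I) (M := M) (ι := ι) (V := V) fun k => |C k|
  refine ⟨|KW (Fintype.card ι) (Fintype.card ι * (1 + cK ι 0 * |C 0|)) (cK ι j * |C j|)
    (cK ι j * |D j|) (K j) R j|, abs_nonneg _, fun F F' hd hF hr T hT hR => ?_⟩
  have := hd.bij_QQ hF (hK j) (by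
      rw [QQ_zero hF]
      exact (Ell97.lapH_bij hr hF (fun _ => Cb_const _) (fun _ _ v w => by simp) j).2)
    (by
      rw [QQ_zero hF]
      exact h F' _ (Ell97.Tame_mono hF fun k => le_abs_self _)
        (fun _ => ⟨contMDiff_const, fun k => CB_mono (CB_const k _) (by simp)⟩)
        (fun _ _ v w => by simp) j) hT hR
  exact ⟨this.1, fun u => (this.2 u).trans
    (mul_le_mul_of_nonneg_right (le_abs_self _) (norm_nonneg _))⟩

end Crest.Agent.X212.Nk89
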