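import Crest.Agent.X212.Nk89.Gwc

/-!
# Row 212, GL-WALL (helper89): from the lower bound of a chart to the estimate of a side
-/

set_option autoImplicit false
set_option linter.unusedSectionVars false
noncomputable section
open scoped Manifold ContDiff Topology InnerProductSpace ENNReal NNReal
open MeasureTheory Set Function Filter

namespace Crest.Agent.X212.Nk89
open An Mod61 Map77 Met55 Prm93 Sob92 Hol14
open Gl67 (Sid Cm Eqn PP g0 q2 q2_mono q2_fst q2_snd N_fst N_snd sm_fst sm_snd)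

section alg
variable {P : Type} [NormedAddCommGroup P] {a : P} {C : ℝ≥0} {x : ℝ}

theorem nle (hx : 0 ≤ x) (e : q2 a ≤ C * q2 x) : ‖a‖ ≤ (C + 1) * x := by
  simpa only [add_zero, Real.norm_of_nonneg hx] using
    Gl67.le_of_q2 (ε := 0) le_rfl (e.trans le_self_add)

theorem nle1 (hx : 0 ≤ x) (e : q2 a ≤ q2 x) : ‖a‖ ≤ x := by
  rw [q2, q2, ENNReal.ofReal_le_ofReal_iff (sq_nonneg _), Real.norm_of_nonneg hx] at e
  exact (abs_le_of_sq_le_sq' e hx).2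

theorem qle (e : ‖a‖ ≤ C * x) : q2 a ≤ (C ^ 2 : ℝ≥0) * q2 x := by
  rw [q2, q2, ← ENNReal.ofReal_coe_nnreal, ← ENNReal.ofReal_mul (NNReal.coe_nonneg _)]
  refine ENNReal.ofReal_le_ofReal ?_
  rw [NNReal.coe_pow, ← mul_pow]
  exact pow_le_pow_left₀ (norm_nonneg _) (e.trans (by gcongr; exact le_abs_self x)) 2

theorem q2_ex {X : ℝ≥0∞} (hX : X ≠ ⊤) : ∃ x : ℝ, 0 ≤ x ∧ q2 x = X :=
  ⟨√X.toReal, Real.sqrt_nonneg _, by
    rw [q2, Real.norm_eq_abs, sq_abs, Real.sq_sqrt ENNReal.toReal_nonneg, ENNReal.ofReal_toReal hX]⟩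

theorem cst_alg {a b D : ℝ} (a0 : 0 ≤ a) (b1 : 1 ≤ b) (D0 : 0 ≤ D) (x0 : 0 ≤ x) :
    a * (D * x) ≤ ((a + b) * D + 1) * x ∧ b * (D * x) ≤ ((a + b) * D + 1) * x ∧
      D * x + x ≤ ((a + b) * D + 1) * x := by
  have := mul_nonneg D0 x0
  refine ⟨?_, ?_, ?_⟩ <;> nlinarith [mul_nonneg a0 this]

/-- the rows of a cut on `L²` and on the Hardy space -/
theorem cut_alg {V : Type} [NormedAddCommGroup V] [InnerProductSpace ℝ V] (K : Submodule ℝ V)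
    [K.HasOrthogonalProjection] (ψ0 a : K) {ψ : V} (h1 : ‖ψ‖ ≤ 1)
    (hx : ‖(a : V) + ((ψ0 + ψ) - K.orthogonalProjectionOnto (ψ0 + ψ))‖ ≤ x)
    (hn : ‖‖(ψ0 : V) + ψ‖ ^ 2 - 1‖ ≤ x) :
    ‖a‖ ≤ x ∧ ‖‖K.orthogonalProjectionOnto (ψ0 + ψ)‖ ^ 2 - 1‖ ≤ 2 * x ∧
      ‖K.orthogonalProjectionOnto (ψ0 + ψ) - ψ0‖ ≤ ‖ψ‖ ∧
      ‖ψ‖ ≤ ‖K.orthogonalProjectionOnto (ψ0 + ψ) - ψ0‖ + x ∧
      ∀ j : K, ⟪j, K.orthogonalProjectionOnto (ψ0 + ψ) - ψ0⟫_ℝ = ⟪(j : V), ψ⟫_ℝ := by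
  have x0 : 0 ≤ x := (norm_nonneg _).trans hx
  have e : K.orthogonalProjectionOnto (ψ0 + ψ) - ψ0 = K.orthogonalProjectionOnto ψ := by
    rw [map_add, K.orthogonalProjectionOnto_mem_subspace_eq_self, add_sub_cancel_left]
  set χ := K.orthogonalProjectionOnto (ψ0 + ψ)
  set b : V := (ψ0 + ψ) - χ
  have eb : b = ψ - K.orthogonalProjectionOnto ψ := by
    rw [← e, Submodule.coe_sub]; simp only [b]; abel
  have py : ∀ u : K, ‖(u : V) + b‖ ^ 2 = ‖u‖ ^ 2 + ‖b‖ ^ 2 := fun u => by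
    have : ⟪(u : V), b⟫_ℝ = 0 := by
      rw [eb, inner_sub_right, ← K.inner_orthogonalProjectionOnto_eq_of_mem_left, K.coe_inner,
        sub_self]
    rw [norm_add_sq_real, this, Submodule.coe_norm]; ring
  have p1 := py a
  have p2 := py χ
  have p3 := py (K.orthogonalProjectionOnto ψ)
  rw [show (χ : V) + b = ψ0 + ψ by simp only [b]; abel] at p2
  rw [show (K.orthogonalProjectionOnto ψ : V) + b = ψ by rw [eb]; abel] at p3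
  have h2 : ‖(a : V) + b‖ ^ 2 ≤ x ^ 2 := pow_le_pow_left₀ (norm_nonneg _) hx 2
  have b1 : ‖b‖ ≤ x := (abs_le_of_sq_le_sq' (by nlinarith [sq_nonneg ‖a‖]) x0).2
  have b2 : ‖b‖ ≤ 1 := (abs_le_of_sq_le_sq' (by
    nlinarith [sq_nonneg ‖K.orthogonalProjectionOnto ψ‖, norm_nonneg ψ]) zero_le_one).2
  rw [e]
  refine ⟨(abs_le_of_sq_le_sq' (by nlinarith [sq_nonneg ‖b‖]) x0).2, ?_,
    K.norm_orthogonalProjectionOnto_apply_le ψ, ?_,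
    fun j => K.inner_orthogonalProjectionOnto_eq_of_mem_left j ψ⟩
  · have := abs_le.1 hn
    exact abs_le.2 ⟨by nlinarith [norm_nonneg b], by nlinarith [norm_nonneg b]⟩
  · calc ‖ψ‖ = ‖(K.orthogonalProjectionOnto ψ : V) + b‖ := by rw [eb, add_sub_cancel]
      _ ≤ _ := (norm_add_le _ _).trans (add_le_add le_rfl b1)

end alg

variable {E : Type} [NormedAddCommGroup E] [NormedSpace ℝ E] [FiniteDimensional ℝ E]
  [MeasurableSpace E] [BorelSpace E]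
  {HM : Type} [TopologicalSpace HM] {I : ModelWithCorners ℝ E HM}
  {M : Type} [TopologicalSpace M] [ChartedSpace HM M] [IsManifold I ∞ M]
  [MeasurableSpace M] {ι : Type} [Fintype ι] {lam : Type} [Fintype lam]
  [I.Boundaryless] [T2Space M] [BorelSpace M] [SecondCountableTopology M]
  {T T' U Up R h : Type} [NormedAddCommGroup T] [NormedSpace ℝ T] [NormedAddCommGroup T']
  [NormedSpace ℝ T'] [NormedAddCommGroup U] [NormedSpace ℝ U] [NormedAddCommGroup Up]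
  [NormedSpace ℝ Up] [NormedAddCommGroup R] [NormedSpace ℝ R] [Fintype h] {N r n m : ℕ}
  {Jc : En (Fin N)} {B : Base M ι lam} {F0 : An.Fr I M ι} {G0 : Geo I M ι lam}
  {H : T' → Geo I M ι lam} {Q' : Set T'} {t₀ : T'} {θ : T →L[ℝ] T'} {Q : Set T} {δ : ℝ}

theorem cfg_congr {β : Md M ι lam → Type} (f : ∀ x : Cfg M ι lam r, β x.m) {m : Md M ι lam}
    {W W' : m.Cn} {Φ Φ' : M → m.V} {z z' : EuclideanSpace ℂ (Fin r)}
    (e : (⟨m, W, Φ, z⟩ : Cfg M ι lam r) = ⟨m, W', Φ', z'⟩) : f ⟨m, W, Φ, z⟩ = f ⟨m, W', Φ', z'⟩ := by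
  cases e; rfl

theorem crow_alg {k : Cut M lam} {F : An.Fr I M ι} {σ : Pc r B k} {c : Cfg M ι lam r} {x : ℝ}
    (ψ0 : k.H B c.m) {ψ : L2c (Fin c.m.N)} (h1 : ‖ψ‖ ≤ 1) (hx : ‖Gl67.crow k B F σ c (ψ0 + ψ)‖ ≤ x)
    (hn : ‖‖ψ0.1 + ψ‖ ^ 2 - 1‖ ≤ x) (χ : k.H B c.m)
    (e : χ = (Hd _ _).orthogonalProjectionOnto (ψ0.1 + ψ)) :
    ‖(k.T B F c.m c.W - σ c) χ‖ ≤ x ∧ ‖‖χ‖ ^ 2 - 1‖ ≤ 2 * x ∧ ‖χ - ψ0‖ ≤ ‖ψ‖ ∧
      ‖ψ‖ ≤ ‖χ - ψ0‖ + x ∧ ∀ j : k.H B c.m, ⟪j, χ - ψ0⟫_ℝ = ⟪j.1, ψ⟫_ℝ :=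
  e ▸ cut_alg _ ψ0 _ h1 hx hn

namespace Ch
variable {s : Sid (fS B H t₀ θ Q) N Jc U Up R} (K : Ch F0 G0 Q' δ s) (hδ : 0 ≤ δ) {k : ℕ}
  (hk : 4 ≤ k)
include K hδ hk

theorem qN {V : Type} [NormedAddCommGroup V] [InnerProductSpace ℝ V] [CompleteSpace V]
    (p : M → V →L[ℝ] V) : ∃ C : ℝ≥0, ∀ (u : F0.H k p) {f : M → V}, F0.val k p u = f → Sm I f →
      q2 u ≤ C * Gl67.N (H t₀).F.toPre (fun x => g0 δ (s.ht x)) univ k f ∧
        Gl67.N (H t₀).F.toPre (fun x => g0 δ (s.ht x)) univ k f ≤ C * q2 u := by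
  obtain ⟨S, hS⟩ := K.ok.sup hδ
  obtain ⟨C, hC⟩ := q2_N (Gl67.Sid.wtP (s := s) (δ := δ)) K.cmp hS K.fc.sup hk p
  exact ⟨C, fun u f e hf => e ▸ hC u (e ▸ hf)⟩

variable {c : Cm N r h R} {ct : h → Cut M lam} {ε : Eqn (fS B H t₀ θ Q) r n m ct}

/-- the gauge row -/
theorem rowb (hd : s.dr = fun a x => (Fs (fC B F0 G0 H Q') t₀).dv a x - (H t₀).F.dv a x)
    {ρ C : ℝ≥0} (ok : (s.sd c ε).Ok ρ) (lip : (s.sd c ε).Lip δ k ρ ρ C) :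
    ∃ C' ≥ (1 : ℝ), ∀ (w : Sec I s.bd.pC) (p : PP T U r h N), ‖p‖ ≤ ρ →
      (s.sd c ε).Q (g0 δ) univ (k + 1) w.1 ≤ ρ → ∀ x ≥ (0 : ℝ),
      (s.sd c ε).Q (g0 δ) univ k (s.eF c ε.e w p) ≤ q2 x → ∀ z t,
      ‖sig (Fs (fC B F0 G0 H Q')) k (K.pt 0 c.z0 K.t0) (sC' K.o r k t₀
        (F0.toH (k + 1) (bd K.o).pC w) + (0, 0, z, t))‖ ≤ C' * (x + ‖p.1‖) := by
  obtain ⟨Cg, hg⟩ := K.qN hδ hk K.o.Pg
  refine ⟨(Cg * (2 + 2 * C) : ℝ≥0) + 1, le_add_of_nonneg_left (NNReal.coe_nonneg _), fun w p hp hw x x0 hx z t => ?_⟩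
  have p0 : ‖((0, p.2) : PP T U r h N)‖ ≤ ρ :=
    (max_le (norm_zero.trans_le (norm_nonneg p)) (norm_snd_le p)).trans hp
  have s1 := ok.smE _ w.2 _ hp
  have s0 := ok.smE _ w.2 _ p0
  have l := lip 0 0 0 le_rfl le_rfl le_rfl _ w.2 _ w.2 _ _ p0 hp hw hw
  rw [sub_self, Gl67.Sd.Q_zero, zero_add] at l
  have a1 : q2 x ≤ q2 (x + ‖p.1‖) := q2_mono (by
    rw [Real.norm_of_nonneg x0, Real.norm_of_nonneg (by positivity)]; simp)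
  have a2 : q2 ((0, p.2) - p : PP T U r h N) ≤ q2 (x + ‖p.1‖) := q2_mono (by
    rw [Real.norm_of_nonneg (by positivity), Prod.norm_def]; simp; positivity)
  refine nle (by positivity) ((hg _ (K.val_row hk hd w _ z t) (sm_fst s0)).1.trans ?_)
  rw [ENNReal.coe_mul, mul_assoc]
  gcongr
  have e : s.row 0 w = (fun y => (s.eF c ε.e w p y).1) +
      fun y => ((s.eF c ε.e w (0, p.2) - s.eF c ε.e w p) y).1 := funext fun y => by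
    simp [Gl67.Sid.eF]
  refine (congrArg _ e).trans_le ((Gl67.N_add isOpen_univ .univ Subset.rfl
    (s.sm_pr δ 0 0 0).continuous (Gl67.smO (sm_fst s1)) (Gl67.smO (sm_fst (s0.sub s1)))).trans ?_)
  push_cast
  rw [add_mul, mul_assoc]
  gcongr
  · exact (N_fst s1).trans (hx.trans a1)
  · exact (N_fst (s0.sub s1)).trans (le_self_add.trans (l.trans (by gcongr)))

/-- the values -/
theorem valb {e : T' → PtX M ι lam r n m} (hD : ∀ t x, (e (t₀ + θ t)).D x = (ε.e t).D x)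
    (hC : ∀ t x, (e (t₀ + θ t)).C x = (ε.e t).C x)
    (hS : ∀ t x, ‖(e (t₀ + θ t)).S x‖ = ‖(ε.e t).S x‖)
    (hR : ∀ t x, (e (t₀ + θ t)).R x = (ε.e t).R x) :
    ∃ C' ≥ (2 : ℝ), ∀ (w : Sec I s.bd.pC) (p : PP T U r h N) (ht : t₀ + θ p.1 ∈ Q'),
      Sm I (s.eF c ε.e w p) → ∀ x ≥ (0 : ℝ),
      (s.sd c ε).Q (g0 δ) univ k (s.eF c ε.e w p) ≤ q2 x → ‖s.eR c ε w p‖ ≤ x →
      ∀ v : K.o.Y n m k, RepE e (K.pt w (c.z0 + p.2.2.1) ht) v → ‖v‖ ≤ C' * x := by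
  obtain ⟨Cm, hm⟩ := K.qN hδ hk K.o.Pm
  obtain ⟨C2, h2⟩ := K.qN hδ hk K.o.P2
  have m0 := Cm.coe_nonneg
  have c0 := C2.coe_nonneg
  refine ⟨Cm + C2 + 2, by linarith, fun w p ht s1 x x0 hx hr v hv => ?_⟩
  have e0 := K.cfg_pt c w p ht
  have e1 := hv.D.trans ((indicator_univ _).trans ((cfg_congr (β := fun m => M → m.V)
    (e (t₀ + θ p.1)).D e0).trans (hD _ _)))
  have e2 := hv.C.trans ((indicator_univ _).trans ((cfg_congr (β := fun m => M → Fm (ι × ι) m.A)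
    (e (t₀ + θ p.1)).C e0).trans (hC _ _)))
  have e3 := hv.S
  have e4 := hv.R
  rw [e0] at e3 e4
  have s2 := sm_snd s1
  have s3 := sm_snd s2
  have a1 := nle x0 ((hm _ e1 (sm_fst s2)).1.trans
    (mul_le_mul_right ((N_fst s2).trans ((N_snd s1).trans hx)) _))
  have a2 := nle x0 ((h2 _ e2 (sm_fst s3)).1.trans
    (mul_le_mul_right ((N_fst s3).trans ((N_snd s2).trans ((N_snd s1).trans hx))) _))
  have a3 : ‖v.2.2.1‖ ≤ x := ((congrArg _ e3).trans (hS _ _)).trans_le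
    ((norm_fst_le (s.eR c ε w p).1).trans ((norm_fst_le _).trans hr))
  have a4 : ‖v.2.2.2‖ ≤ x := (congrArg _ (e4.trans (hR _ _))).trans_le
    ((norm_snd_le (s.eR c ε w p).1).trans ((norm_fst_le _).trans hr))
  have b1 := mul_nonneg m0 x0
  have b2 := mul_nonneg c0 x0
  exact max_le (a1.trans (by linarith)) (max_le (a2.trans (by linarith))
    (max_le (a3.trans (by linarith)) (a4.trans (by linarith))))

omit hk in
/-- **the estimate of the side** -/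
theorem iso [FiniteDimensional ℝ T'] [Subsingleton U] (hk : 7 ≤ k) {hh : Type} [Fintype hh]
    {j : hh → h} (hj : Surjective j) {e : T' → PtX M ι lam r n m}
    {σ' : ∀ i, T' → Pc r B (ct (j i))} (hψ : ∀ i, c.ψ0 i ∈ Hd Jc (s.md.pp B (ct i).x0))
    (L : LowP (𝔉 := fC B F0 G0 H Q') (o := K.o) (κ := fun i => ct (j i)) k e σ'
      (K.pt 0 c.z0 K.t0) fun i => ⟨c.ψ0 (j i), hψ (j i)⟩)
    {Cθ : ℝ} (hθ : ∀ t, ‖t‖ ≤ Cθ * ‖θ t‖) (θ1 : ∀ t, ‖θ t‖ ≤ ‖t‖) (C1 : 1 ≤ Cθ)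
    (hD : ∀ t x, (e (t₀ + θ t)).D x = (ε.e t).D x) (hC : ∀ t x, (e (t₀ + θ t)).C x = (ε.e t).C x)
    (hS : ∀ t x, ‖(e (t₀ + θ t)).S x‖ = ‖(ε.e t).S x‖)
    (hR : ∀ t x, (e (t₀ + θ t)).R x = (ε.e t).R x)
    (hσ : ∀ t i x, σ' i (t₀ + θ t) x = ((ct (j i)).T (fS B H t₀ θ Q).B ((fS B H t₀ θ Q).G t).F
      x.m x.W - ε.σ t (j i) x :))
    (hd : s.dr = fun a x => (Fs (fC B F0 G0 H Q') t₀).dv a x - (H t₀).F.dv a x)
    (ok : ∃ ρ > 0, (s.sd c ε).Ok ρ) (lip : ∃ ρ C : ℝ≥0, 0 < ρ ∧ (s.sd c ε).Lip δ k ρ ρ C) :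
    ∃ K ρ : ℝ≥0, 0 < ρ ∧ ∀ w ∈ Sec I s.bd.pC, ∀ p, ‖p‖ ≤ ρ →
      (s.sd c ε).Q (g0 δ) univ (k + 1) w ≤ ρ → (s.sd c ε).Q (g0 δ) univ (k + 1) w + q2 p ≤
        K * ((s.sd c ε).Q (g0 δ) univ k ((s.sd c ε).E w p) + q2 ((s.sd c ε).e w p)) := by
  have k4 : 4 ≤ k := by omega
  obtain ⟨ρ₁, ρ1, ok⟩ := ok
  obtain ⟨ρ₂, C₂, ρ2, lip⟩ := lip
  obtain ⟨ρ₃, ρ3, hQ⟩ := Metric.isOpen_iff.1 K.fc.opn _ K.t0
  let ρ₄ : ℝ≥0 := min ρ₂ ⟨ρ₁, ρ1.le⟩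
  have r1 : (ρ₄ : ℝ) ≤ ρ₁ := min_le_right ρ₂ ⟨ρ₁, ρ1.le⟩
  have r2 : ρ₄ ≤ ρ₂ := min_le_left _ _
  have r2' : (ρ₄ : ℝ≥0∞) ≤ ρ₂ := ENNReal.coe_le_coe.2 r2
  have ρ4 : (0 : ℝ) < ρ₄ := (lt_min ρ2 ρ1 : 0 < ρ₄)
  have ok' : (s.sd c ε).Ok ρ₄ := ⟨ok.sm, fun w hw q hq => ok.smE w hw q (hq.trans r1)⟩
  obtain ⟨Cr, r0, hr⟩ := K.rowb hδ k4 hd ok' (C := C₂) fun x y z a1 a2 a3 w hw w' hw' q q' b1 b2
    b3 b4 => lip x y z a1 a2 a3 w hw w' hw' q q' (b1.trans r2) (b2.trans r2) (b3.trans r2')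
      (b4.trans r2')
  obtain ⟨Cv, v0, hv⟩ := K.valb hδ k4 (c := c) hD hC hS hR
  obtain ⟨Cw, hw⟩ := K.qN hδ (k := k + 1) (by omega) (bd K.o).pC
  obtain ⟨K', K0, ρ', ρ0, hL⟩ := L.le (Cr * Cθ) (by positivity)
  set S' := sC' K.o r k t₀
  set S := sC K.o r k t₀
  have w0 := Cw.coe_nonneg
  have c5 : 0 < ‖S'‖ * (Cw + 1) + 1 := by positivity
  obtain ⟨η, η0, η1, η2, η3, η4⟩ : ∃ η > (0 : ℝ), η ≤ 1 ∧ η ≤ ρ₄ ∧ η < ρ₃ ∧
      (‖S'‖ * (Cw + 1) + 1) * η ≤ ρ' := by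
    refine ⟨min 1 (min ρ₄ (min (ρ₃ / 2) (ρ' / (‖S'‖ * (Cw + 1) + 1)))), by positivity, by simp,
      by simp, lt_of_le_of_lt (by simp) (half_lt_self ρ3), ?_⟩
    rw [← le_div_iff₀' c5]; simp
  have η5 : η ^ 2 ≤ η := pow_le_of_le_one η0.le η1 two_ne_zero
  let C₇ : ℝ≥0 := ⟨(‖S‖ + Cθ) * (K' * (Cv + Cr)) + 1, by positivity⟩
  have c7 : (1 : ℝ≥0) ≤ C₇ := le_add_of_nonneg_left (a := (1 : ℝ)) (by positivity)
  refine ⟨(Cw + 1) * C₇ ^ 2, ⟨η ^ 2, by positivity⟩, (by positivity : 0 < η ^ 2),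
    fun w hw' p hp hq => ?_⟩
  lift w to Sec I s.bd.pC using hw'
  by_cases hX : (s.sd c ε).Q (g0 δ) univ k ((s.sd c ε).E w p) + q2 ((s.sd c ε).e w p) = ⊤
  · rw [hX, ENNReal.mul_top (by positivity)]; exact le_top
  obtain ⟨x, x0, hx⟩ := q2_ex hX
  have hE : (s.sd c ε).Q (g0 δ) univ k (s.eF c ε.e w p) ≤ q2 x := le_self_add.trans hx.ge
  have he : ‖s.eR c ε w p‖ ≤ x := nle1 x0 (le_add_self.trans hx.ge)
  rw [← hx]
  have p1 : ‖p‖ ≤ η := hp.trans η5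
  have q1 : (s.sd c ε).Q (g0 δ) univ (k + 1) w.1 ≤ q2 η := hq.trans_eq (by
    rw [q2, Real.norm_of_nonneg η0.le]; exact (ENNReal.ofReal_coe_nnreal).symm)
  have q2' : (s.sd c ε).Q (g0 δ) univ (k + 1) w.1 ≤ ρ₄ :=
    hq.trans (ENNReal.coe_le_coe.2 (η5.trans η2))
  have t1 : ‖θ p.1‖ ≤ η := (θ1 _).trans ((norm_fst_le p).trans p1)
  have ht : t₀ + θ p.1 ∈ Q' := hQ (by simpa using t1.trans_lt η3)
  have z1 : ‖p.2.2.1‖ ≤ η :=
    (norm_fst_le p.2.2).trans ((norm_snd_le p.2).trans ((norm_snd_le p).trans p1))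
  have ψ1 : ∀ i, ‖p.2.2.2 i‖ ≤ η := fun i => (norm_le_pi_norm _ i).trans
    ((norm_snd_le p.2.2).trans ((norm_snd_le p.2).trans ((norm_snd_le p).trans p1)))
  set u := F0.toH (k + 1) (bd K.o).pC w
  have hu := hw u (val_toH K.fc.sup (by omega) _) w.2.1
  have u1 : ‖u‖ ≤ (Cw + 1) * η := nle η0.le (hu.1.trans (mul_le_mul_right q1 _))
  set y := K.pt w (c.z0 + p.2.2.1) ht
  have eΔ : y.pt k - (K.pt 0 c.z0 K.t0).pt k = S' u + (0, 0, p.2.2.1, θ p.1) :=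
    K.pt_sub (by omega) w _ _ ht
  let ψ' : ∀ i, HH K.o (ct (j i)) := fun i => ⟨c.ψ0 (j i), hψ (j i)⟩
  let χ : ∀ i, HH K.o (ct (j i)) := fun i =>
    (Hd _ _).orthogonalProjectionOnto (c.ψ0 (j i) + p.2.2.2 (j i))
  have g1 := (norm_snd_le (s.eR c ε w p)).trans he
  have g2 := (norm_snd_le (s.eR c ε w p).2).trans g1
  have ev : ∀ i, evC (𝔉 := fC B F0 G0 H Q') (σ' i) y = _ := fun i =>
    (cfg_congr (β := fun m => CL ((ct (j i)).H B m) ((ct (j i)).H B m))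
      (σ' i (t₀ + θ p.1)) (K.cfg_pt c w p ht)).trans (hσ _ _ _)
  have hc := fun i => crow_alg (x := x) (c := s.cfg c w p) (ψ' i) ((ψ1 (j i)).trans η1)
    ((norm_le_pi_norm (s.eR c ε w p).2.1 (j i)).trans ((norm_fst_le _).trans g1))
    ((norm_le_pi_norm (s.eR c ε w p).2.2.1 (j i)).trans ((norm_fst_le _).trans g2)) (χ i) rfl
  obtain ⟨v, rv⟩ := L.ex y
  have b := hL y χ v rv (by
    rw [eΔ]
    refine le_trans (max_le ((norm_add_le _ _).trans (add_le_add ((S'.le_opNorm u).trans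
      (mul_le_mul_of_nonneg_left u1 (norm_nonneg _))) (max_le (by simpa using η0.le) (max_le
        (by simpa using η0.le) (max_le z1 t1))))) ((pi_norm_le_iff_of_nonneg (by positivity)).2
          fun i => ((hc i).2.2.1.trans (ψ1 _)).trans (le_add_of_nonneg_left (by positivity))))
      (η4.trans_eq' (by ring))) (Cr * x) (by positivity) (by
    rw [eΔ, show y.t - (K.pt 0 c.z0 K.t0).t = θ p.1 from add_sub_cancel_left _ _]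
    refine max_le ((hr w p (p1.trans η2) q2' x x0 hE _ _).trans ?_)
      ((pi_norm_le_iff_of_nonneg (by positivity)).2 fun i => ?_)
    · rw [mul_add, mul_assoc]; gcongr; exact hθ _
    · refine (congrArg _ (((hc i).2.2.2.2 _).trans (congrArg (⟪·, p.2.2.2 (j i)⟫_ℝ)
        (JH_coe (cpC K.fc K.o) (ψ' i))))).trans_le (((norm_le_pi_norm (s.eR c ε w p).2.2.2.1
          (j i)).trans ((norm_fst_le _).trans ((norm_snd_le (s.eR c ε w p).2.2).trans g2))).trans ?_)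
      exact (le_mul_of_one_le_left x0 r0).trans (le_add_of_nonneg_right (by positivity)))
  have c1 : ‖v‖ ≤ Cv * x := hv w p ht (ok'.smE _ w.2 _ (p1.trans η2)) x x0 hE he v rv
  have c2 : ∀ i, ‖evC (𝔉 := fC B F0 G0 H Q') (σ' i) y (χ i)‖ ≤ Cv * x := fun i => by
    rw [ev i]; exact (hc i).1.trans (le_mul_of_one_le_left x0 (one_le_two.trans v0))
  have c3 : ∀ i, ‖‖χ i‖ ^ 2 - 1‖ ≤ Cv * x := fun i =>
    (hc i).2.1.trans (mul_le_mul_of_nonneg_right v0 x0)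
  have c0 := (norm_nonneg v).trans c1
  have b2 := b.trans (mul_le_mul_of_nonneg_left (add_le_add_left (max_le c1 (max_le
    ((pi_norm_le_iff_of_nonneg c0).2 c2) ((pi_norm_le_iff_of_nonneg c0).2 c3))) _) K0)
  rw [← add_mul, ← mul_assoc, eΔ] at b2
  obtain ⟨f1, f2, f3⟩ := cst_alg (norm_nonneg S) C1 (show 0 ≤ K' * (Cv + Cr) by positivity) x0
  have d1 := (norm_fst_le _).trans b2
  have d2 : ‖(p.2.2.1, θ p.1)‖ ≤ _ := (congrArg _ (zero_add _).symm).trans_le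
    ((norm_snd_le (S' u + (0, 0, p.2.2.1, θ p.1)).2).trans ((norm_snd_le _).trans d1))
  have a1 : ‖u‖ ≤ C₇ * x := (congrArg _ (K.sC_sub u _ _).symm).trans_le
    (((S.le_opNorm _).trans (mul_le_mul_of_nonneg_left d1 (norm_nonneg _))).trans f1)
  have a2 : ‖p‖ ≤ C₇ * x := by
    refine max_le ?_ (max_le ?_ (max_le ?_ ((pi_norm_le_iff_of_nonneg (by positivity)).2 fun i => ?_)))
    · exact ((hθ p.1).trans (mul_le_mul_of_nonneg_left ((norm_snd_le (p.2.2.1, θ p.1)).trans d2)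
        (zero_le_one.trans C1))).trans f2
    · rw [Subsingleton.elim p.2.1 0, norm_zero]; positivity
    · exact ((norm_fst_le (p.2.2.1, θ p.1)).trans d2).trans ((le_add_of_nonneg_right x0).trans f3)
    · obtain ⟨i, rfl⟩ := hj i
      exact ((hc i).2.2.2.1.trans (add_le_add_left ((norm_le_pi_norm (χ - ψ') i).trans
        ((norm_snd_le (S' u + (0, 0, p.2.2.1, θ p.1), χ - ψ')).trans b2)) x)).trans f3
  refine (add_le_add (hu.2.trans (mul_le_mul_right (qle a1) _)) (qle a2)).trans_eq ?_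
  push_cast
  ring

end Ch

end Crest.Agent.X212.Nk89
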