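import Crest.Agent.X212.Nk89.Dic

/-! Operators which are asymptotic to operators on the cylinders of the ends. -/

set_option autoImplicit false
set_option linter.unusedSectionVars false
noncomputable section
open scoped Manifold ContDiff Topology InnerProductSpace ENNReal
open MeasureTheory Set Function Filter

namespace Crest.Agent.X212.Nk89
open An An.Pre Sob92 Prm93 Fred93 Mod61 Map77 Nd18 Cyf70 Ell97

variable {E : Type} [NormedAddCommGroup E] [NormedSpace ℝ E] [FiniteDimensional ℝ E]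
  [MeasurableSpace E] [BorelSpace E]
  {HM : Type} [TopologicalSpace HM] {I : ModelWithCorners ℝ E HM} [I.Boundaryless]
  {M : Type} [TopologicalSpace M] [ChartedSpace HM M] [IsManifold I ∞ M]
  [MeasurableSpace M] [T2Space M] [BorelSpace M] [SecondCountableTopology M]
  {ι κ : Type} [Fintype ι] [Fintype κ] {lam : Type} [Fintype lam]
  {T : Type} [NormedAddCommGroup T] [NormedSpace ℝ T]
  {V W : Type} [NormedAddCommGroup V] [InnerProductSpace ℝ V] [FiniteDimensional ℝ V]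
  [NormedAddCommGroup W] [InnerProductSpace ℝ W] [FiniteDimensional ℝ W]

/-! ### the interior -/

section int
variable {F G : Fr I M ι} {A : Op M ι V W} {θ : M → ℝ} (t : Tw F G) (hA : Nc F.toPre G.P A)
  (h : Sm I θ) (hc : HasCompactSupport θ)
include t hA h hc

theorem cq_comm (k : ℕ) : Cq (smulH F.toPre k A.q θ ∘L LH F.toPre G.toPre k A.p A.q A)
    (LH F.toPre G.toPre k A.p A.q A ∘L smulH F.toPre (k + 1) A.p θ) := by
  have cθ : F.Cb θ := Cb_of_hcs h hc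
  obtain ⟨K, e⟩ := comm_smul (k := k) cθ t hA
  obtain ⟨χ, h1, h2, -, h3⟩ := t.t0.choose_spec.exh _ hc
  have r := RepT_sub (RepT_comp (rep_smulH cθ) (t.rep hA k)) (RepT_comp (t.rep hA k) (rep_smulH cθ))
  have e1 := RepT_eq r (RepT_comp (rep_smulH ⟨_, h1⟩) r) fun u => funext fun x => by
    by_cases hx : x ∈ tsupport θ
    · simp only [h3 x hx, one_smul]
    · simp only [Pi.sub_apply, image_eq_zero_of_notMem_tsupport hx, zero_smul,
        image_eq_zero_of_notMem_tsupport fun e => hx (tsupport_smul_subset_left _ _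
          (tsupport_op (F := G.toPre) A.σ A.B (fun x => θ x • u.1 x) e)), sub_zero, smul_zero]
  rw [Cq, e1, e, add_sub_cancel_left]
  exact (lc_incl K χ h1.1 h2).cpt

/-- the interior parametrices -/
theorem int_par (cl : A.Cliff G) {j : ℕ} {L : F.H (j + 2) A.p →L[ℝ] F.H (j + 1) A.q}
    (h1 : Cq (smulH F.toPre _ A.q θ ∘L L)
      (smulH F.toPre _ A.q θ ∘L LH F.toPre G.toPre (j + 1) A.p A.q A))
    (h2 : Cq (smulH F.toPre _ A.q θ ∘L L) (L ∘L smulH F.toPre _ A.p θ)) :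
    (∃ Q, Cq (Q ∘L L) (smulH F.toPre _ A.p θ)) ∧ ∃ Q, Cq (L ∘L Q) (smulH F.toPre _ A.q θ) := by
  obtain ⟨Q, R, e⟩ := exists_left t hA cl j
  obtain ⟨Q', R', e'⟩ := exists_right t hA cl (j + 1)
  have c1 := (Cht98.rellich_smul (F := F.toPre) (q := A.p) h hc (j + 1).lt_succ_self).clm_comp R
  have c2 := (Cht98.rellich_smul (F := F.toPre) (q := A.q) h hc (j + 1).lt_succ_self).comp_clm R'
  have q1 : Cq (smulH F.toPre (j + 2) A.p θ)
      (Q ∘L LH F.toPre G.toPre (j + 1) A.p A.q A ∘L smulH F.toPre (j + 2) A.p θ) :=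
    .of_cpt (K := R ∘L smulH F.toPre _ A.p θ ∘L F.incl (j + 2) (j + 1) A.p) c1 fun x =>
      (e _).symm.trans (congrArg (_ + R ·) (incl_smulH (Cb_of_hcs h hc) (j + 1).le_succ x))
  have q2 : Cq (smulH F.toPre (j + 1) A.q θ)
      ((smulH F.toPre (j + 1) A.q θ ∘L LH F.toPre G.toPre (j + 1) A.p A.q A) ∘L Q') :=
    .of_cpt (K := (smulH F.toPre _ A.q θ ∘L F.incl (j + 2) (j + 1) A.q) ∘L R') c2 fun x =>
      (congrArg _ (e' x).symm).trans (map_add _ _ _)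
  exact ⟨⟨Q ∘L smulH F.toPre _ A.q θ, ((h1.trans (cq_comm t hA h hc _)).left Q).trans q1.symm⟩,
    smulH F.toPre _ A.p θ ∘L Q', ((h2.symm.trans h1).right Q').trans q2.symm⟩

end int

theorem hc_mul {sg c c' : ℝ} (h : c' + 1 ≤ c) (s : ℝ) : hc sg c s * hc sg c' s = hc sg c s := by
  rcases le_total (sg * s) c with e | e
  · rw [hc_zero e, zero_mul]
  · rw [hc_one (h.trans e), mul_one]

theorem ar_sml (n : ℕ) {ε N N' w η : ℝ} (hε : 0 < ε) (h : 0 ≤ N) (h' : 0 ≤ N') (hw : 0 ≤ w)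
    (e : η = ε / ((n + 1) * ((N' + 1) * (N + 1)))) :
    n • ((N' + 1) * (η * ((N + 1) * w))) ≤ ε * w := by
  rw [nsmul_eq_mul, e]
  refine (mul_le_mul_of_nonneg_right (lt_add_one _).le (by positivity)).trans (le_of_eq ?_)
  field_simp

theorem End.OK.of_θ {𝔉 : Fam I M (Option κ) lam T} {P : End 𝔉} {ψ : M → ℝ} {δ R c : ℝ} {x : M}
    (h : P.OK ψ δ R) (hc : R ≤ c) (hx : P.θ c x ≠ 0) : ∃ z ∈ P.H c, P.K.ψ z = x :=
  h.exists_ψ ((h.mem_U hc).2 (not_le.1 fun e => hx (hc_zero e)))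

/-- locality of an operator on a cylinder in the direction `sg` -/
def NlZ {E3 : Type} [NormedAddCommGroup E3] [NormedSpace ℝ E3] [FiniteDimensional ℝ E3]
    [MeasurableSpace E3] [BorelSpace E3] {H3 : Type} [TopologicalSpace H3]
    {I3 : ModelWithCorners ℝ E3 H3} {Y : Type} [TopologicalSpace Y] [ChartedSpace H3 Y]
    [IsManifold I3 ∞ Y] [T2Space Y] [MeasurableSpace Y] [BorelSpace Y] [SecondCountableTopology Y]
    {F : Pre (IC I3) (Y × ℝ) ι} {k : ℕ} {p : Y × ℝ → V →L[ℝ] V} {q : Y × ℝ → W →L[ℝ] W} (sg : ℝ)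
    (A : F.H (k + 1) p →L[ℝ] F.H k q) : Prop :=
  ∀ b : ℝ, ∀ ε > 0, ∀ᶠ c in atTop, ∀ u : Sec (IC I3) p, (∀ z : Y × ℝ, b < sg * z.2 → u.1 z = 0) →
    ‖smulH F k q (fun z => hc sg c z.2) (A (F.toH _ _ u))‖ ≤ ε * ‖F.toH (k + 1) _ u‖

namespace Ends
variable {𝔉 : Fam I M (Option κ) lam T} {δ : ℝ} (X : Ends 𝔉 δ) (a : X.A)
  (O' : Set ((X.P a).Y.M × ℝ)) (b : ℝ) (k : ℕ) (p : M → V →L[ℝ] V)
  (p' : (X.P a).Y.M × ℝ → V →L[ℝ] V)

/-- the frame of the cylinder of an end -/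
abbrev FZ : Fr (IC (X.P a).Y.I) ((X.P a).Y.M × ℝ) (Option κ) := (famZ T0 (X.P a).D δ O').F0

/-- restriction to the cylinder -/
def rs : 𝔉.F0.H k p →L[ℝ] (X.FZ a O').H k p' :=
  tp k _ _ ((X.P a).ch b) ((X.P a).θ (b + 1)) p' p

/-- extension from the cylinder -/
def ex : (X.FZ a O').H k p' →L[ℝ] 𝔉.F0.H k p :=
  tp k _ _ ((X.P a).ch b).symm ((X.P a).θZ (b + 1)) p p'

/-- the bundles agree above the height `b` -/
structure Mb : Prop where
  hb : X.R ≤ b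
  h1 : 1 ≤ b
  eq : ∀ z ∈ (X.P a).H b, p' z = p ((X.P a).K.ψ z)

/-- the interior cut-off -/
def θ0 (x : M) : ℝ := 1 - ∑ a, (X.P a).θ (b + 1) x ^ 2

theorem supZ : ∃ S, Sup (X.FZ a O').toPre S := ⟨_, (X.okZ a 0).sup⟩

theorem cb_θZ (c : ℝ) : (X.FZ a O').Cb ((X.P a).θZ c) := cb_hcZ (X.P a).sg_cases c

variable {k p p'} {q : M → W →L[ℝ] W} {q' : (X.P a).Y.M × ℝ → W →L[ℝ] W}

/-- `A` is asymptotic to `A'` -/
def Asy (A : 𝔉.F0.H (k + 1) p →L[ℝ] 𝔉.F0.H k q)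
    (A' : (X.FZ a O').H (k + 1) p' →L[ℝ] (X.FZ a O').H k q') : Prop :=
  ∀ b' : ℝ, ∀ ε > 0, ∀ᶠ c in atTop, ∀ (u : Sec I p) (u' : Sec _ p'),
    (∀ z, b' < (X.P a).sg * z.2 → u'.1 z = u.1 ((X.P a).K.ψ z)) →
    ‖smulH _ k q' ((X.P a).θZ c) (X.rs a O' b k q q' (A (𝔉.F0.toH _ _ u)) -
      A' ((X.FZ a O').toH _ _ u'))‖ ≤
      ε * ‖(𝔉.F0.toH (k + 1) _ u, (X.FZ a O').toH (k + 1) _ u')‖

/-- locality at an end -/
def Nl (A : 𝔉.F0.H (k + 1) p →L[ℝ] 𝔉.F0.H k q) : Prop :=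
  ∀ b' : ℝ, ∀ ε > 0, ∀ᶠ c in atTop, ∀ u : Sec I p, (∀ x ∈ (X.P a).U b', u.1 x = 0) →
    ‖smulH _ k q ((X.P a).θ c) (A (𝔉.F0.toH _ _ u))‖ ≤ ε * ‖𝔉.F0.toH (k + 1) _ u‖

theorem sum_θ {c : ℝ} (hc : X.R ≤ c) {x : M} (hx : x ∈ (X.P a).U (c + 1)) (n : ℕ) :
    ∑ a', (X.P a').θ c x ^ (n + 1) = 1 := by
  rw [Finset.sum_eq_single a (fun a' _ e => by
    rw [X.θ_off e.symm hc ((X.P a).U_mono (by linarith) hx), zero_pow n.succ_ne_zero]) (by simp),
    show (X.P a).θ c x = 1 from hc_one hx.2.le, one_pow]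

variable {X a O' b}

theorem sm_θ0 (hb : X.R ≤ b) : Sm I (X.θ0 b) := contMDiff_const.sub
  (contMDiff_finset_sum fun a _ => ((X.cb_θ a (by linarith)).choose_spec.1).pow 2)

theorem hcs_θ0 (hb : X.R ≤ b) : HasCompactSupport (X.θ0 b) :=
  X.hcs (b + 1 + 1) fun a x hx => by rw [θ0, X.sum_θ a (by linarith) hx, sub_self]

theorem nl_off (hk : 4 ≤ k) (hb : X.R ≤ b) (h : ∀ x ∈ (X.P a).U b, q x = 0)
    (A : 𝔉.F0.H (k + 1) p →L[ℝ] 𝔉.F0.H k q) : X.Nl a A := fun _ ε hε => by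
  filter_upwards [eventually_ge_atTop b] with c hc u _
  rw [show smulH _ k q ((X.P a).θ c) (A (𝔉.F0.toH _ _ u)) = 0 from
    val_injective X.ok.sup hk (funext fun x => ?_), norm_zero]
  · positivity
  rw [val_smulH X.ok.sup hk (X.cb_θ a (hb.trans hc)), val_zero, Pi.zero_apply, smul_eq_zero,
    or_iff_not_imp_left]
  intro e
  obtain ⟨z, hz, rfl⟩ := (X.okP a).of_θ (hb.trans hc) e
  rw [← val_proj X.ok.sup hk, h _ ((X.okP a).ψ_mem hb (hc.trans_lt hz)), _root_.zero_apply]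

namespace Mb
variable (h : X.Mb a b p p') (hk : 4 ≤ k) {c : ℝ}
include h

theorem ct (O' : Set ((X.P a).Y.M × ℝ)) : Ct (X.FZ a O').toPre 𝔉.F0.toPre ((X.P a).ch b)
    ((X.P a).θZ (b + 1)) ((X.P a).θ (b + 1)) := X.ct a h.hb h.h1 (lt_add_one b) O'

theorem eq' (x : M) (hx : x ∈ ((X.P a).ch b).symm.source) : p x = p' (((X.P a).ch b).symm x) := by
  rw [h.eq _ (((X.P a).ch b).map_target hx).2, ← End.ch_apply _ b, ((X.P a).ch b).right_inv hx]

include hk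

theorem val_rs (u : 𝔉.F0.H k p) (z : (X.P a).Y.M × ℝ) : (X.FZ a O').val k p' (X.rs a O' b k p p' u) z =
    (X.P a).θZ (b + 1) z • 𝔉.F0.val k p u ((X.P a).K.ψ z) :=
  (h.ct O').val (fun z hz => h.eq z hz.2) (X.supZ a O').choose_spec X.ok.sup hk u z

theorem val_ex (u : (X.FZ a O').H k p') (x : M) : 𝔉.F0.val k p (X.ex a O' b k p p' u) x =
    (X.P a).θ (b + 1) x • (X.FZ a O').val k p' u ((X.P a).K.ψ.symm x) :=
  (h.ct O').symm.val h.eq' X.ok.sup (X.supZ a O').choose_spec hk u x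

theorem exists_rs (u : Sec I p) : ∃ u' : Sec _ p', X.rs a O' b k p p' (𝔉.F0.toH _ _ u) =
    (X.FZ a O').toH _ _ u' ∧ ∀ z, u'.1 z = (X.P a).θZ (b + 1) z • u.1 ((X.P a).K.ψ z) := by
  obtain ⟨v, -, e⟩ := (h.ct O').rep (k := k) (fun z hz => h.eq z hz.2) u
  have e' : X.rs a O' b k p p' _ = _ := e
  exact ⟨v, e, fun z => by
    rw [← val_toH (X.supZ a O').choose_spec hk v, ← e', h.val_rs hk, val_toH X.ok.sup hk]⟩

theorem exists_ex (u : Sec _ p') : ∃ v : Sec I p, X.ex a O' b k p p' ((X.FZ a O').toH _ _ u) =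
    𝔉.F0.toH _ _ v ∧ ∀ x, v.1 x = (X.P a).θ (b + 1) x • u.1 ((X.P a).K.ψ.symm x) := by
  obtain ⟨v, -, e⟩ := (h.ct O').symm.rep (k := k) h.eq' u
  have e' : X.ex a O' b k p p' _ = _ := e
  exact ⟨v, e, fun z => by
    rw [← val_toH X.ok.sup hk v, ← e', h.val_ex hk, val_toH (X.supZ a O').choose_spec hk]⟩

theorem val_ex_rs (u : 𝔉.F0.H k p) (x : M) : 𝔉.F0.val k p (X.ex a O' b k p p'
    (X.rs a O' b k p p' u)) x = (X.P a).θ (b + 1) x ^ 2 • 𝔉.F0.val k p u x := by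
  have hb := h.hb
  rw [h.val_ex hk, h.val_rs hk]
  by_cases e : (X.P a).θ (b + 1) x = 0
  · simp [e]
  obtain ⟨z, hz, rfl⟩ := (X.okP a).of_θ (by linarith) e
  have hz' : X.R ≤ (X.P a).sg * z.2 := le_trans (by linarith) hz.le
  rw [(X.P a).K.ψ.left_inv ((X.okP a).src hz'), ← (X.okP a).θ_ψ hz', smul_smul, sq]

theorem cut_eq (hc : b + 1 + 1 ≤ c) (u : 𝔉.F0.H k p) : smulH _ k p ((X.P a).θ c) u =
    X.ex a O' b k p p' (smulH _ k p' ((X.P a).θZ c) (X.rs a O' b k p p' u)) := by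
  have hb := h.hb
  refine val_injective X.ok.sup hk (funext fun x => ?_)
  rw [val_smulH X.ok.sup hk (X.cb_θ a (by linarith)), h.val_ex hk,
    val_smulH (X.supZ a O').choose_spec hk (X.cb_θZ a O' c), h.val_rs hk]
  have m : (X.P a).θ c x * (X.P a).θ (b + 1) x = (X.P a).θ c x := hc_mul hc _
  by_cases e : (X.P a).θ (b + 1) x = 0
  · rw [← m, e, mul_zero, zero_smul, zero_smul]
  obtain ⟨z, hz, rfl⟩ := (X.okP a).of_θ (by linarith) e
  have hz' : X.R ≤ (X.P a).sg * z.2 := le_trans (by linarith) hz.le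
  rw [(X.P a).K.ψ.left_inv ((X.okP a).src hz'), ← (X.okP a).θ_ψ hz', ← (X.okP a).θ_ψ hz', smul_smul,
    smul_smul, mul_comm _ ((X.P a).θ c _), m, m]

theorem cut_rs_ex (hc : b + 1 + 1 ≤ c) (u : (X.FZ a O').H k p') : smulH _ k p' ((X.P a).θZ c)
    (X.rs a O' b k p p' (X.ex a O' b k p p' u)) = smulH _ k p' ((X.P a).θZ c) u := by
  have hb := h.hb
  have s := (X.supZ a O').choose_spec
  refine val_injective s hk (funext fun z => ?_)
  rw [val_smulH s hk (X.cb_θZ a O' c), val_smulH s hk (X.cb_θZ a O' c), h.val_rs hk, h.val_ex hk]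
  rcases le_total ((X.P a).sg * z.2) c with e | e
  · rw [show (X.P a).θZ c z = 0 from hc_zero e, zero_smul, zero_smul]
  have hz' : X.R ≤ (X.P a).sg * z.2 := le_trans (by linarith) e
  rw [(X.P a).K.ψ.left_inv ((X.okP a).src hz'), (X.okP a).θ_ψ hz',
    show (X.P a).θZ (b + 1) z = 1 from hc_one (hc.trans e), one_smul, one_smul]

theorem cut_ex {a' : X.A} (ha : a' ≠ a) (hc : X.R ≤ c) (u : (X.FZ a O').H k p') :
    smulH _ k p ((X.P a').θ c) (X.ex a O' b k p p' u) = 0 := by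
  have hb := h.hb
  refine val_injective X.ok.sup hk (funext fun x => ?_)
  rw [val_smulH X.ok.sup hk (X.cb_θ a' hc), h.val_ex hk, val_zero, Pi.zero_apply]
  by_cases e : (X.P a').θ c x = 0
  · rw [e, zero_smul]
  obtain ⟨z, hz, rfl⟩ := (X.okP a').of_θ hc e
  rw [X.θ_off ha (by linarith) ((X.okP a').ψ_mem le_rfl (hc.trans_lt hz)), zero_smul, smul_zero]

theorem cut_rs (hc : 0 ≤ c) (u : 𝔉.F0.H k p) :
    smulH _ k p' (fun z => Nk89.hc (-(X.P a).sg) c z.2) (X.rs a O' b k p p' u) = 0 := by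
  have h1 := h.h1
  have s := (X.supZ a O').choose_spec
  refine val_injective s hk (funext fun z => ?_)
  rw [val_smulH s hk (cb_hcZ ((X.P a).sg_cases.symm.imp (by simp +contextual) (by simp +contextual))
    c), h.val_rs hk, val_zero, Pi.zero_apply]
  rcases le_total ((X.P a).sg * z.2) 0 with e | e
  · rw [show (X.P a).θZ (b + 1) z = 0 from hc_zero (by linarith), zero_smul, smul_zero]
  · rw [hc_zero (by linarith), zero_smul]

end Mb

variable {A : 𝔉.F0.H (k + 1) p →L[ℝ] 𝔉.F0.H k q}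
  {A' : (X.FZ a O').H (k + 1) p' →L[ℝ] (X.FZ a O').H k q'} (h : X.Asy a O' b A A') (hk : 4 ≤ k)
  (hq : X.Mb a b q q')
include h hk hq

theorem Asy.nl : X.Nl a A := fun b' ε hε => by
  set N := ‖X.ex a O' b k q q'‖
  filter_upwards [h (max b' X.R) (ε / (N + 1)) (by positivity), eventually_ge_atTop (b + 1 + 1)]
    with c h1 hc u hu
  have h2 := h1 u 0 fun z hz => (hu _ ((X.P a).U_mono (le_max_left _ _)
    ((X.okP a).ψ_mem (le_max_right _ _) hz))).symm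
  rw [map_zero, map_zero, sub_zero, Prod.norm_mk, norm_zero, max_eq_left (norm_nonneg _)] at h2
  rw [hq.cut_eq hk hc (O' := O')]
  refine (ContinuousLinearMap.le_opNorm _ _).trans ((mul_le_mul_of_nonneg_left h2
    (norm_nonneg _)).trans ?_)
  rw [← mul_assoc, ← mul_div_assoc]
  exact mul_le_mul_of_nonneg_right ((div_le_iff₀ (by positivity)).2 (by linarith)) (norm_nonneg _)

variable (hp : X.Mb a b p p')
include hp

theorem Asy.sml_rs (hZ : NlZ (-(X.P a).sg) A') :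
    Sml (X.rs a O' b k q q' ∘L A - A' ∘L X.rs a O' b (k + 1) p p') := fun ε hε => by
  obtain ⟨N, hN⟩ : ∃ N, N = ‖X.rs a O' b (k + 1) p p'‖ := ⟨_, rfl⟩
  have N0 : 0 ≤ N := hN ▸ norm_nonneg _
  have h1 := hp.h1
  have s := (X.supZ a O').choose_spec
  obtain ⟨c, ⟨c1, c2⟩, c0⟩ := (((h (b + 1 + 1) (ε / (2 * (N + 1))) (by positivity)).and
    (hZ 0 (ε / (2 * (N + 1))) (by positivity))).and (eventually_ge_atTop 0)).exists
  have b1 := X.cb_θZ a O' c
  have b2 : (X.FZ a O').Cb fun z => hc (-(X.P a).sg) c z.2 :=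
    cb_hcZ ((X.P a).sg_cases.symm.imp (by simp +contextual) (by simp +contextual)) c
  have b3 := Cb_sub (Cb_sub (Cb_const (1 : ℝ)) b1) b2
  refine ⟨_, b3.choose_spec.1, HasCompactSupport.intro (isCompact_univ.prod (isCompact_Icc
    (a := -(c + 1)) (b := c + 1))) fun z hz => ?_, norm_le_of_sec hε.le fun u => ?_⟩
  · have : c + 1 ≤ (X.P a).sg * z.2 ∨ c + 1 ≤ -(X.P a).sg * z.2 := by
      rcases (X.P a).sg_cases with e | e <;> rw [e] <;> by_contra! H <;>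
        exact hz ⟨trivial, by linarith, by linarith⟩
    rcases this with e | e
    · simp only [Pi.sub_apply, End.θZ, hc_one e, hc_zero (sg := -(X.P a).sg) (c := c) (s := z.2)
        (by linarith), sub_self]
    · simp only [Pi.sub_apply, End.θZ, hc_one e, hc_zero (sg := (X.P a).sg) (c := c) (s := z.2)
        (by linarith), sub_self, sub_zero]
  obtain ⟨u', e1, e2⟩ := hp.exists_rs (O' := O') (k := k + 1) (by omega) u
  have n1 : ‖(X.FZ a O').toH (k + 1) _ u'‖ ≤ N * ‖𝔉.F0.toH (k + 1) _ u‖ :=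
    hN ▸ e1 ▸ ContinuousLinearMap.le_opNorm _ _
  have n0 := norm_nonneg (𝔉.F0.toH (k + 1) _ u)
  have n2 := c1 u u' fun z hz => by
    rw [e2, show (X.P a).θZ (b + 1) z = 1 from hc_one hz.le, one_smul]
  have n3 := c2 u' fun z hz => by
    rw [e2, show (X.P a).θZ (b + 1) z = 0 from hc_zero (by linarith), zero_smul]
  have e3 : ∀ w : (X.FZ a O').H k q', w - smulH _ k q' (((fun _ => 1) - (X.P a).θZ c) -
      fun z => hc (-(X.P a).sg) c z.2) w = smulH _ k q' ((X.P a).θZ c) w +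
        smulH _ k q' (fun z => hc (-(X.P a).sg) c z.2) w := fun w =>
    val_injective s hk (funext fun z => by
      simp only [val_sub, val_add, Pi.sub_apply, Pi.add_apply, val_smulH s hk b1,
        val_smulH s hk b2, val_smulH s hk b3, sub_smul, one_smul]
      abel)
  have n4 : ‖(𝔉.F0.toH (k + 1) _ u, (X.FZ a O').toH (k + 1) _ u')‖ ≤
      (N + 1) * ‖𝔉.F0.toH (k + 1) _ u‖ :=
    max_le (le_mul_of_one_le_left n0 (le_add_of_nonneg_left N0))
      (n1.trans (mul_le_mul_of_nonneg_right (lt_add_one N).le n0))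
  simp only [_root_.sub_apply, ContinuousLinearMap.comp_apply, e1]
  rw [e3, map_sub (smulH _ k q' fun z => hc (-(X.P a).sg) c z.2), hq.cut_rs hk c0, zero_sub]
  refine (norm_add_le _ _).trans ?_
  rw [norm_neg]
  refine (add_le_add (n2.trans (mul_le_mul_of_nonneg_left n4 (by positivity))) (n3.trans
    (mul_le_mul_of_nonneg_left ((le_max_right _ _).trans n4) (by positivity)))).trans (le_of_eq ?_)
  field_simp
  ring

theorem Asy.sml_ex (hN : ∀ a' ≠ a, X.Nl a' A) :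
    Sml (X.ex a O' b k q q' ∘L A' - A ∘L X.ex a O' b (k + 1) p p') := fun ε hε => by
  obtain ⟨N, eN⟩ : ∃ N, N = ‖X.ex a O' b (k + 1) p p'‖ := ⟨_, rfl⟩
  obtain ⟨N', eN'⟩ : ∃ N, N = ‖X.ex a O' b k q q'‖ := ⟨_, rfl⟩
  have N0 : 0 ≤ N := eN ▸ norm_nonneg _
  have N0' : 0 ≤ N' := eN' ▸ norm_nonneg _
  obtain ⟨η, eη⟩ : ∃ η, η = ε / ((Fintype.card X.A + 1) * ((N' + 1) * (N + 1))) := ⟨_, rfl⟩
  have η0 : 0 < η := by rw [eη]; positivity
  have hb := hp.hb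
  have s := X.ok.sup
  obtain ⟨c, ⟨c1, c2⟩, c0⟩ := (((h (b + 1 + 1) η η0).and (eventually_all.2 fun a' =>
    eventually_all.2 fun e : a' ≠ a => hN a' e X.R η η0)).and
    (eventually_ge_atTop (b + 1 + 1))).exists
  have hc : X.R ≤ c := by linarith
  have hb1 : X.R ≤ b + 1 := by linarith
  have hb2 : X.R ≤ b + 1 + 1 := by linarith
  have b1 := fun a' => X.cb_θ a' hc
  have b3 := Cb_sub (Cb_const (1 : ℝ)) (Cb_sum Finset.univ fun a' _ => b1 a')
  refine ⟨_, b3.choose_spec.1, X.hcs (c + 1) fun a' x hx => ?_, norm_le_of_sec hε.le fun u' => ?_⟩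
  · simpa [sub_eq_zero] using (X.sum_θ a' hc hx 0).symm
  obtain ⟨u, e1, e2⟩ := hp.exists_ex (O' := O') (k := k + 1) (by omega) u'
  have n1 : ‖𝔉.F0.toH (k + 1) _ u‖ ≤ N * ‖(X.FZ a O').toH (k + 1) _ u'‖ :=
    eN ▸ e1 ▸ ContinuousLinearMap.le_opNorm _ _
  have n0 := norm_nonneg ((X.FZ a O').toH (k + 1) _ u')
  have n4 : ‖(𝔉.F0.toH (k + 1) _ u, (X.FZ a O').toH (k + 1) _ u')‖ ≤
      (N + 1) * ‖(X.FZ a O').toH (k + 1) _ u'‖ :=
    max_le (n1.trans (mul_le_mul_of_nonneg_right (lt_add_one N).le n0))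
      (le_mul_of_one_le_left n0 (le_add_of_nonneg_left N0))
  have e3 : ∀ w : 𝔉.F0.H k q, w - smulH _ k q ((fun _ => 1) - fun x => ∑ a', (X.P a').θ c x) w =
      ∑ a', smulH _ k q ((X.P a').θ c) w := fun w => val_injective s hk (funext fun z => by
    simp only [val_sub, val_sum, Pi.sub_apply, val_smulH s hk (b1 _), val_smulH s hk b3, sub_smul,
      one_smul, Finset.sum_smul, sub_sub_cancel])
  simp only [_root_.sub_apply, ContinuousLinearMap.comp_apply, e1]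
  rw [e3]
  refine (norm_sum_le _ _).trans ((Finset.sum_le_card_nsmul _ _
    ((N' + 1) * (η * ((N + 1) * ‖(X.FZ a O').toH (k + 1) _ u'‖))) fun a' _ => ?_).trans ?_)
  · rcases eq_or_ne a' a with rfl | ha
    · have n2 := c1 u u' fun z hz => by
        have hz' : X.R ≤ (X.P a').sg * z.2 := hb2.trans hz.le
        rw [e2, (X.P a').K.ψ.left_inv ((X.okP a').src hz'), (X.okP a').θ_ψ hz',
          show (X.P a').θZ (b + 1) z = 1 from hc_one hz.le, one_smul]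
      rw [hq.cut_eq hk c0 (O' := O'), map_sub, map_sub, hq.cut_rs_ex hk c0, ← map_sub, ← neg_sub,
        map_neg, map_neg, norm_neg]
      exact (ContinuousLinearMap.le_opNorm _ _).trans (mul_le_mul (eN'.ge.trans (lt_add_one _).le)
        (n2.trans (mul_le_mul_of_nonneg_left n4 η0.le)) (norm_nonneg _) (by positivity))
    · rw [map_sub, hq.cut_ex hk ha hc, zero_sub, norm_neg]
      refine ((c2 a' ha u fun x hx => ?_).trans (mul_le_mul_of_nonneg_left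
        ((le_max_left _ _).trans n4) η0.le)).trans
        (le_mul_of_one_le_left (mul_nonneg η0.le (mul_nonneg (by positivity) n0))
          (le_add_of_nonneg_left N0'))
      rw [e2, X.θ_off ha hb1 hx, zero_smul]
  · exact ar_sml _ hε N0 N0' n0 eη

omit h hk hq hp

/-! ### patching -/

section pat
variable {Ac : X.A → Prop} [Fintype {a // Ac a}] {O : ∀ a : {a // Ac a}, Set ((X.P a).Y.M × ℝ)}
  {p' : ∀ a : {a // Ac a}, (X.P a).Y.M × ℝ → V →L[ℝ] V}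
  {q' : ∀ a : {a // Ac a}, (X.P a).Y.M × ℝ → W →L[ℝ] W}

theorem part (hk : 4 ≤ k) (hb : X.R ≤ b) (hp : ∀ a : {a // Ac a}, X.Mb a b p (p' a))
    (off : ∀ a, ¬Ac a → ∀ x ∈ (X.P a).U b, p x = 0) (w : 𝔉.F0.H k p) :
    smulH _ k p (X.θ0 b) w +
      ∑ a : {a // Ac a}, X.ex a (O a) b k p (p' a) (X.rs a (O a) b k p (p' a) w) = w := by
  classical
  refine val_injective X.ok.sup hk (funext fun x => ?_)
  have e : ∑ a : {a // ¬Ac a}, (X.P a).θ (b + 1) x ^ 2 • 𝔉.F0.val k p w x = 0 :=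
    Finset.sum_eq_zero fun a _ => by
      by_cases e : (X.P a).θ (b + 1) x = 0
      · simp [e]
      obtain ⟨z, hz, rfl⟩ := (X.okP a).of_θ (by linarith) e
      rw [← val_proj X.ok.sup hk, off a a.2 _ ((X.okP a).ψ_mem hb ((lt_add_one b).trans hz)),
        _root_.zero_apply, smul_zero]
  have e' := Fintype.sum_subtype_add_sum_subtype Ac
    fun a => (X.P a).θ (b + 1) x ^ 2 • 𝔉.F0.val k p w x
  rw [e, add_zero] at e'
  simp only [val_add, Pi.add_apply, val_sum, (hp _).val_ex_rs hk, θ0, sub_smul, one_smul,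
    val_smulH X.ok.sup hk (Cb_of_hcs (sm_θ0 hb) (hcs_θ0 hb)), Finset.sum_smul, ← e']
  convert sub_add_cancel _ _

variable {G : Fr I M (Option κ)} {B : Op M (Option κ) V W} {j : ℕ}

/-- **Fredholm patching** -/
theorem fr_ends (hj : 3 ≤ j) (hb : X.R ≤ b) (t : Tw 𝔉.F0 G) (hB : Nc 𝔉.F0.toPre G.P B)
    (cl : B.Cliff G) (hp : ∀ a : {a // Ac a}, X.Mb a b B.p (p' a))
    (hq : ∀ a : {a // Ac a}, X.Mb a b B.q (q' a))
    (op : ∀ a, ¬Ac a → ∀ x ∈ (X.P a).U b, B.p x = 0) (oq : ∀ a, ¬Ac a → ∀ x ∈ (X.P a).U b, B.q x = 0)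
    {L : 𝔉.F0.H (j + 2) B.p →L[ℝ] 𝔉.F0.H (j + 1) B.q}
    {L' : ∀ a : {a // Ac a}, (X.FZ a (O a)).H (j + 2) (p' a) →L[ℝ] (X.FZ a (O a)).H (j + 1) (q' a)}
    (hL : ∀ a, (L' a).IsFredholm)
    (h1 : ∀ a : {a // Ac a}, Cq (X.rs a (O a) b _ _ _ ∘L L) (L' a ∘L X.rs a (O a) b _ _ _))
    (h2 : ∀ a : {a // Ac a}, Cq (L ∘L X.ex a (O a) b _ _ _) (X.ex a (O a) b _ _ _ ∘L L' a))
    (h0 : Cq (smulH _ _ B.q (X.θ0 b) ∘L L)
      (smulH _ _ B.q (X.θ0 b) ∘L LH 𝔉.F0.toPre G.toPre (j + 1) B.p B.q B)) : L.IsFredholm := by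
  have e1 := part (O := O) (k := j + 2) (by omega) hb hp op
  have e2 := part (O := O) (k := j + 1) (by omega) hb hq oq
  have h3 : Cq (smulH _ _ B.q (X.θ0 b) ∘L L) (L ∘L smulH _ _ B.p (X.θ0 b)) :=
    ((Cq.refl L).sub (Cq.sum Finset.univ fun a _ => ((h1 a).left (X.ex a (O a) b _ _ _)).trans
      ((h2 a).right (X.rs a (O a) b _ _ _)).symm)).congr
      (fun x => by simpa using eq_sub_of_add_eq (e2 (L x)))
      fun x => by simpa using congrArg L (eq_sub_of_add_eq (e1 x))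
  obtain ⟨⟨Q, h4⟩, Q', h5⟩ := int_par t hB (sm_θ0 hb) (hcs_θ0 hb) cl h0 h3
  exact fr_patch hL h1 h2 h4 h5 e1 e2

end pat
end Ends

end Crest.Agent.X212.Nk89
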