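import Crest.Agent.X212.Sym93.Abs
import Crest.Agent.X212.Gb54.Gm

/-!
# Row 212, GL-WALL (helper89): a lower bound near a regular point of index zero
-/

set_option autoImplicit false
set_option linter.unusedSectionVars false
noncomputable section
open scoped Manifold ContDiff Topology InnerProductSpace
open MeasureTheory Set Function Filter

namespace Crest.Agent.X212.Nk89
open An Fred93 Mod61 Sym93 Map77 Prm93 Slc61

section abs
variable {C Y H T : Type} [NormedAddCommGroup C] [NormedSpace ℝ C] [CompleteSpace C]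
  [NormedAddCommGroup Y] [NormedSpace ℝ Y] [CompleteSpace Y] [NormedAddCommGroup H]
  [NormedSpace ℝ H] [CompleteSpace H] [NormedAddCommGroup T] [NormedSpace ℝ T]

/-- the estimate near `x₀`; the rows `B` are only needed up to `c ‖τ‖` -/
def LowAt (F : C → Y) (B : C →L[ℝ] H) (τ : C →L[ℝ] T) (x₀ : C) : Prop :=
  ∀ c ≥ (0 : ℝ), ∃ K ≥ (0 : ℝ), ∀ᶠ v in 𝓝 x₀, ∀ β ≥ (0 : ℝ),
    ‖B (v - x₀)‖ ≤ β + c * ‖τ (v - x₀)‖ → ‖v - x₀‖ ≤ K * (‖F v‖ + β)

theorem low_abs {F : C → Y} {A : C →L[ℝ] Y} {B : C →L[ℝ] H} {τ : C →L[ℝ] T} {x₀ : C}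
    (hF : HasFDerivAt F A x₀) (h0 : F x₀ = 0) (hs : Surjective A) (hf : Fr (A.prod B) 0)
    (hk : ∀ η, ∃ u, A u = 0 ∧ B u = η ∧ τ u = 0) : LowAt F B τ x₀ := fun c hc => by
  have s : Surjective (A.prod B) := fun y => by
    obtain ⟨u, e⟩ := hs y.1
    obtain ⟨u', a1, a2, -⟩ := hk (y.2 - B u)
    exact ⟨u + u', Prod.ext (by simp [e, a1]) (by simp [a2])⟩
  let e := ContinuousLinearEquiv.ofBijective (A.prod B) (LinearMap.ker_eq_bot.2 (hf.inj_of_surj s))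
    (LinearMap.range_eq_top.2 s)
  set K := ‖(e.symm : Y × H →L[ℝ] C)‖
  have K0 : 0 ≤ K := norm_nonneg _
  have h1 : ∀ u, ‖u‖ ≤ K * (‖A u‖ + ‖B u‖) := fun u => by
    have := (e.symm : Y × H →L[ℝ] C).le_opNorm (e u)
    rw [ContinuousLinearEquiv.coe_coe, e.symm_apply_apply] at this
    exact this.trans (mul_le_mul_of_nonneg_left (max_le (le_add_of_nonneg_right (norm_nonneg _))
      (le_add_of_nonneg_left (norm_nonneg _))) K0)
  have h2 : ∀ u, ‖τ u‖ ≤ ‖τ‖ * (K * ‖A u‖) := fun u => by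
    obtain ⟨u', a1, a2, a3⟩ := hk (B u)
    have := h1 (u - u')
    rw [map_sub, map_sub, a1, a2, sub_zero, sub_self, norm_zero, add_zero] at this
    calc ‖τ u‖ = ‖τ (u - u')‖ := by rw [map_sub, a3, sub_zero]
      _ ≤ _ := (τ.le_opNorm _).trans (mul_le_mul_of_nonneg_left this (norm_nonneg _))
  set L := K * (1 + c * (‖τ‖ * K)) + 1
  have L1 : 0 < L := by positivity
  refine ⟨2 * L, by positivity, (hF.isLittleO.def (c := 1 / (2 * L)) (by positivity)).mono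
    fun v hv β hβ hb => ?_⟩
  rw [h0, sub_zero] at hv
  set u := v - x₀
  have a1 : ‖A u‖ ≤ ‖F v‖ + 1 / (2 * L) * ‖u‖ :=
    (norm_le_insert' _ (F v)).trans (by rw [norm_sub_rev]; gcongr)
  have a2 : ‖u‖ ≤ L * (‖A u‖ + β) := by
    have := mul_le_mul_of_nonneg_left (h2 u) hc
    have t : 0 ≤ c * (‖τ‖ * K) := by positivity
    nlinarith [h1 u, mul_le_mul_of_nonneg_left (hb.trans (add_le_add_right this β)) K0,
      norm_nonneg (A u), mul_nonneg (mul_nonneg K0 t) hβ]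
  have a3 : L * (1 / (2 * L) * ‖u‖) = ‖u‖ / 2 := by field_simp
  nlinarith [mul_le_mul_of_nonneg_left a1 L1.le]

variable {L h : Type} [NormedAddCommGroup L] [NormedSpace ℝ L] [Fintype h] {V : h → Type}
  [∀ i, NormedAddCommGroup (V i)] [∀ i, InnerProductSpace ℝ (V i)] [∀ i, CompleteSpace (V i)]

/-- the phase rows -/
def phR (a : ∀ i, V i) : C × (∀ i, V i) →L[ℝ] h → ℝ :=
  (ContinuousLinearMap.pi fun i => innerSL ℝ (a i) ∘L .proj i) ∘L .snd ℝ _ _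

theorem low_big {J : ∀ i, V i →L[ℝ] V i} (hJ : ∀ i v, ⟪J i v, J i v⟫_ℝ = ⟪v, v⟫_ℝ)
    (hJ' : ∀ i v, ⟪v, J i v⟫_ℝ = 0) {x₀ : C} {ψ : ∀ i, V i} {f : C → Y}
    {A : ∀ i, C → V i →L[ℝ] V i} (hf : DifferentiableAt ℝ f x₀) (hA : ∀ i, DifferentiableAt ℝ (A i) x₀)
    (aJ : ∀ i v, A i x₀ (J i v) = J i (A i x₀ v)) {σ : C →L[ℝ] H} {τ : C →L[ℝ] T} {d : L →L[ℝ] C}
    (hb : Surjective (σ ∘L d)) (ht : ∀ ξ, τ (d ξ) = 0) {g : L → C} (hg : HasFDerivAt g d 0)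
    (g0 : g 0 = x₀) {ρ : ∀ i, L → V i} (hρ : ∀ i, DifferentiableAt ℝ (ρ i) 0) (ρ0 : ∀ i, ρ i 0 = ψ i)
    (hz : ∀ a, bigF f A (g a, fun i => ρ i a) = 0)
    (h1 : Fr ((fderiv ℝ f x₀).prod σ) (2 * Fintype.card h)) (h2 : ∀ i, Fr (A i x₀) 0)
    (hr : Surjective (fderiv ℝ (bigF f A) (x₀, ψ))) :
    LowAt (bigF f A) ((σ ∘L .fst ℝ _ _).prod (phR fun i => J i (ψ i))) (τ ∘L .fst ℝ _ _) (x₀, ψ) := by
  obtain ⟨B, hB⟩ := hasF (v := (x₀, ψ)) hf hA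
  have e0 : (g 0, fun i => ρ i 0) = (x₀, ψ) := Prod.ext g0 (funext ρ0)
  have z : bigF f A (x₀, ψ) = 0 := e0 ▸ hz 0
  have z1 : ∀ i, A i x₀ (ψ i) = 0 := fun i => congrArg (·.2.1 i) z
  have z2 : ∀ i, ⟪ψ i, ψ i⟫_ℝ = 1 := fun i =>
    (real_inner_self_eq_norm_sq _).trans (sub_eq_zero.1 (congrArg (·.2.2 i) z))
  have k := (HasFDerivAt.comp (g := bigF f A) (g' := fderiv ℝ (bigF f A) (x₀, ψ)) 0
    (by rw [e0]; exact hB.differentiableAt.hasFDerivAt) (hg.prodMk (hasFDerivAt_pi.2 fun i =>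
    (hρ i).hasFDerivAt))).unique ((hasFDerivAt_const _ _).congr_of_eventuallyEq (.of_forall hz))
  refine low_abs hB.differentiableAt.hasFDerivAt z hr ?_ fun η => ?_
  · have := ((fr_bigF (v := (x₀, ψ)) hf hA h1 h2).prod (phR fun i => J i (ψ i))).conj
      (.refl ℝ _) (ContinuousLinearEquiv.prodAssoc ℝ _ _ _)
    rw [Module.finrank_fintype_fun_eq_card] at this
    exact (this.cast (by ring)).congr fun _ => rfl
  obtain ⟨ξ, hξ⟩ := hb η.1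
  let s := fun i => η.2 i - ⟪J i (ψ i), fderiv ℝ (ρ i) 0 ξ⟫_ℝ
  refine ⟨(d ξ, fun i => fderiv ℝ (ρ i) 0 ξ) + (0, fun i => s i • J i (ψ i)), ?_,
    Prod.ext (by simpa using hξ) (funext fun i => ?_), by simpa using ht ξ⟩
  · rw [map_add, show fderiv ℝ (bigF f A) (x₀, ψ) (d ξ, fun i => fderiv ℝ (ρ i) 0 ξ) = 0 from
      DFunLike.congr_fun k ξ, zero_add, hB.fderiv]
    refine Prod.ext (map_zero (fderiv ℝ f x₀)) (Prod.ext (funext fun i => ?_) (funext fun i => ?_))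
    · simp [aJ, z1]
    · simp [inner_smul_right, hJ']
  · show ⟪J i (ψ i), fderiv ℝ (ρ i) 0 ξ + s i • J i (ψ i)⟫_ℝ = η.2 i
    rw [inner_add_right, inner_smul_right, hJ, z2, mul_one, add_sub_cancel]

end abs

end Crest.Agent.X212.Nk89
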