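import Crest.Agent.X212.Nk89.Gw
import Crest.Agent.X212.Kof81.Defs
import Crest.Agent.X212.Pte3.Defs

/-!
# Row 212, GL-WALL (helper89): the type of regular face objects at a wall with nondegenerate free
limits
-/

set_option autoImplicit false
set_option linter.unusedSectionVars false
noncomputable section
open scoped Manifold ContDiff Topology InnerProductSpace
open MeasureTheory Set Function Filter

namespace Crest.Agent.X212.Nk89
open An An.Job M Nd18 Mod61 Rf65 Pte3

variable {Wi : Type} {X : Mf 4} {A κ lam : Type} [Fintype A] [Fintype κ] [Fintype lam]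
  [DecidableEq lam] {M : Mark X A κ} {W : World M} {L : ML M lam} {Λ : Lns W L}
  {A' h : Type} [Fintype A'] [DecidableEq A'] [Fintype h] {r n : ℕ}
  {J : Job Wi Λ A' h r n} {c : M.Cl}

/-- a regular chart of all of `Z c` at `y` in which the index is `ν` modulo the based gauge group
and the phases of the cuts -/
structure RgC (σ : Cel A') (q : Wi →₀ ℝ) (y : J.Obc c) (ν : ℤ) {p : Prt A A' h} {b : Bp J c}
    {U : Type} [Fintype U] {δ : ℝ} (E : EC b p U δ) (x : Pnt E.o r) (ψ : E.K) : Prop where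
  pg : PG J c σ p
  P : W.un c p.P = univ
  P' : W.un c p.P' = univ
  H : p.H = univ
  V : ∀ a, σ a = none → (∀ x, J.hd a = some x → x ∉ c.1) → a ∈ p.V
  fre : Fre p y
  ov : J.Ov σ c b.s
  ok : E.OK
  sm : SmC E
  rep : E.RepC y x ψ
  mt : Mt E y x.t
  reg : E.Reg q x ψ
  idx : ∃ d, Idx 8 (EC.tot b p U δ q) x d ∧ d + 2 * r - 2 * n - (min r 1 : ℕ) + p.V.ncard +
    Fintype.card U - 2 * Fintype.card h = ν

variable (J) in
/-- **the type of the regular face objects at the wall `Y₀`** (weight at most `δ₁`) -/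
def FRY (δ₁ : ℝ) : Kof81.Ty J := fun σ c q y => ∃ δ ∈ Ioc 0 δ₁,
  (∀ a ∈ cylW c, ∀ b, (J.xs a).N.Nondeg (J.xs a).D (y.β a b) ∧ ¬(J.xs a).D.Fx (y.β a b) ∧
    ∀ ha : Act J.m c a (some b) (J.Θ y.s), ∃ d > 2 * δ,
      (J.K c a _ _ ha).ELim d y.x (y.β a b) (y.ζ a b) (dr b)) ∧
  ∃ (p : Prt A A' h) (b : Bp J c) (E : EC b p Empty δ) (x : Pnt E.o r) (ψ : E.K),
    E.o.B0 ∧ RgC σ q y 0 E x ψ

end Crest.Agent.X212.Nk89
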