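import Crest.Agent.X212.Map77.IsA
import Crest.Agent.X212.Gb54.Ker

/-!
# Row 212, GL-WALL-PSC (helper89): the lower bound when symmetries exhaust the index
-/

set_option autoImplicit false
set_option linter.unusedSectionVars false
noncomputable section
open scoped Manifold ContDiff Topology InnerProductSpace
open MeasureTheory Set Function Filter

namespace Crest.Agent.X212.Nk89
open An Fred93 Mod61 Sym93 Map77 Prm93 Slc61 Ker54 Eqv71 Hol14 Cnt93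

section abs
variable {C Y H T X : Type} [NormedAddCommGroup C] [NormedSpace ℝ C] [CompleteSpace C]
  [NormedAddCommGroup Y] [NormedSpace ℝ Y] [CompleteSpace Y] [NormedAddCommGroup H]
  [NormedSpace ℝ H] [NormedAddCommGroup T] [NormedSpace ℝ T] [NormedAddCommGroup X]
  [NormedSpace ℝ X]

theorem low_ker {F : C → Y} {A : C →L[ℝ] Y} {B : C →L[ℝ] H} {τ : C →L[ℝ] T} {x₀ : C}
    (hF : HasFDerivAt F A x₀) (h0 : F x₀ = 0) (hs : Surjective A) {Λ : X →L[ℝ] C}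
    (hk : ∀ u, A u = 0 → u ∈ range Λ) (hτ : ∀ p, τ (Λ p) = 0) {a : ℝ} (a0 : 0 < a)
    (hb : ∀ p, ‖p‖ ≤ a * ‖B (Λ p)‖) : ∀ c ≥ (0 : ℝ), ∃ K ≥ (0 : ℝ), ∀ᶠ v in 𝓝 x₀, ∀ β ≥ (0 : ℝ),
      ‖B (v - x₀)‖ ≤ β + c * ‖τ (v - x₀)‖ → ‖v - x₀‖ ≤ K * (‖F v‖ + β) := fun c hc => by
  obtain ⟨b, b0, hb'⟩ := A.exists_preimage_norm_le hs
  set D := ‖Λ‖ * a
  have D0 : 0 ≤ D := by positivity
  have h1 : ∀ u, ‖u‖ ≤ (b + D * (‖B‖ * b)) * ‖A u‖ + D * ‖B u‖ ∧ ‖τ u‖ ≤ ‖τ‖ * b * ‖A u‖ :=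
    fun u => by
      obtain ⟨u', e, e'⟩ := hb' (A u)
      obtain ⟨p, hp⟩ := hk (u - u') (by rw [map_sub, e, sub_self])
      have e1 : ‖u - u'‖ ≤ D * (‖B u‖ + ‖B‖ * (b * ‖A u‖)) := by
        rw [← hp, mul_assoc]
        refine (Λ.le_opNorm p).trans (mul_le_mul_of_nonneg_left ((hb p).trans ?_) (norm_nonneg _))
        rw [hp, map_sub]
        gcongr
        exact (norm_sub_le _ _).trans (by gcongr; exact (B.le_opNorm _).trans (by gcongr))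
      refine ⟨(norm_le_norm_sub_add u u').trans ((add_le_add e1 e').trans_eq (by ring)), ?_⟩
      rw [show τ u = τ u' from sub_eq_zero.1 (by rw [← map_sub, ← hp, hτ]), mul_assoc]
      exact (τ.le_opNorm _).trans (by gcongr)
  set L := b + D * (‖B‖ * b) + D * (c * (‖τ‖ * b)) + D + 1
  have L1 : 0 < L := by positivity
  refine ⟨2 * L, by positivity, (hF.isLittleO.def (c := 1 / (2 * L)) (by positivity)).mono
    fun v hv β hβ hb => ?_⟩
  rw [h0, sub_zero] at hv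
  set u := v - x₀
  have a1 : ‖A u‖ ≤ ‖F v‖ + 1 / (2 * L) * ‖u‖ :=
    (norm_le_insert' _ (F v)).trans (by rw [norm_sub_rev]; gcongr)
  have a2 : ‖u‖ ≤ L * (‖A u‖ + β) := by
    have t1 := mul_le_mul_of_nonneg_left (hb.trans (add_le_add_right
      (mul_le_mul_of_nonneg_left (h1 u).2 hc) β)) D0
    have t2 : 0 ≤ (b + D * (‖B‖ * b) + D * (c * (‖τ‖ * b)) + 1) * β + (D + 1) * ‖A u‖ := by
      positivity
    linarith [(h1 u).1]
  have a3 : L * (1 / (2 * L) * ‖u‖) = ‖u‖ / 2 := by field_simp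
  nlinarith [mul_le_mul_of_nonneg_left a1 L1.le]

variable {L K Z H' h : Type} [NormedAddCommGroup L] [NormedSpace ℝ L] [CompleteSpace L]
  [NormedAddCommGroup K] [NormedSpace ℝ K] [FiniteDimensional ℝ K] [NormedAddCommGroup Z]
  [NormedSpace ℝ Z] [NormedAddCommGroup H'] [NormedSpace ℝ H'] [CompleteSpace H] [Fintype h]
  {V : h → Type} [∀ i, NormedAddCommGroup (V i)] [∀ i, InnerProductSpace ℝ (V i)]
  [∀ i, CompleteSpace (V i)]

theorem low_sym {J : ∀ i, V i →L[ℝ] V i} (hJ : ∀ i v, ⟪J i v, J i v⟫_ℝ = ⟪v, v⟫_ℝ)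
    (hJ' : ∀ i v, ⟪v, J i v⟫_ℝ = 0) {x₀ : C} {ψ : ∀ i, V i} {f : C → Y}
    {A : ∀ i, C → V i →L[ℝ] V i} (hf : DifferentiableAt ℝ f x₀) (hA : ∀ i, DifferentiableAt ℝ (A i) x₀)
    (aJ : ∀ i v, A i x₀ (J i v) = J i (A i x₀ v)) {σ : C →L[ℝ] H} {d : L →L[ℝ] C}
    (hb : Bijective (σ.comp d)) {P : K →L[ℝ] C} (hi : ∀ s ξ, P s = d ξ → s = 0) {g : L × K → C}
    (hg : HasFDerivAt g (d.coprod P) 0) (g0 : g 0 = x₀) {ρ : ∀ i, L × K → V i}
    (hρ : ∀ i, DifferentiableAt ℝ (ρ i) 0) (ρ0 : ∀ i, ρ i 0 = ψ i)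
    (hz : ∀ a, bigF f A (g a, fun i => ρ i a) = 0)
    (h1 : Fr ((fderiv ℝ f x₀).prod σ) (Module.finrank ℝ K + 2 * Fintype.card h))
    (h2 : ∀ i, Fr (A i x₀) 0) (hr : Surjective (fderiv ℝ (bigF f A) (x₀, ψ))) {B : C →L[ℝ] H'}
    {Kc : C →L[ℝ] Z} (hK : IsCompactOperator Kc) {c : ℝ}
    (hE : ∀ v, fderiv ℝ f x₀ v = 0 → ‖v‖ ≤ c * (‖B v‖ + ‖Kc v‖))
    (inj : ∀ ξ s, B (d ξ + P s) = 0 → d ξ + P s = 0) {τ : C →L[ℝ] T}
    (ht : ∀ ξ s, τ (d ξ + P s) = 0) : ∀ c ≥ (0 : ℝ), ∃ K ≥ (0 : ℝ), ∀ᶠ v in 𝓝 (x₀, ψ),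
      ∀ β ≥ (0 : ℝ), ‖((B ∘L .fst ℝ _ _).prod (phR fun i => J i (ψ i))) (v - (x₀, ψ))‖ ≤
        β + c * ‖(τ ∘L .fst ℝ _ _) (v - (x₀, ψ))‖ → ‖v - (x₀, ψ)‖ ≤ K * (‖bigF f A v‖ + β) := by
  obtain ⟨B₀, hB⟩ := hasF (v := (x₀, ψ)) hf hA
  have e0 : (g 0, fun i => ρ i 0) = (x₀, ψ) := Prod.ext g0 (funext ρ0)
  have z : bigF f A (x₀, ψ) = 0 := e0 ▸ hz 0
  have z1 : ∀ i, A i x₀ (ψ i) = 0 := fun i => congrArg (·.2.1 i) z
  have z2 : ∀ i, ⟪ψ i, ψ i⟫_ℝ = 1 := fun i =>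
    (real_inner_self_eq_norm_sq _).trans (sub_eq_zero.1 (congrArg (·.2.2 i) z))
  have k := (HasFDerivAt.comp (g := bigF f A) (g' := fderiv ℝ (bigF f A) (x₀, ψ)) 0
    (by rw [e0]; exact hB.differentiableAt.hasFDerivAt) (hg.prodMk (hasFDerivAt_pi.2 fun i =>
    (hρ i).hasFDerivAt))).unique ((hasFDerivAt_const _ _).congr_of_eventuallyEq (.of_forall hz))
  let r := fun i => fderiv ℝ (ρ i) 0
  let d' : L →L[ℝ] C × ∀ i, V i := d.prod (ContinuousLinearMap.pi fun i => r i ∘L .inl ℝ _ _)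
  let P' : K × (h → ℝ) →L[ℝ] C × ∀ i, V i := (P ∘L .fst ℝ _ _).prod
    (ContinuousLinearMap.pi fun i => r i ∘L .inr ℝ _ _ ∘L .fst ℝ _ _ +
      (ContinuousLinearMap.proj i ∘L .snd ℝ _ (h → ℝ)).smulRight (J i (ψ i)))
  have hΛ : ∀ p, d'.coprod P' p = (d p.1 + P p.2.1, fun i => r i (p.1, p.2.1)) +
      (0, fun i => p.2.2 i • J i (ψ i)) := fun p => Prod.ext (add_zero _).symm (funext fun i => by
    show r i (p.1, 0) + (r i (0, p.2.1) + p.2.2 i • J i (ψ i)) = r i _ + _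
    rw [← add_assoc, ← map_add, Prod.mk_add_mk, add_zero, zero_add])
  have h4 : ∀ p, fderiv ℝ (bigF f A) (x₀, ψ) (d'.coprod P' p) = 0 := fun p => by
    rw [hΛ, map_add, show fderiv ℝ (bigF f A) (x₀, ψ) (d p.1 + P p.2.1, fun i => r i (p.1, p.2.1)) = 0
      from DFunLike.congr_fun k (p.1, p.2.1), zero_add, hB.fderiv]
    refine Prod.ext (map_zero (fderiv ℝ f x₀)) (Prod.ext (funext fun i => ?_) (funext fun i => ?_))
    · simp [aJ, z1]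
    · simp [hJ']
  have ph : ∀ i (a : ℝ), ⟪J i (ψ i), a • J i (ψ i)⟫_ℝ = a := fun i a => by
    rw [inner_smul_right, hJ, z2, mul_one]
  have z0 : ∀ ξ s, d ξ + P s = 0 → ξ = 0 ∧ s = 0 := fun ξ s e => by
    have e1 := hi s (-ξ) (by rw [map_neg]; exact eq_neg_of_add_eq_zero_right e)
    rw [e1, map_zero, add_zero] at e
    exact ⟨hb.1 (by rw [map_zero, ContinuousLinearMap.comp_apply, e, map_zero]), e1⟩
  obtain ⟨-, h6⟩ := lin_le (d := d') (σ := σ ∘L .fst ℝ _ _) hb hr (fr_bigF (v := (x₀, ψ)) hf hA h1 h2)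
    h4 fun s ξ e => by
      have e1 : d'.coprod P' (-ξ, s) = 0 := by
        rw [ContinuousLinearMap.coprod_apply, map_neg, e, neg_add_cancel]
      rw [hΛ] at e1
      obtain ⟨e2, e3⟩ := z0 _ _ ((add_zero _).symm.trans (congrArg Prod.fst e1))
      refine Prod.ext e3 (funext fun i => ?_)
      have e4 : r i (-ξ, s.1) + s.2 i • J i (ψ i) = 0 := congrFun (congrArg Prod.snd e1) i
      rw [show (-ξ, s.1) = 0 from Prod.ext e2 e3, map_zero, zero_add] at e4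
      rw [← ph i (s.2 i), e4, inner_zero_right]; rfl
  obtain ⟨-, h7⟩ := h6 (by
    rw [Module.finrank_prod, Module.finrank_fintype_fun_eq_card]; push_cast; ring)
  let e := ContinuousLinearEquiv.ofBijective (σ.comp d) (LinearMap.ker_eq_bot.2 hb.1)
    (LinearMap.range_eq_top.2 hb.2)
  let a := ‖(e.symm : H →L[ℝ] L) ∘L σ‖
  have hd : ∀ ξ, ‖ξ‖ ≤ a * ‖d ξ‖ := fun ξ =>
    (congrArg _ (e.symm_apply_apply ξ).symm).trans_le (((e.symm : H →L[ℝ] L) ∘L σ).le_opNorm (d ξ))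
  let K' : L × K × (h → ℝ) →L[ℝ] Z × K × (h → ℝ) :=
    .inl ℝ _ _ ∘L Kc ∘L (.fst ℝ _ _ ∘L d'.coprod P') + .inr ℝ _ _ ∘L .snd ℝ _ _
  have := FiniteDimensional.proper_real (K × (h → ℝ))
  have hK' : IsCompactOperator K' := ((hK.comp_clm (.fst ℝ _ _ ∘L d'.coprod P')).clm_comp
    (.inl ℝ Z (K × (h → ℝ)))).add ((isCompactOperator_of_locallyCompactSpace_dom
      (ContinuousLinearMap.snd ℝ L (K × (h → ℝ)))).clm_comp (.inr ℝ Z _))
  have f1 : ∀ p, (d'.coprod P' p).1 = d p.1 + P p.2.1 := fun _ => rfl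
  have est : Est (((B ∘L .fst ℝ _ _).prod (phR fun i => J i (ψ i))) ∘L d'.coprod P') K'
      (a * (|c| + ‖P‖) + 1) := fun p => by
    have k1 : K' p = (Kc (d p.1 + P p.2.1), p.2) := Prod.ext (add_zero _) (zero_add _)
    have k2 : ‖Kc (d p.1 + P p.2.1)‖ ≤ ‖K' p‖ := (congrArg (‖·.1‖) k1).ge.trans (norm_fst_le _)
    have k3 : ‖p.2‖ ≤ ‖K' p‖ := (congrArg (‖·.2‖) k1).ge.trans (norm_snd_le _)
    set b := ‖(((B ∘L .fst ℝ _ _).prod (phR fun i => J i (ψ i))) ∘L d'.coprod P') p‖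
    have k4 : ‖B (d p.1 + P p.2.1)‖ ≤ b := le_max_left _ _
    have k5 := (hE (d p.1 + P p.2.1) ((congrArg (·.1) (DFunLike.congr_fun hB.fderiv
      (d'.coprod P' p))).symm.trans (congrArg (·.1) (h4 p)))).trans
      (mul_le_mul (le_abs_self c) (add_le_add k4 k2) (by positivity) (abs_nonneg c))
    have k6 : ‖d p.1‖ ≤ (|c| + ‖P‖) * (b + ‖K' p‖) := by
      have := (P.le_opNorm p.2.1).trans (mul_le_mul_of_nonneg_left (((norm_fst_le p.2).trans k3).trans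
        (le_add_of_nonneg_left (norm_nonneg _) : _ ≤ b + _)) (norm_nonneg P))
      linarith [norm_le_add_norm_add (d p.1) (P p.2.1)]
    have k7 : 0 ≤ a * ((|c| + ‖P‖) * (b + ‖K' p‖)) := by positivity
    have k8 := (hd p.1).trans (mul_le_mul_of_nonneg_left k6 (norm_nonneg _))
    have k9 : 0 ≤ b := norm_nonneg _
    exact max_le (by linarith [norm_nonneg (K' p)]) (by linarith)
  obtain ⟨a', a0, ha⟩ := est.bound_of_inj hK' ((injective_iff_map_eq_zero _).2 fun p e => by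
    obtain ⟨e2, e3⟩ := z0 _ _ (inj _ _ (congrArg Prod.fst e))
    refine Prod.ext e2 (Prod.ext e3 (funext fun i => ?_))
    have e4 : ⟪J i (ψ i), (d'.coprod P' p).2 i⟫_ℝ = 0 := congrFun (congrArg Prod.snd e) i
    rw [hΛ, show (p.1, p.2.1) = 0 from Prod.ext e2 e3] at e4
    simpa [ph] using e4)
  exact low_ker hB.differentiableAt.hasFDerivAt z hr h7 (fun p => ht _ _) a0 ha

end abs

variable {E : Type} [NormedAddCommGroup E] [NormedSpace ℝ E] [FiniteDimensional ℝ E]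
  [MeasurableSpace E] [BorelSpace E]
  {HM : Type} [TopologicalSpace HM] {I : ModelWithCorners ℝ E HM} [I.Boundaryless]
  {M : Type} [TopologicalSpace M] [ChartedSpace HM M] [IsManifold I ∞ M]
  [MeasurableSpace M] [T2Space M] [BorelSpace M] [SecondCountableTopology M]
  {ι : Type} [Fintype ι] {lam : Type} [Fintype lam]
  {T : Type} [NormedAddCommGroup T] [NormedSpace ℝ T] [FiniteDimensional ℝ T]
  {𝔉 : Fam I M ι lam T} {o : Ref 𝔉} {r n m k : ℕ} {hh : Type} [Fintype hh]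
  {κ : hh → Cut M lam} {e : T → PtX M ι lam r n m} {σ : ∀ i, T → Pc r 𝔉.B (κ i)}

/-- **the lower bound**: symmetries exhaust the index, and the rows `B` see them -/
theorem low_syf (h : 𝔉.OK) (hs : ∀ i, (κ i).supp ⊆ 𝔉.Om) (hk : 7 ≤ k) (ne : 𝔉.Nat e)
    {Al : (M → CL o.m.V o.m.V) → Circle → Prop} (Γ : GrpM o r k Al) {f : o.C r k → o.Y n m k}
    {A : ∀ i, o.C r k → CL (HH o (κ i)) (HH o (κ i))} (rf : RepF e f)
    (rA : ∀ i, RepC o k (σ i) (A i)) (nσ : ∀ i, NatC o o (fun _ _ => True) (σ i))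
    {y : Pnt o r} {ψ : ∀ i, HH o (κ i)} (z : ZX e (fun i => σ i) y ψ) (fre : y.Free Al)
    {K : Type} [NormedAddCommGroup K] [NormedSpace ℝ K] [FiniteDimensional ℝ K]
    (slc : Γ.Slc e (Module.finrank ℝ K + 2 * Fintype.card hh) y) (tan : Tan Γ y)
    (fr : ∀ i, Fr (evC (σ i) y) 0) (hr : Surjective (fderiv ℝ (bigF f A) (y.pt k, ψ)))
    {ξ : K →ₗ[ℝ] M → o.m.A} {c : K →ₗ[ℝ] ℝ} (sy : Sy y ξ c) (mb : ∀ s, Mb o (ξ s))
    {H' Z : Type} [NormedAddCommGroup H'] [NormedSpace ℝ H'] [NormedAddCommGroup Z]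
    [NormedSpace ℝ Z] {B : o.C r k →L[ℝ] H'} {Kc : o.C r k →L[ℝ] Z} (hK : IsCompactOperator Kc)
    {C : ℝ} (hE : ∀ v, fderiv ℝ f (y.pt k) v = 0 → ‖v‖ ≤ C * (‖B v‖ + ‖Kc v‖))
    (inj : ∀ s (η : 𝔉.F0.H (k + 2) o.Pg) v, In0 k y (𝔉.F0.val _ _ η + ξ s) (c s) v → B v = 0 →
      v = 0) : Is.LowB k e σ y ψ B := by
  have k3 : 3 ≤ k := by omega
  have k4 : 4 ≤ k := by omega
  have := FiniteDimensional.complete ℝ T
  have x0 : ∀ i, (κ i).x0 ∈ 𝔉.Om := fun i => hs i ⟨(0, 0), rfl⟩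
  have hfr := (Γ.free_iff h k3).2 fre
  obtain ⟨D, -, -, hu, -, hF, -⟩ := slc hfr
  obtain ⟨Θ, V, h0, h1, h2, h3⟩ := exists_orb h sy.inf mb k3
  have JJ := fun i => JH_JH (cpC h o (x := (κ i).x0))
  let R : ∀ i, Γ.G → CL (HH o (κ i)) (HH o (κ i)) := fun i g => rC o o (κ i) (Γ.u g (κ i).x0)
  let R' : ∀ i, K → CL (HH o (κ i)) (HH o (κ i)) := fun i s => rC o o (κ i) (uX (ξ s) (κ i).x0)
  have hU := (Mod61.isOpen_U h).mem_nhds (y.mem_U (k := k))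
  have i0 : ∀ ξ' s, ∃ η : 𝔉.F0.H (k + 2) o.Pg, In0 k y (𝔉.F0.val _ _ η + ξ s) (c s)
      (D.d ξ' + V s) := fun ξ' s => by
    obtain ⟨η, b⟩ := tan hfr D ξ'
    exact ⟨η, zero_add (c s) ▸ b.add (h2 s) (md_val h (k := k + 1) (by omega) η)
      ((Cb.sm (sy.inf s).cb).mdifferentiable (by simp))⟩
  refine Is.lowB_of h hk rf rA (low_sym (J := fun i => JC o (κ i))
    (g := fun p => D.e p.1 • Θ (p.2, y.pt k)) (ρ := fun i p => R i (D.e p.1) (R' i p.2 (ψ i)))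
    (fun i v => by rw [JH_skew (cpC h o), JJ, inner_neg_right, neg_neg])
    (fun i v => by
      have := JH_skew (cpC h o (x := (κ i).x0)) v v
      rw [real_inner_comm] at this; linarith)
    ((rf.1.contDiffAt hU).differentiableAt (by simp))
    (fun i => ((rA i).1.contDiffAt hU).differentiableAt (by simp))
    (fun i v => (rA i).J h (hs i) k3 trivial (nσ i) y.mem_U v) D.bij
    (fun s ξ' e => let ⟨_, b⟩ := tan hfr D ξ'; Sy.eq_zero h k3 sy (h2 s) (e ▸ b))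
    ((HasFDerivAt.comp (f := fun p : Γ.L × K => (p, y.pt k)) 0 (joint_der D h1 (h0 _)).hasFDerivAt
      (hasFDerivAt_prodMk_left _ _)).congr_fderiv (by ext <;> simp))
    (by rw [Prod.fst_zero, Prod.snd_zero, h0, D.e_zero, one_smul]) (fun i => ?_) (fun i => ?_)
    (fun a => ?_) (hF _ rf) (fun i => (rA i).2 y ▸ fr i) hr hK hE
    (fun ξ' s e => let ⟨η, b⟩ := i0 ξ' s; inj s η _ b e)
    fun ξ' s => let ⟨_, b⟩ := i0 ξ' s; congrArg Prod.snd b.z)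
  · obtain ⟨s, hs⟩ := hu (κ i).x0
    let L := rHL o.m.J (o.m.pp 𝔉.B (κ i).x0)
    let P := opL ∘L LinearMap.toContinuousLinearMap (LinearMap.proj (κ i).x0 ∘ₗ ξ) ∘L .snd ℝ Γ.L K
    have a1 : HasStrictFDerivAt NormedSpace.exp (1 : _ →L[ℝ] _) (P 0) := by
      rw [map_zero]; exact hasStrictFDerivAt_exp_zero
    exact (((L.hasStrictFDerivAt.comp 0 (HasStrictFDerivAt.comp (f := Prod.fst) (0 : Γ.L × K) hs
      hasStrictFDerivAt_fst)).clm_comp (L.hasStrictFDerivAt.comp 0 ((a1.comp 0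
        P.hasStrictFDerivAt).mul_const' (o.m.p (κ i).x0)))).differentiableAt).clm_apply
          (differentiableAt_const (ψ i))
  · show R i (D.e 0) (rC o o (κ i) (uX (ξ 0) (κ i).x0) (ψ i)) = ψ i
    rw [D.e_zero, map_zero, uX, Pi.zero_apply, map_zero, NormedSpace.exp_zero, one_mul, rC_p h]
    exact (congrArg (rC _ _ (κ i) · _) (Γ.u_one (x0 i))).trans (rC_p h _)
  · obtain ⟨y₁, e1, e2, e3⟩ := h3 a.2 y
    have me := fun i => (e3.mi h e2).me _ (x0 i)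
    refine Prod.ext ?_ (Prod.ext (funext fun i => ?_) (funext fun i => ?_))
    · show f (D.e a.1 • Θ (a.2, y.pt k)) = 0
      rw [← e1, Γ.equivar h k4 (ne.natP h _ _ _) rf _ y₁.mem_U,
        ((rf.2 y₁).zero_iff h k4).2 (zr_of (ne.natP h _ _ fun _ _ => True) e2 trivial e3 z.1),
        map_zero]
    · show A i (D.e a.1 • Θ (a.2, y.pt k)) (R i _ (R' i _ (ψ i))) = 0
      have b := nσ i y y₁ _ _ e2 trivial e3 1 (ψ i)
      rw [Rh_one h (me i), Rh_one h (me i), (z.2 i).2, map_zero, ← (rA i).2] at b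
      rw [← e1, (rA i).act h (hs i) k3 Γ (fun y y' w ζ t _ => nσ i y y' w ζ t trivial) _ y₁.mem_U, b,
        map_zero]
    · show ‖R i _ (R' i _ (ψ i))‖ ^ 2 - 1 = 0
      rw [norm_rC h (Γ.mx _ (x0 i)), norm_rC h (me i), (z.2 i).1, one_pow, sub_self]

end Crest.Agent.X212.Nk89
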