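import Crest.Agent.X212.Nk89.Geo
import Crest.Agent.X212.Cyf70.Sf

/-! Fredholm operators by patching: transplantation, local compactness, parametrices. -/

set_option autoImplicit false
set_option linter.unusedSectionVars false
noncomputable section
open scoped Manifold ContDiff Topology InnerProductSpace ENNReal
open MeasureTheory Set Function Filter

namespace Crest.Agent.X212.Nk89
open An An.Pre Sob92 Prm93 Fred93 Map77 Cyf70 Ell97

section abs
variable {X Y : Type} [NormedAddCommGroup X] [NormedSpace ℝ X] [CompleteSpace X]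
  [NormedAddCommGroup Y] [NormedSpace ℝ Y] [CompleteSpace Y]

theorem cq_fin {K : Type} [NormedAddCommGroup K] [NormedSpace ℝ K] [FiniteDimensional ℝ K]
    (a : X →L[ℝ] K) (b : K →L[ℝ] Y) : IsCompactOperator (b ∘L a) :=
  have := FiniteDimensional.proper_real K
  (isCompactOperator_of_locallyCompactSpace_dom a).clm_comp b

theorem exists_par {L : X →L[ℝ] Y} (h : L.IsFredholm) : ∃ Q : Y →L[ℝ] X,
    Cq (Q ∘L L) (.id ℝ X) ∧ Cq (L ∘L Q) (.id ℝ Y) := by
  obtain ⟨_, K, _, π, B, -, -, hB⟩ := exists_block h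
  have hz : ∀ z, B z = (L z.1 + z.2, π z.1) := fun z =>
    congrArg (fun f : X × K →L[ℝ] Y × L.ker => f z) hB
  refine ⟨.fst ℝ X K ∘L (B.symm : Y × L.ker →L[ℝ] X × K) ∘L .inl ℝ Y L.ker,
    .of_cpt (cq_fin π (-(.fst ℝ X K ∘L (B.symm : Y × L.ker →L[ℝ] X × K) ∘L .inr ℝ Y L.ker)))
      fun x => ?_,
    .of_cpt (cq_fin (.snd ℝ X K ∘L (B.symm : Y × L.ker →L[ℝ] X × K) ∘L .inl ℝ Y L.ker)
      (-K.subtypeL)) fun y => ?_⟩
  · have e : B.symm (L x, 0) = (x, 0) - B.symm (0, π x) := by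
      rw [ContinuousLinearEquiv.symm_apply_eq, map_sub, hz, B.apply_symm_apply]; simp
    change (B.symm (L x, 0)).1 = x + -(B.symm (0, π x)).1
    rw [e, Prod.fst_sub, sub_eq_add_neg]
  · have e := congrArg Prod.fst ((hz _).symm.trans (B.apply_symm_apply (y, 0)))
    exact eq_add_neg_of_add_eq e

theorem isClosed_cq (B : X →L[ℝ] Y) : IsClosed {A | Cq A B} :=
  (isClosed_setOfPred_isCompactOperator (𝕜₁ := ℝ) (σ₁₂ := .id ℝ)).preimage
    (continuous_id.sub continuous_const)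

variable {α : Type} [Fintype α] {X' Y' : α → Type} [∀ a, NormedAddCommGroup (X' a)]
  [∀ a, NormedSpace ℝ (X' a)] [∀ a, CompleteSpace (X' a)] [∀ a, NormedAddCommGroup (Y' a)]
  [∀ a, NormedSpace ℝ (Y' a)] [∀ a, CompleteSpace (Y' a)] {A B : X →L[ℝ] Y}
  {A' : ∀ a, X' a →L[ℝ] Y' a} {r : ∀ a, X →L[ℝ] X' a} {r' : ∀ a, Y →L[ℝ] Y' a}
  {e : ∀ a, X' a →L[ℝ] X} {e' : ∀ a, Y' a →L[ℝ] Y} {s : X →L[ℝ] X} {s' : Y →L[ℝ] Y}

theorem cq_patch (h : ∀ a, Cq (r' a ∘L A) (r' a ∘L B)) (h0 : Cq (s' ∘L A) (s' ∘L B))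
    (h6 : ∀ y, s' y + ∑ a, e' a (r' a y) = y) : Cq A B :=
  (h0.add (Cq.sum Finset.univ fun a _ => (h a).left (e' a))).congr
    (fun x => by simp [h6]) fun x => by simp [h6]

theorem fr_patch (hA : ∀ a, (A' a).IsFredholm) (h1 : ∀ a, Cq (r' a ∘L A) (A' a ∘L r a))
    (h2 : ∀ a, Cq (A ∘L e a) (e' a ∘L A' a)) {Q Q' : Y →L[ℝ] X} (h3 : Cq (Q ∘L A) s)
    (h4 : Cq (A ∘L Q') s') (h5 : ∀ x, s x + ∑ a, e a (r a x) = x)
    (h6 : ∀ y, s' y + ∑ a, e' a (r' a y) = y) : A.IsFredholm := by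
  choose P hP hP' using fun a => exists_par (hA a)
  refine isFredholm_of_cq (Q := Q + ∑ a, e a ∘L P a ∘L r' a) (Q' := Q' + ∑ a, e a ∘L P a ∘L r' a)
    ((h3.add (Cq.sum Finset.univ fun a _ => ((((h1 a).left (P a)).trans
      ((hP a).right (r a))).left (e a)))).congr (fun x => by simp) fun x => by simp [h5])
    ((h4.add (Cq.sum Finset.univ fun a _ => (((h2 a).right (P a ∘L r' a)).trans
      (((hP' a).left (e' a)).right (r' a))))).congr (fun x => by simp) fun x => by simp [h6])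

end abs

variable {E : Type} [NormedAddCommGroup E] [NormedSpace ℝ E] [FiniteDimensional ℝ E]
  [MeasurableSpace E] [BorelSpace E]
  {HM : Type} [TopologicalSpace HM] {I : ModelWithCorners ℝ E HM} [I.Boundaryless]
  {M : Type} [TopologicalSpace M] [ChartedSpace HM M] [IsManifold I ∞ M]
  [MeasurableSpace M] [T2Space M] [BorelSpace M] [SecondCountableTopology M]
  {E' : Type} [NormedAddCommGroup E'] [NormedSpace ℝ E'] [FiniteDimensional ℝ E']
  [MeasurableSpace E'] [BorelSpace E']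
  {HM' : Type} [TopologicalSpace HM'] {I' : ModelWithCorners ℝ E' HM'} [I'.Boundaryless]
  {M' : Type} [TopologicalSpace M'] [ChartedSpace HM' M'] [IsManifold I' ∞ M']
  [MeasurableSpace M'] [T2Space M'] [BorelSpace M'] [SecondCountableTopology M']
  {ι : Type} [Fintype ι]
  {V W : Type} [NormedAddCommGroup V] [InnerProductSpace ℝ V] [FiniteDimensional ℝ V]
  [NormedAddCommGroup W] [InnerProductSpace ℝ W] [FiniteDimensional ℝ W]
  {X X' : Type} [NormedAddCommGroup X] [NormedSpace ℝ X] [NormedAddCommGroup X'] [NormedSpace ℝ X']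
  {j k : ℕ}

/-! ### local compactness -/

section lc
variable {F : Pre I M ι} {p : M → V →L[ℝ] V} {q : M → W →L[ℝ] W} {A B : X →L[ℝ] F.H k q}

/-- compact after cutting off -/
def LC (A : X →L[ℝ] F.H k q) : Prop :=
  ∀ χ : M → ℝ, Sm I χ → HasCompactSupport χ → Cq (smulH F k q χ ∘L A) 0

/-- small at infinity -/
def Sml (A : X →L[ℝ] F.H k q) : Prop :=
  ∀ ε > 0, ∃ χ : M → ℝ, Sm I χ ∧ HasCompactSupport χ ∧ ‖A - smulH F k q χ ∘L A‖ ≤ ε

theorem LC.cq (h : LC (A - B)) (h' : Sml (A - B)) : Cq A B :=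
  Cq.of_approx fun ε hε => let ⟨χ, h1, h2, h3⟩ := h' ε hε; ⟨_, h χ h1 h2, h3⟩

theorem LC.congr (h : LC A) (e : ∀ x, B x = A x) : LC B := ContinuousLinearMap.ext e ▸ h

theorem LC.add (h : LC A) (h' : LC B) : LC (A + B) := fun χ h1 h2 =>
  ((h χ h1 h2).add (h' χ h1 h2)).congr (fun x => by simp) fun x => by simp

theorem lc_incl (K : X →L[ℝ] F.H (k + 1) q) : LC (F.incl (k + 1) k q ∘L K) := fun _ h1 h2 =>
  .zero ((Cht98.rellich_smul h1 h2 k.lt_succ_self).comp_clm K)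

theorem incl_smulH {χ : M → ℝ} (hχ : F.Cb χ) (h : j ≤ k) (x : F.H k p) :
    F.incl k j p (smulH F k p χ x) = smulH F j p χ (F.incl k j p x) :=
  Rep_incl (rep_smulH hχ) (rep_smulH hχ) h h x

theorem norm_le_of_sec {A : F.H k p →L[ℝ] X} {c : ℝ} (hc : 0 ≤ c)
    (h : ∀ u, ‖A (F.toH k p u)‖ ≤ c * ‖F.toH k p u‖) : ‖A‖ ≤ c :=
  A.opNorm_le_bound hc (H_le (by fun_prop) (by fun_prop) h)

/-- multiplication by a coefficient which depends linearly on a decaying function -/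
theorem cq_mul {U : Type} [NormedAddCommGroup U] [InnerProductSpace ℝ U] [FiniteDimensional ℝ U]
    {r : M → U →L[ℝ] U} {S : ℝ} (hS : Sup F S) (L : U →L[ℝ] V →L[ℝ] W) (h : F.H (k + 4) r)
    (hh : Sm I (F.val _ _ h)) : Cq (F.mulH k p (triv M W) (fun x => L (F.val _ _ h x)) ∘L
      F.incl (k + 1) k p) 0 := by
  have c1 : 0 ≤ cK ι k * (‖L‖ * √|S|) := by have := cK_nonneg (ι := ι) k; positivity
  refine Cq.of_approx fun ε hε => ?_
  obtain ⟨u, hu⟩ := Metric.denseRange_iff.1 (F.dense_toH (k + 4) r) h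
    (ε / (cK ι k * (‖L‖ * √|S|) + 1)) (by positivity)
  have e : F.val _ _ (h - F.toH _ r u) = F.val _ _ h - u.1 := by
    rw [val_sub, val_toH hS (by omega)]
  have s1 : Sm I fun x => L (u.1 x) := L.contMDiff.comp u.2.1
  have s2 : Sm I (F.val _ _ (h - F.toH _ r u)) := e ▸ hh.sub u.2.1
  have c2 : HasCompactSupport fun x => L (u.1 x) := u.2.2.1.comp_left (map_zero L)
  obtain ⟨r2, n2⟩ := rep_mulH' (F := F) (p := p) (L.contMDiff.comp s2)
    (CB_clm L s2 (CB_val hS k le_rfl (h - F.toH _ r u))) (.triv _)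
  have r1 := rep_mulH (k := k) (p := p) (Cb_of_hcs (F := F) s1 c2) (.triv _)
  refine ⟨_, .zero (Cht98.rellich_mul (F := F) s1 c2 (.triv _) k.lt_succ_self), ?_⟩
  have e2 : F.mulH k p (triv M W) (fun x => L (F.val _ _ h x)) = _ :=
    (liftT_congr fun v => funext fun x => by simp [e]).trans (RepT_add r1 r2).liftT_eq
  rw [e2, sub_zero, ContinuousLinearMap.add_comp, add_sub_cancel_left]
  refine (ContinuousLinearMap.opNorm_comp_le _ _).trans ((mul_le_mul n2 (rep_incl' k.le_succ).2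
    (norm_nonneg _) (mul_nonneg (cK_nonneg _) (abs_nonneg _))).trans ?_)
  rw [dist_eq_norm, lt_div_iff₀ (by positivity)] at hu
  rw [mul_one, abs_of_nonneg (by positivity)]
  have := norm_nonneg (h - F.toH _ r u)
  nlinarith

end lc

/-! ### parametrices of an elliptic operator -/

section par
variable {ι' : Type} [Fintype ι'] {F : Fr I M ι'} {G : Fr I M ι} (h : Tw F G) {A : Op M ι V W}
  (hA : Nc F.toPre G.P A) (hc : A.Cliff G)
include h hA hc

theorem exists_left (j : ℕ) : ∃ (Q : F.H (j + 1) A.q →L[ℝ] F.H (j + 2) A.p)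
    (R : F.H (j + 1) A.p →L[ℝ] F.H (j + 2) A.p), ∀ u,
      Q (LH F.toPre G.toPre (j + 1) A.p A.q A u) + R (F.incl (j + 2) (j + 1) A.p u) = u := by
  obtain ⟨C, h1, h2⟩ := h.good hA
  let P := par h1 h2 hc
  refine ⟨((chg (j + 2) A.p h.cmp).symm : _ →L[ℝ] _) ∘L P.G j ∘L P.Ls j ∘L
      (chg (j + 1) A.q h.cmp : _ →L[ℝ] _), ((chg (j + 2) A.p h.cmp).symm : _ →L[ℝ] _) ∘L P.G j ∘L
      P.i j ∘L (chg (j + 1) A.p h.cmp : _ →L[ℝ] _), fun u => ?_⟩
  simp only [ContinuousLinearMap.comp_apply, ContinuousLinearEquiv.coe_coe, ← map_add]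
  rw [ContinuousLinearEquiv.symm_apply_eq, h.chg_LH hA, chg_incl h.cmp (j + 1).le_succ]
  exact (congrArg (P.G j) (add_comm _ _)).trans (P.G_Q j _)

theorem exists_right (k : ℕ) : ∃ (Q : F.H k A.q →L[ℝ] F.H (k + 1) A.p)
    (R : F.H k A.q →L[ℝ] F.H (k + 1) A.q), ∀ f,
      LH F.toPre G.toPre k A.p A.q A (Q f) + F.incl (k + 1) k A.q (R f) = f := by
  obtain ⟨C, h1, h2⟩ := h.good hA
  let P := (par h1 h2 hc).swap
  refine ⟨((chg (k + 1) A.p h.cmp).symm : _ →L[ℝ] _) ∘L P.L (k + 1) ∘L P.G k ∘L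
      (chg k A.q h.cmp : _ →L[ℝ] _), ((chg (k + 1) A.q h.cmp).symm : _ →L[ℝ] _) ∘L P.i (k + 1) ∘L
      P.G k ∘L (chg k A.q h.cmp : _ →L[ℝ] _), fun f => (chg k A.q h.cmp).injective ?_⟩
  simp only [ContinuousLinearMap.comp_apply, ContinuousLinearEquiv.coe_coe]
  rw [map_add, h.chg_LH hA, chg_incl h.cmp k.le_succ, ContinuousLinearEquiv.apply_symm_apply,
    ContinuousLinearEquiv.apply_symm_apply]
  exact (add_comm _ _).trans (P.Q_G k _)

end par

/-! ### transplantation -/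

section tp
variable {F : Pre I M ι} {F' : Pre I' M' ι} {φ : OpenPartialHomeomorph M M'} {θ η : M → ℝ}
  {θ' η' : M' → ℝ} {p : M → V →L[ℝ] V} {p' : M' → V →L[ℝ] V}

variable (F F' φ k p' p θ') in
/-- cut off and pull back -/
def tp : F'.H k p' →L[ℝ] F.H k p := trH F F' φ k p' p fun y => θ' y • ContinuousLinearMap.id ℝ V

namespace Ct
variable (h : Ct F F' φ θ θ') (hp : ∀ x ∈ φ.source, p x = p' (φ x))
include h

theorem off {x : M} (hx : x ∉ φ.source) : θ x = 0 :=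
  image_eq_zero_of_notMem_tsupport fun e => hx (h.adm.1 e)

include hp

theorem rep : F'.RepT F (tp k F F' φ θ' p p') fun u => pull φ fun y => θ' y • u y := by
  obtain ⟨C, hC⟩ := Cb_smul h.cb' (Cb_const (F := F') (ContinuousLinearMap.id ℝ V))
  exact (rep_trH h.iso hC.1 (hC.2 k) ((tsupport_smul_subset_left _ _).trans h.adm'.1)
    fun x hx v hv => by simp [hp x hx, hv]).1

theorem incl (hj : j ≤ k) (x : F'.H k p') :
    F.incl k j p (tp k F F' φ θ' p p' x) = tp j F F' φ θ' p p' (F'.incl k j p' x) :=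
  DFunLike.congr_fun (RepT_eq (RepT_comp (rep_incl hj) (h.rep hp))
    (RepT_comp (h.rep hp) (rep_incl hj)) fun _ => rfl) x

theorem val {S S' : ℝ} (hS : Sup F S) (hS' : Sup F' S') (hk : 4 ≤ k) (u : F'.H k p') (x : M) :
    F.val k p (tp k F F' φ θ' p p' u) x = θ x • F'.val k p' u (φ x) := by
  refine H_eq (f := fun u => F.ev k p x (tp k F F' φ θ' p p' u))
    (g := fun u => θ x • F'.ev k p' (φ x) u) (by fun_prop) (by fun_prop) (fun u => ?_) u
  rw [RepT_toH (h.rep hp), (ev_spec hS hk x).1, (ev_spec hS' hk _).1]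
  by_cases hx : x ∈ φ.source
  · simp only [pull_of_mem hx, h.eq x hx]
  · simp only [pull_of_notMem hx, h.off hx, zero_smul]

end Ct

variable (φ) in
/-- operators with the same symbol -/
structure ORel (G : Pre I M ι) (G' : Pre I' M' ι) (A : Op M ι V W) (A' : Op M' ι V W) : Prop where
  iso : Iso G G' φ
  p : ∀ x ∈ φ.source, A.p x = A'.p (φ x)
  q : ∀ x ∈ φ.source, A.q x = A'.q (φ x)
  σ : ∀ a, ∀ x ∈ φ.source, A.σ a x = A'.σ a (φ x)

theorem ORel.symm {G : Pre I M ι} {G' : Pre I' M' ι} {A : Op M ι V W} {A' : Op M' ι V W}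
    (h : ORel φ G G' A A') : ORel φ.symm G' G A' A :=
  ⟨iso_symm h.iso, fun x hx => by rw [h.p _ (φ.map_target hx), φ.right_inv hx],
    fun x hx => by rw [h.q _ (φ.map_target hx), φ.right_inv hx],
    fun a x hx => by rw [h.σ a _ (φ.map_target hx), φ.right_inv hx]⟩

end tp

section comm
variable {F G : Fr I M ι} {F' G' : Fr I' M' ι} {φ : OpenPartialHomeomorph M M'} {θ : M → ℝ}
  {θ' : M' → ℝ} {A : Op M ι V W} {A' : Op M' ι V W}

/-- transplantation commutes with the operators up to order zero -/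
theorem comm_tp (h : Ct F.toPre F'.toPre φ θ θ') (t : Tw F G) (t' : Tw F' G')
    (hA : Nc F.toPre G.P A) (hA' : Nc F'.toPre G'.P A') (o : ORel φ G.toPre G'.toPre A A') :
    ∃ K, tp k F.toPre F'.toPre φ θ' A.q A'.q ∘L LH F'.toPre G'.toPre k A'.p A'.q A' =
      LH F.toPre G.toPre k A.p A.q A ∘L tp (k + 1) F.toPre F'.toPre φ θ' A.p A'.p +
        F.incl (k + 1) k A.q ∘L K := by
  have sθ := h.cb.choose_spec.1
  have sθ' := h.cb'.choose_spec.1
  obtain ⟨C, hC⟩ := Cb_smul h.cb hA.B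
  have a1 : Adm φ.symm (tsupport fun x => θ x • A.B x) :=
    h.adm.mono (isClosed_tsupport _) (tsupport_smul_subset_left _ _)
  have c1 : F'.Cb (pull φ.symm fun x => θ x • A.B x) :=
    ⟨_, sm_pull (iso_symm h.iso) hC.1 a1, fun k => CB_pull (iso_symm h.iso) k hC.1 a1 (hC.2 k)⟩
  have c2 : ∀ a, F'.Cb (G'.D a θ') := fun a => t'.cmp.Cb_iff.2 (Cb_D (t'.cmp.Cb_iff.1 h.cb') a)
  obtain ⟨C', hf⟩ := Cb_sub (Cb_sub (Cb_smul h.cb' hA'.B) c1)
    (Cb_sum Finset.univ fun a _ => Cb_smul (c2 a) (hA'.σ a))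
  have e1 : ∀ x ∈ φ.source, pull φ.symm (fun x => θ x • A.B x) (φ x) = θ' (φ x) • A.B x :=
    fun x hx => by rw [pull_of_mem (φ := φ.symm) (φ.map_source hx), φ.left_inv hx, h.eq x hx]
  refine ⟨_, RepT_eq (RepT_comp (h.rep o.q) (t'.rep hA' k)) (RepT_add (RepT_comp (t.rep hA k)
    (h.rep o.p)) (RepT_comp (rep_incl k.le_succ) (rep_trH h.iso hf.1 (hf.2 (k + 1))
      ((closure_minimal (support_subset_iff'.2 fun y e => ?_) (isClosed_tsupport θ')).trans
        h.adm'.1) fun x hx v hv => ?_).1)) fun u => funext fun x => ?_⟩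
  · have e0 := image_eq_zero_of_notMem_tsupport e
    have e2 : ∀ a, G'.D a θ' y = 0 := fun a =>
      image_eq_zero_of_notMem_tsupport fun k => e (G'.tsupport_D _ a k)
    by_cases hy : y ∈ φ.target
    · simp [e0, e2, pull_of_mem (φ := φ.symm) hy, ← h.symm.eq y hy]
    · simp [e0, e2, pull_of_notMem (φ := φ.symm) hy]
  · simp [e1 x hx, hA.alg.qB, ← o.σ _ x hx, hA.alg.qσ, o.q x hx ▸ hA'.alg.qB (φ x) v]
  · have su : Sm I' fun y => θ' y • u.1 y := sθ'.smul u.2.1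
    have au : Adm φ (tsupport fun y => θ' y • u.1 y) :=
      h.adm'.mono (isClosed_tsupport _) (tsupport_smul_subset_left _ _)
    by_cases hx : x ∈ φ.source
    · have d : ∀ a, G.D a (pull φ fun y => θ' y • u.1 y) x =
          G'.D a θ' (φ x) • u.1 (φ x) + θ' (φ x) • G'.D a u.1 (φ x) := fun a =>
        (iso_D' o.iso a su (fun _ hx => pull_of_mem hx _) hx).trans
          (dv_smul (md sθ' _) (md u.2.1 _))
      simp only [Pi.add_apply, id, pull_of_mem hx, Pre.op, d, o.σ _ x hx, Pi.sub_apply, e1 x hx,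
        _root_.sub_apply, _root_.smul_apply, _root_.sum_apply, map_add, map_smul,
        Finset.sum_add_distrib, smul_add, Finset.smul_sum]
      abel
    · have := image_eq_zero_of_notMem_tsupport fun e => hx (au.tsupport_pull
        (tsupport_op (F := G.toPre) A.σ A.B _ e)).1
      simp only [Pi.add_apply, id, pull_of_notMem hx, this, add_zero]

theorem ct_refl {F : Pre I M ι} {θ : M → ℝ} (h : F.Cb θ) : Ct F F (.refl M) θ θ :=
  have a : Adm (.refl M) (tsupport θ) := ⟨subset_univ _, by simpa using isClosed_tsupport θ⟩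
  ⟨⟨contMDiffOn_id, contMDiffOn_id, fun a x _ => DFunLike.congr_fun (mfderiv_id (I := I)) _,
    by simp⟩, h, h, a, a, fun _ _ => rfl⟩

theorem tp_refl {F : Pre I M ι} {θ : M → ℝ} (h : F.Cb θ) (p : M → V →L[ℝ] V) :
    tp k F F (.refl M) θ p p = smulH F k p θ :=
  RepT_eq ((ct_refl h).rep fun _ _ => rfl) (rep_smulH h) fun _ => funext fun x =>
    pull_of_mem (mem_univ x) _

theorem comm_smul (h : F.Cb θ) (t : Tw F G) (hA : Nc F.toPre G.P A) :
    ∃ K, smulH F.toPre k A.q θ ∘L LH F.toPre G.toPre k A.p A.q A =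
      LH F.toPre G.toPre k A.p A.q A ∘L smulH F.toPre (k + 1) A.p θ + F.incl (k + 1) k A.q ∘L K := by
  rw [← tp_refl h, ← tp_refl h]
  exact comm_tp (ct_refl h) t t hA hA ⟨(ct_refl (Cb_const (F := G.toPre) (0 : ℝ))).iso,
    fun _ _ => rfl, fun _ _ => rfl, fun _ _ _ => rfl⟩

/-- the difference of the transplanted operators is locally compact -/
theorem lc_tp (h : Ct F.toPre F'.toPre φ θ θ') (t : Tw F G) (t' : Tw F' G')
    (hA : Nc F.toPre G.P A) (hA' : Nc F'.toPre G'.P A') (o : ORel φ G.toPre G'.toPre A A')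
    {T : F.H (k + 1) A.p →L[ℝ] F.H k A.q} {T' : F'.H (k + 1) A'.p →L[ℝ] F'.H k A'.q}
    (hT : ∃ K, T = LH F.toPre G.toPre k A.p A.q A + F.incl (k + 1) k A.q ∘L K)
    (hT' : ∃ K, T' = LH F'.toPre G'.toPre k A'.p A'.q A' + F'.incl (k + 1) k A'.q ∘L K) :
    LC (tp k F.toPre F'.toPre φ θ' A.q A'.q ∘L T' -
      T ∘L tp (k + 1) F.toPre F'.toPre φ θ' A.p A'.p) := by
  obtain ⟨K, rfl⟩ := hT
  obtain ⟨K', rfl⟩ := hT'
  obtain ⟨K₁, e⟩ := comm_tp (k := k) h t t' hA hA' o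
  refine (lc_incl (K₁ + tp (k + 1) F.toPre F'.toPre φ θ' A.q A'.q ∘L K' -
    K ∘L tp (k + 1) F.toPre F'.toPre φ θ' A.p A'.p)).congr fun x => ?_
  have := DFunLike.congr_fun e x
  simp only [_root_.sub_apply, _root_.add_apply, ContinuousLinearMap.comp_apply, map_add, map_sub,
    h.incl o.q k.le_succ] at this ⊢
  rw [this]; abel

end comm

end Crest.Agent.X212.Nk89
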